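import Vale.Agent.P146.H706.LawC
import Vale.Agent.P146.H712.Pos
import Vale.Agent.P146.H816.CleanP

/-! P146, R1 (8c): the law change for the law `dens q F` on the coordinates `K4 κ`. -/

set_option linter.all false

open MeasureTheory ProbabilityTheory Finset

namespace Vale.Agent.P146.R1C

open Vale.Agent.P157.Lv Vale.Agent.P146.H425 Vale.Agent.P146.H712 Vale.Agent.P146.R1
  Vale.Agent.P146.H706

section gen

variable {κ : Type} [Fintype κ] [DecidableEq κ] {F : (κ → ℝ) → ℝ} {D : κ → (κ → ℝ) → ℝ}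
  {B L : ℝ} {q : Par} {R : Finset κ}

/-- the log density -/
noncomputable def psi (q : Par) (F : (κ → ℝ) → ℝ) (w : K4 κ → ℝ) : ℝ :=
  q.x * uu q.x q.s2 F (P3 q w) + q.θ * xi q.x q.t0 q.t1 F (P0 q w) (P1 q w)

/-- its partial derivatives -/
noncomputable def psi' (q : Par) (F : (κ → ℝ) → ℝ) (D : κ → (κ → ℝ) → ℝ) (j : K4 κ)
    (w : K4 κ → ℝ) : ℝ :=
  q.x * (k3 q (bl j) * dd q.x q.s2 F D (bs j) (P3 q w)) +
    q.θ * (q.x * (k1 q (bl j) * dd q.x q.t1 F D (bs j) (P1 q w) -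
      k0 q (bl j) * dd q.x q.t0 F D (bs j) (P0 q w)))

/-- the squared gradient in the coordinates of `R` -/
noncomputable def grF (x t : ℝ) (F : (κ → ℝ) → ℝ) (D : κ → (κ → ℝ) → ℝ) (R : Finset κ)
    (z : κ → ℝ) : ℝ := ∑ e ∈ R, dd x t F D e z ^ 2

lemma dens_eq (w : K4 κ → ℝ) : dens q F w = Real.exp (psi q F w) := rfl

lemma grF_nonneg (x t : ℝ) (z : κ → ℝ) : 0 ≤ grF x t F D R z := sum_nonneg fun _ _ => sq_nonneg _

lemma eg_dd (h : C11 F D B L) {x : ℝ} (hx : 0 < x) (t : ℝ) (e : κ) : EG (dd x t F D e) :=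
  (c11_uu h hx t).eg_D e

lemma eg_grF (h : C11 F D B L) {x : ℝ} (hx : 0 < x) (t : ℝ) : EG (grF x t F D R) :=
  EG.sum _ fun e _ => (eg_dd h hx t e).pow 2

lemma grF_le (h : C11 F D B L) {x : ℝ} (hx : 0 < x) {Bd : ℝ}
    (hR : ∀ z, ∑ e ∈ R, D e z ^ 2 ≤ Bd) (t : ℝ) (z : κ → ℝ) : grF x t F D R z ≤ Bd := by
  set s := √(1 - t) with hs
  have eN : EG fun y => Real.exp (x * F (z + s • y)) := EG.add_smul (h.eg_exp x) z s
  have eD : ∀ e, EG fun y => D e (z + s • y) := fun e => EG.add_smul (h.eg_D e) z s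
  have hpos : 0 < ∫ y, Real.exp (x * F (z + s • y)) ∂(gI κ) := integral_exp_pos eN.integrable
  have h1 : ∀ e, (∫ y, Real.exp (x * F (z + s • y)) ∂(gI κ)) * dd x t F D e z ^ 2 ≤
      ∫ y, Real.exp (x * F (z + s • y)) * D e (z + s • y) ^ 2 ∂(gI κ) := fun e =>
    cs_int eN (fun y => (Real.exp_pos _).le) hpos (eD e)
  have h2 : (∫ y, Real.exp (x * F (z + s • y)) ∂(gI κ)) * grF x t F D R z ≤
      (∫ y, Real.exp (x * F (z + s • y)) ∂(gI κ)) * Bd := by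
    unfold grF
    rw [mul_sum]
    refine (sum_le_sum fun e _ => h1 e).trans ?_
    rw [← integral_finsetSum _ fun e _ => (eN.mul ((eD e).pow 2)).integrable, ← integral_mul_const]
    refine integral_mono (EG.sum _ fun e _ => eN.mul ((eD e).pow 2)).integrable
      (eN.integrable.mul_const _) fun y => ?_
    show ∑ e ∈ R, Real.exp (x * F (z + s • y)) * D e (z + s • y) ^ 2 ≤
      Real.exp (x * F (z + s • y)) * Bd
    rw [← mul_sum]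
    exact mul_le_mul_of_nonneg_left (hR _) (Real.exp_pos _).le
  exact le_of_mul_le_mul_left h2 hpos

lemma lip_lp (c : Fin 4 → ℝ) {f : (κ → ℝ) → ℝ} (hf : Lip f) : Lip fun w : K4 κ → ℝ => f (lp c w) := by
  refine lip_b hf (c := |c 0| + |c 1| + |c 2| + |c 3|) (by positivity) fun w w' => ?_
  have : lp c w - lp c w' = lp c (w - w') := by
    funext e
    simp only [H712.lp, Pi.sub_apply]
    ring
  rw [this]
  exact norm_lp_le c _

lemma P0_lp (w : K4 κ → ℝ) : P0 q w = lp (k0 q) w := p0_lp _ _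
lemma P1_lp (w : K4 κ → ℝ) : P1 q w = lp (k1 q) w := p1_lp _ _ _
lemma P2_lp (w : K4 κ → ℝ) : P2 q w = lp (k2 q) w := p2_lp _ _ _ _
lemma P3_lp (w : K4 κ → ℝ) : P3 q w = lp (k3 q) w := p3_lp _ _ _ _ _

lemma lip_psi (h : C11 F D B L) (hx : 0 < q.x) : Lip (psi q F) := by
  have l : ∀ t, Lip (uu q.x t F) := fun t => (c11_uu h hx t).lip.lip h.B0
  have e : psi q F = fun w => q.x * uu q.x q.s2 F (lp (k3 q) w) +
      q.θ * (q.x * (uu q.x q.t1 F (lp (k1 q) w) + -1 * uu q.x q.t0 F (lp (k0 q) w))) := by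
    funext w
    unfold psi xi
    rw [P0_lp, P1_lp, P3_lp]
    ring
  rw [e]
  exact ((lip_lp _ (l _)).const_mul _).add
    ((((lip_lp _ (l _)).add ((lip_lp _ (l _)).const_mul _)).const_mul _).const_mul _)

lemma pd_psi (h : C11 F D B L) (hx : 0 < q.x) (j : K4 κ) : PD j (psi q F) (psi' q F D j) := by
  have p : ∀ t, PD (bs j) (uu q.x t F) (dd q.x t F D (bs j)) := fun t => (c11_uu h hx t).pd _
  exact ((pd_P3 (p _)).const_mul _).add ((((pd_P1 (p _)).sub (pd_P0 (p _))).const_mul _).const_mul _)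

lemma eg_psi' (h : C11 F D B L) (hx : 0 < q.x) (j : K4 κ) : EG (psi' q F D j) := by
  have e : ∀ t, EG (dd q.x t F D (bs j)) := fun t => eg_dd h hx t _
  exact (((eg_P3 (e _)).const_mul _).const_mul _).add
    (((((eg_P1 (e _)).const_mul _).sub ((eg_P0 (e _)).const_mul _)).const_mul _).const_mul _)

/-- the row gradient of the log density -/
theorem psi_sq_le (hq : q.Ok) (w : K4 κ → ℝ) :
    ∑ j ∈ lf R, psi' q F D j w ^ 2 ≤ 3 * q.x ^ 2 * (grF q.x q.s2 F D R (P3 q w) +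
      (q.θ ^ 2 * grF q.x q.t1 F D R (P1 q w) + q.θ ^ 2 * grF q.x q.t0 F D R (P0 q w))) := by
  have h3 := sum_k3 hq R (fun e => dd q.x q.s2 F D e (P3 q w))
  have h1 := sum_k1 hq R (fun e => dd q.x q.t1 F D e (P1 q w))
  have h0 := sum_k0 hq R (fun e => dd q.x q.t0 F D e (P0 q w))
  have hle : ∑ j ∈ lf R, psi' q F D j w ^ 2 ≤
      ∑ j ∈ lf R, (3 * q.x ^ 2 * (k3 q (bl j) * dd q.x q.s2 F D (bs j) (P3 q w)) ^ 2 +
        (3 * q.x ^ 2 * q.θ ^ 2 * (k1 q (bl j) * dd q.x q.t1 F D (bs j) (P1 q w)) ^ 2 +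
          3 * q.x ^ 2 * q.θ ^ 2 * (k0 q (bl j) * dd q.x q.t0 F D (bs j) (P0 q w)) ^ 2)) := by
    refine sum_le_sum fun j _ => ?_
    unfold psi'
    set a := k3 q (bl j) * dd q.x q.s2 F D (bs j) (P3 q w)
    set b := k1 q (bl j) * dd q.x q.t1 F D (bs j) (P1 q w)
    set c := k0 q (bl j) * dd q.x q.t0 F D (bs j) (P0 q w)
    nlinarith [sq_nonneg (q.x * a - q.x * q.θ * b), sq_nonneg (q.x * a + q.x * q.θ * c),
      sq_nonneg (q.x * q.θ * b + q.x * q.θ * c)]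
  refine hle.trans ?_
  rw [sum_add_distrib, sum_add_distrib, ← mul_sum, ← mul_sum, ← mul_sum, h3, h1, h0]
  have g3 := grF_nonneg (F := F) (D := D) (R := R) q.x q.s2 (P3 q w)
  have g1 := grF_nonneg (F := F) (D := D) (R := R) q.x q.t1 (P1 q w)
  have g0 := grF_nonneg (F := F) (D := D) (R := R) q.x q.t0 (P0 q w)
  have hs2 : q.s2 ≤ 1 := hq.h2
  have ht1 : q.t1 ≤ 1 := hq.h1.trans (hq.h12.trans hq.h2)
  have ht0 : q.t0 ≤ 1 := hq.h01.trans ht1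
  have hx2 : 0 ≤ 3 * q.x ^ 2 := by positivity
  have hx2' : 0 ≤ 3 * q.x ^ 2 * q.θ ^ 2 := by positivity
  have e3 : q.s2 * grF q.x q.s2 F D R (P3 q w) ≤ 1 * grF q.x q.s2 F D R (P3 q w) :=
    mul_le_mul_of_nonneg_right hs2 g3
  have e1 : q.t1 * grF q.x q.t1 F D R (P1 q w) ≤ 1 * grF q.x q.t1 F D R (P1 q w) :=
    mul_le_mul_of_nonneg_right ht1 g1
  have e0 : q.t0 * grF q.x q.t0 F D R (P0 q w) ≤ 1 * grF q.x q.t0 F D R (P0 q w) :=
    mul_le_mul_of_nonneg_right ht0 g0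
  have f3 := mul_le_mul_of_nonneg_left e3 hx2
  have f1 := mul_le_mul_of_nonneg_left e1 hx2'
  have f0 := mul_le_mul_of_nonneg_left e0 hx2'
  unfold grF at *
  linarith

/-- the log density satisfies the hypotheses of the law change -/
theorem lf_psi (h : C11 F D B L) (hq : q.Ok) {Bd l : ℝ} (hR : ∀ z, ∑ e ∈ R, D e z ^ 2 ≤ Bd)
    (hl0 : 0 ≤ l) (hl : 9 * q.x ^ 2 * Bd ≤ l ^ 2) :
    LF (lf R) (psi q F) (psi' q F D) l where
  lip := lip_psi h hq.x0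
  pd j _ := pd_psi h hq.x0 j
  eg j _ := eg_psi' h hq.x0 j
  nn := hl0
  le w := by
    refine (psi_sq_le hq w).trans (le_trans ?_ hl)
    have g3 := grF_le (R := R) h hq.x0 hR q.s2 (P3 q w)
    have g1 := grF_le (R := R) h hq.x0 hR q.t1 (P1 q w)
    have g0 := grF_le (R := R) h hq.x0 hR q.t0 (P0 q w)
    have hBd : 0 ≤ Bd := (grF_nonneg _ _ _).trans g0
    have hθ : q.θ ^ 2 ≤ 1 := pow_le_one₀ hq.θ0 hq.θ1
    have k1 : q.θ ^ 2 * grF q.x q.t1 F D R (P1 q w) ≤ 1 * Bd :=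
      mul_le_mul hθ g1 (grF_nonneg _ _ _) zero_le_one
    have k0 : q.θ ^ 2 * grF q.x q.t0 F D R (P0 q w) ≤ 1 * Bd :=
      mul_le_mul hθ g0 (grF_nonneg _ _ _) zero_le_one
    have : 3 * q.x ^ 2 * (grF q.x q.s2 F D R (P3 q w) + (q.θ ^ 2 * grF q.x q.t1 F D R (P1 q w) +
        q.θ ^ 2 * grF q.x q.t0 F D R (P0 q w))) ≤ 3 * q.x ^ 2 * (3 * Bd) :=
      mul_le_mul_of_nonneg_left (by linarith) (by positivity)
    linarith

lemma eg_dens (h : C11 F D B L) (hx : 0 < q.x) : EG (dens q F) := by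
  have := (lip_psi (q := q) h hx).exp_eg 1
  simp only [one_mul] at this
  exact this

lemma Ew_one_pos (h : C11 F D B L) (hx : 0 < q.x) : 0 < Ew q F (fun _ => 1) := by
  unfold Ew
  simp only [mul_one, dens_eq]
  have h1 : EG fun w => Real.exp (psi q F w) := eg_dens (q := q) h hx
  exact integral_exp_pos h1.integrable

/-- **(LC1)** for the law of R1 -/
theorem law_up (h : C11 F D B L) (hq : q.Ok) {Bd l : ℝ} (hR : ∀ z, ∑ e ∈ R, D e z ^ 2 ≤ Bd)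
    (hl0 : 0 ≤ l) (hl : 9 * q.x ^ 2 * Bd ≤ l ^ 2) (p : ℕ) (hp : ((p : ℝ) + 1) ^ 2 * l ^ 2 ≤ 1)
    {f : (K4 κ → ℝ) → ℝ} (hf : EG f) {K : ℝ} (h0 : ∀ w, 0 ≤ f w) (hK : ∀ w, f w ≤ K) :
    Ew q F f ≤ 2 * Ew q F (Av (lf R) f) + 3 * K / 2 ^ p * Ew q F (fun _ => 1) := by
  have := (lf_psi h hq hR hl0 hl).LC1 p hp hf h0 hK
  unfold Ew
  simpa only [mul_one, dens_eq] using this

/-- **(LC1)** for the law of R1 -/
theorem law_low (h : C11 F D B L) (hq : q.Ok) {Bd l : ℝ} (hR : ∀ z, ∑ e ∈ R, D e z ^ 2 ≤ Bd)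
    (hl0 : 0 ≤ l) (hl : 9 * q.x ^ 2 * Bd ≤ l ^ 2) (p : ℕ) (hp : ((p : ℝ) + 1) ^ 2 * l ^ 2 ≤ 1)
    {f : (K4 κ → ℝ) → ℝ} (hf : EG f) {K : ℝ} (h0 : ∀ w, 0 ≤ f w) (hK : ∀ w, f w ≤ K) :
    Ew q F (Av (lf R) f) ≤ 2 * Ew q F f + 3 * K / 2 ^ p * Ew q F (fun _ => 1) := by
  have := (lf_psi h hq hR hl0 hl).LC1' p hp hf h0 hK
  unfold Ew
  simpa only [mul_one, dens_eq] using this

/-- the square of the row gradient under the clean law -/
theorem psi_four_le (h : C11 F D B L) (hq : q.Ok) {φ : (K4 κ → ℝ) → ℝ} (hφ : EG φ)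
    (hφ0 : ∀ w, 0 ≤ φ w) :
    ∫ w, φ w * (∑ j ∈ lf R, psi' q F D j w ^ 2) ^ 2 ∂(gI (K4 κ)) ≤
      27 * q.x ^ 4 * ((∫ w, φ w * grF q.x q.s2 F D R (P3 q w) ^ 2 ∂(gI (K4 κ))) +
        (q.θ ^ 4 * (∫ w, φ w * grF q.x q.t1 F D R (P1 q w) ^ 2 ∂(gI (K4 κ))) +
          q.θ ^ 4 * ∫ w, φ w * grF q.x q.t0 F D R (P0 q w) ^ 2 ∂(gI (K4 κ)))) := by
  have e : ∀ t, EG (grF q.x t F D R) := fun t => eg_grF h hq.x0 t
  have i3 : Integrable (fun w => φ w * grF q.x q.s2 F D R (P3 q w) ^ 2) (gI (K4 κ)) :=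
    (hφ.mul ((eg_P3 (e _)).pow 2)).integrable
  have i1 : Integrable (fun w => q.θ ^ 4 * (φ w * grF q.x q.t1 F D R (P1 q w) ^ 2)) (gI (K4 κ)) :=
    (hφ.mul ((eg_P1 (e _)).pow 2)).integrable.const_mul _
  have i0 : Integrable (fun w => q.θ ^ 4 * (φ w * grF q.x q.t0 F D R (P0 q w) ^ 2)) (gI (K4 κ)) :=
    (hφ.mul ((eg_P0 (e _)).pow 2)).integrable.const_mul _
  have i10 : Integrable (fun w => q.θ ^ 4 * (φ w * grF q.x q.t1 F D R (P1 q w) ^ 2) +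
      q.θ ^ 4 * (φ w * grF q.x q.t0 F D R (P0 q w) ^ 2)) (gI (K4 κ)) := i1.add i0
  have eS : EG fun w => (∑ j ∈ lf R, psi' q F D j w ^ 2) ^ 2 :=
    (EG.sum _ fun j _ => (eg_psi' h hq.x0 j).pow 2).pow 2
  rw [← integral_const_mul (q.θ ^ 4), ← integral_const_mul (q.θ ^ 4), ← integral_add i1 i0,
    ← integral_add i3 i10, ← integral_const_mul]
  refine integral_mono (hφ.mul eS).integrable ((i3.add i10).const_mul _) fun w => ?_
  have h1 := psi_sq_le (R := R) (F := F) (D := D) hq w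
  have h2 : 0 ≤ ∑ j ∈ lf R, psi' q F D j w ^ 2 := sum_nonneg fun _ _ => sq_nonneg _
  have g3 := grF_nonneg (F := F) (D := D) (R := R) q.x q.s2 (P3 q w)
  have g1 := grF_nonneg (F := F) (D := D) (R := R) q.x q.t1 (P1 q w)
  have g0 := grF_nonneg (F := F) (D := D) (R := R) q.x q.t0 (P0 q w)
  show φ w * (∑ j ∈ lf R, psi' q F D j w ^ 2) ^ 2 ≤ 27 * q.x ^ 4 *
    (φ w * grF q.x q.s2 F D R (P3 q w) ^ 2 + (q.θ ^ 4 * (φ w * grF q.x q.t1 F D R (P1 q w) ^ 2) +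
      q.θ ^ 4 * (φ w * grF q.x q.t0 F D R (P0 q w) ^ 2)))
  set S := ∑ j ∈ lf R, psi' q F D j w ^ 2
  set a := grF q.x q.s2 F D R (P3 q w)
  set b := grF q.x q.t1 F D R (P1 q w)
  set c := grF q.x q.t0 F D R (P0 q w)
  have h3 : S ^ 2 ≤ (3 * q.x ^ 2 * (a + (q.θ ^ 2 * b + q.θ ^ 2 * c))) ^ 2 :=
    pow_le_pow_left₀ h2 h1 2
  have h4 : (a + (q.θ ^ 2 * b + q.θ ^ 2 * c)) ^ 2 ≤ 3 * (a ^ 2 + (q.θ ^ 4 * b ^ 2 + q.θ ^ 4 * c ^ 2)) := by
    nlinarith [sq_nonneg (a - q.θ ^ 2 * b), sq_nonneg (a - q.θ ^ 2 * c),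
      sq_nonneg (q.θ ^ 2 * b - q.θ ^ 2 * c)]
  have h5 : (3 * q.x ^ 2 * (a + (q.θ ^ 2 * b + q.θ ^ 2 * c))) ^ 2 ≤
      27 * q.x ^ 4 * (a ^ 2 + (q.θ ^ 4 * b ^ 2 + q.θ ^ 4 * c ^ 2)) := by
    have h6 : 0 ≤ 9 * q.x ^ 4 := by positivity
    have := mul_le_mul_of_nonneg_left h4 h6
    nlinarith
  have := mul_le_mul_of_nonneg_left (h3.trans h5) (hφ0 w)
  calc _ ≤ _ := this
    _ = _ := by ring

/-- eighth moments control the square of a quartic functional -/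
lemma quart_sq_le {ι q' : Type} [Fintype ι] [Fintype q'] {φ : (ι → ℝ) → ℝ} (hφ : EG φ)
    (hφ0 : ∀ w, 0 ≤ φ w) {A B C E : (ι → ℝ) → q' → ℝ} (hA : ∀ i, EG fun w => A w i)
    (hB : ∀ i, EG fun w => B w i) (hC : ∀ i, EG fun w => C w i) (hE : ∀ i, EG fun w => E w i)
    {M8 : ℝ} (mA : ∫ w, φ w * vs (A w) ^ 4 ∂(gI ι) ≤ M8) (mB : ∫ w, φ w * vs (B w) ^ 4 ∂(gI ι) ≤ M8)
    (mC : ∫ w, φ w * vs (C w) ^ 4 ∂(gI ι) ≤ M8) (mE : ∫ w, φ w * vs (E w) ^ 4 ∂(gI ι) ≤ M8) :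
    ∫ w, φ w * (dp (A w) (B w) * dp (C w) (E w)) ^ 2 ∂(gI ι) ≤ M8 := by
  have ev : ∀ {X : (ι → ℝ) → q' → ℝ}, (∀ i, EG fun w => X w i) → EG fun w => vs (X w) :=
    fun h => EG.sum _ fun i _ => (h i).pow 2
  have ed : ∀ {X Y : (ι → ℝ) → q' → ℝ}, (∀ i, EG fun w => X w i) → (∀ i, EG fun w => Y w i) →
      EG fun w => dp (X w) (Y w) := fun h h' => EG.sum _ fun i _ => (h i).mul (h' i)
  have iA : Integrable (fun w => φ w * vs (A w) ^ 4) (gI ι) := (hφ.mul ((ev hA).pow 4)).integrable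
  have iB : Integrable (fun w => φ w * vs (B w) ^ 4) (gI ι) := (hφ.mul ((ev hB).pow 4)).integrable
  have iC : Integrable (fun w => φ w * vs (C w) ^ 4) (gI ι) := (hφ.mul ((ev hC).pow 4)).integrable
  have iE : Integrable (fun w => φ w * vs (E w) ^ 4) (gI ι) := (hφ.mul ((ev hE).pow 4)).integrable
  have i2 : Integrable (fun w => φ w * vs (C w) ^ 4 + φ w * vs (E w) ^ 4) (gI ι) := iC.add iE
  have i3 : Integrable (fun w => φ w * vs (B w) ^ 4 + (φ w * vs (C w) ^ 4 + φ w * vs (E w) ^ 4))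
    (gI ι) := iB.add i2
  have i4 : Integrable (fun w => φ w * vs (A w) ^ 4 + (φ w * vs (B w) ^ 4 +
    (φ w * vs (C w) ^ 4 + φ w * vs (E w) ^ 4))) (gI ι) := iA.add i3
  have h1 : ∫ w, φ w * (dp (A w) (B w) * dp (C w) (E w)) ^ 2 ∂(gI ι) ≤
      ∫ w, 1 / 4 * (φ w * vs (A w) ^ 4 + (φ w * vs (B w) ^ 4 +
        (φ w * vs (C w) ^ 4 + φ w * vs (E w) ^ 4))) ∂(gI ι) := by
    refine integral_mono (hφ.mul (((ed hA hB).mul (ed hC hE)).pow 2)).integrable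
      (i4.const_mul _) fun w => ?_
    show φ w * (dp (A w) (B w) * dp (C w) (E w)) ^ 2 ≤ 1 / 4 * (φ w * vs (A w) ^ 4 +
      (φ w * vs (B w) ^ 4 + (φ w * vs (C w) ^ 4 + φ w * vs (E w) ^ 4)))
    have a0 := vs_nonneg (A w)
    have b0 := vs_nonneg (B w)
    have c0 := vs_nonneg (C w)
    have e0 := vs_nonneg (E w)
    have h2 : (dp (A w) (B w) * dp (C w) (E w)) ^ 2 ≤
        (vs (A w) * vs (B w)) * (vs (C w) * vs (E w)) := by
      rw [mul_pow]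
      exact mul_le_mul (dp_sq_le _ _) (dp_sq_le _ _) (sq_nonneg _) (by positivity)
    have h3 : (vs (A w) * vs (B w)) * (vs (C w) * vs (E w)) ≤
        1 / 4 * (vs (A w) ^ 4 + (vs (B w) ^ 4 + (vs (C w) ^ 4 + vs (E w) ^ 4))) := by
      set a := vs (A w)
      set b := vs (B w)
      set c := vs (C w)
      set e := vs (E w)
      nlinarith [sq_nonneg (a * b - c * e), sq_nonneg (a ^ 2 - b ^ 2), sq_nonneg (c ^ 2 - e ^ 2)]
    have := mul_le_mul_of_nonneg_left (h2.trans h3) (hφ0 w)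
    linarith
  refine h1.trans ?_
  rw [integral_const_mul, integral_add iA i3, integral_add iB i2, integral_add iC iE]
  linarith

/-- **the law change in a quartic functional of the rows** -/
theorem lam_le (h : C11 F D B L) (hq : q.Ok) {Bd l : ℝ} (hR : ∀ z, ∑ e ∈ R, D e z ^ 2 ≤ Bd)
    (hl0 : 0 ≤ l) (hl : 9 * q.x ^ 2 * Bd ≤ l ^ 2) (hl1 : 16 * l ^ 2 ≤ 1)
    {q' : Type} [Fintype q'] {U V X Y : (K4 κ → ℝ) → q' → ℝ} (hU : ∀ i, EG fun w => U w i)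
    (hV : ∀ i, EG fun w => V w i) (hX : ∀ i, EG fun w => X w i) (hY : ∀ i, EG fun w => Y w i)
    {M8 : ℝ} (mU : ∫ w, Av (lf R) (dens q F) w * vs (U w) ^ 4 ∂(gI (K4 κ)) ≤ M8)
    (mV : ∫ w, Av (lf R) (dens q F) w * vs (V w) ^ 4 ∂(gI (K4 κ)) ≤ M8)
    (mX : ∫ w, Av (lf R) (dens q F) w * vs (X w) ^ 4 ∂(gI (K4 κ)) ≤ M8)
    (mY : ∫ w, Av (lf R) (dens q F) w * vs (Y w) ^ 4 ∂(gI (K4 κ)) ≤ M8) :
    |∫ w, dens q F w * (dp (U w) (V w) * dp (X w) (Y w)) ∂(gI (K4 κ)) -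
      ∫ w, Av (lf R) (dens q F) w * (dp (U w) (V w) * dp (X w) (Y w)) ∂(gI (K4 κ))| ≤
      √(2 * √(Ew q F (fun _ => 1) * ∫ w, Av (lf R) (dens q F) w *
        (∑ j ∈ lf R, psi' q F D j w ^ 2) ^ 2 ∂(gI (K4 κ)))) * √M8 := by
  have hψ := lf_psi h hq hR hl0 hl
  have ed : ∀ {X Y : (K4 κ → ℝ) → q' → ℝ}, (∀ i, EG fun w => X w i) → (∀ i, EG fun w => Y w i) →
      EG fun w => dp (X w) (Y w) := fun h h' => EG.sum _ fun i _ => (h i).mul (h' i)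
  have h1 := hψ.lc2 hl1 ((ed hU hV).mul (ed hX hY))
  have h2 := quart_sq_le (eg_Av (lf R) (eg_dens (q := q) h hq.x0)) (fun w => (hψ.av_pos w).le)
    hU hV hX hY mU mV mX mY
  have h3 : Ew q F (fun _ => 1) = ∫ w, Real.exp (psi q F w) ∂(gI (K4 κ)) := by
    unfold Ew; simp only [mul_one, dens_eq]
  rw [h3]
  exact h1.trans (mul_le_mul_of_nonneg_left (Real.sqrt_le_sqrt h2) (Real.sqrt_nonneg _))

end gen

end Vale.Agent.P146.R1C
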