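import Vale.Agent.P146.H706.LawS
import Vale.Agent.P146.H816.SkT

/-! P146, R1 (8c): the law change for all pairs, in numbers. -/

set_option linter.all false

open MeasureTheory ProbabilityTheory Finset

namespace Vale.Agent.P146.R1C

open Vale.Agent.P157.Lv Vale.Agent.P146.H425 Vale.Agent.P146.H325 Vale.Agent.P146.H332
  Vale.Agent.P146.H712 Vale.Agent.P146.R1 Vale.Agent.P146.H706 Vale.Agent.P146.H522

lemma sqrt_num {Z x k m4 m8 : ℝ} (hZ : 0 ≤ Z) (hx : 0 ≤ x) (hk : 0 ≤ k) (h4 : 0 ≤ m4) :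
    √(2 * √(Z * (324 * x ^ 4 * k ^ 4 * (Z * m4)))) * √(Z * m8) =
      Z * (6 * x * k * √(√m4) * √m8) := by
  have e1 : Z * (324 * x ^ 4 * k ^ 4 * (Z * m4)) = (18 * x ^ 2 * k ^ 2 * Z) ^ 2 * m4 := by ring
  have e2 : √(Z * (324 * x ^ 4 * k ^ 4 * (Z * m4))) = 18 * x ^ 2 * k ^ 2 * Z * √m4 := by
    rw [e1, Real.sqrt_mul (sq_nonneg _), Real.sqrt_sq (by positivity)]
  rw [e2]
  have e3 : 2 * (18 * x ^ 2 * k ^ 2 * Z * √m4) = (6 * x * k) ^ 2 * (Z * √m4) := by ring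
  rw [e3, Real.sqrt_mul (sq_nonneg _), Real.sqrt_sq (by positivity), Real.sqrt_mul hZ,
    Real.sqrt_mul hZ]
  have e4 : √Z * √Z = Z := Real.mul_self_sqrt hZ
  calc 6 * x * k * (√Z * √√m4) * (√Z * √m8) = (√Z * √Z) * (6 * x * k * √√m4 * √m8) := by ring
    _ = _ := by rw [e4]

variable {n : ℕ} {k : ℝ} {q : Par}

/-- second moments of the columns at the three positions which enter the log density -/
def H4 (k : ℝ) (q : Par) (n : ℕ) (m4 : ℝ) : Prop :=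
  ∀ b b' : Fin n, b' ≠ b → ∀ c, c = b ∨ c = b' →
    ∫ w, ph q (lz k SkS) b b' w * vn (H816.col (AA k q.x q.s2 (P3 q w)) c) ^ 2
      ∂(gI (K4 (Pair n))) ≤ Ew q (lz k (SkS (n := n))) (fun _ => 1) * m4 ∧
    ∫ w, ph q (lz k SkS) b b' w * vn (H816.col (AA k q.x q.t1 (P1 q w)) c) ^ 2
      ∂(gI (K4 (Pair n))) ≤ Ew q (lz k (SkS (n := n))) (fun _ => 1) * m4 ∧
    ∫ w, ph q (lz k SkS) b b' w * vn (H816.col (AA k q.x q.t0 (P0 q w)) c) ^ 2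
      ∂(gI (K4 (Pair n))) ≤ Ew q (lz k (SkS (n := n))) (fun _ => 1) * m4

/-- eighth moments of the columns -/
def H8 (k : ℝ) (q : Par) (n : ℕ) (m8 : ℝ) : Prop :=
  ∀ b b' : Fin n, b' ≠ b → ∀ c, c = b ∨ c = b' →
    ∫ w, ph q (lz k SkS) b b' w * vn (H816.col (A1 k q w) c) ^ 4
      ∂(gI (K4 (Pair n))) ≤ Ew q (lz k (SkS (n := n))) (fun _ => 1) * m8 ∧
    ∫ w, ph q (lz k SkS) b b' w * vn (H816.col (A2 k q w) c) ^ 4
      ∂(gI (K4 (Pair n))) ≤ Ew q (lz k (SkS (n := n))) (fun _ => 1) * m8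

/-- **the law change for all the pairs** -/
theorem lamSk_num (hq : q.Ok) (hk : 0 ≤ k) (hl : 288 * q.x ^ 2 * k ^ 2 * n ≤ 1) {m4 m8 : ℝ}
    (hm4 : 0 ≤ m4) (h4 : H4 k q n m4) (h8 : H8 k q n m8) :
    LamSk k q (lz k (SkS (n := n))) fun _ _ =>
      Ew q (lz k (SkS (n := n))) (fun _ => 1) * (6 * q.x * k * √(√m4) * √m8) := by
  intro b b' hb U V X Y hU hV hX hY
  have hZ : 0 < Ew q (lz k (SkS (n := n))) (fun _ => 1) := Ew_one_pos c11_sk hq.x0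
  have g1 : ∀ c : Fin n, ∀ i, EG fun w => H816.col (A1 k q w) c i := fun c i => eg_A1 i c
  have g2 : ∀ c : Fin n, ∀ i, EG fun w => H816.col (A2 k q w) c i := fun c i => eg_A2 i c
  have key : ∀ {W : (K4 (Pair n) → ℝ) → Fin n → ℝ} {c : Fin n}, (c = b ∨ c = b') →
      (W = (fun w => H816.col (A1 k q w) c) ∨ W = (fun w => H816.col (A2 k q w) c)) →
      (∀ i, EG fun w => W w i) ∧ ∫ w, Av (lf (row b ∪ row b')) (dens q (lz k SkS)) w *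
        vs (W w) ^ 4 ∂(gI (K4 (Pair n))) ≤ Ew q (lz k (SkS (n := n))) (fun _ => 1) * m8 := by
    intro W c hc hW
    rcases hW with rfl | rfl
    · exact ⟨g1 c, (h8 b b' hb c hc).1⟩
    · exact ⟨g2 c, (h8 b b' hb c hc).2⟩
  obtain ⟨eU, mU⟩ := key (Or.inl rfl) hU
  obtain ⟨eV, mV⟩ := key (Or.inr rfl) hV
  obtain ⟨eX, mX⟩ := key (Or.inl rfl) hX
  obtain ⟨eY, mY⟩ := key (Or.inr rfl) hY
  have h1 := lam_sk hq b b' hl eU eV eX eY mU mV mX mY (fun c hc => (h4 b b' hb c hc).1)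
    (fun c hc => (h4 b b' hb c hc).2.1) (fun c hc => (h4 b b' hb c hc).2.2)
  rw [sqrt_num hZ.le hq.x0.le hk hm4] at h1
  exact h1

/-- the law change of a general functional, in numbers -/
theorem lam_gen_num (hq : q.Ok) (hk : 0 ≤ k) (hl : 288 * q.x ^ 2 * k ^ 2 * n ≤ 1) {m4 m : ℝ}
    (hm4 : 0 ≤ m4) (h4 : H4 k q n m4) {b b' : Fin n} (hb : b' ≠ b)
    {f : (K4 (Pair n) → ℝ) → ℝ} (hf : EG f)
    (hM : ∫ w, ph q (lz k SkS) b b' w * f w ^ 2 ∂(gI (K4 (Pair n))) ≤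
      Ew q (lz k (SkS (n := n))) (fun _ => 1) * m) :
    |∫ w, dens q (lz k SkS) w * f w ∂(gI (K4 (Pair n))) -
      ∫ w, ph q (lz k SkS) b b' w * f w ∂(gI (K4 (Pair n)))| ≤
      Ew q (lz k (SkS (n := n))) (fun _ => 1) * (6 * q.x * k * √(√m4) * √m) := by
  have hZ : 0 < Ew q (lz k (SkS (n := n))) (fun _ => 1) := Ew_one_pos c11_sk hq.x0
  have h1 := lam_gen_sk hq b b' hl hf hM (fun c hc => (h4 b b' hb c hc).1)
    (fun c hc => (h4 b b' hb c hc).2.1) (fun c hc => (h4 b b' hb c hc).2.2)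
  rw [sqrt_num hZ.le hq.x0.le hk hm4] at h1
  exact h1

/-- the number, when `m4 ≤ c y²` and `m8 ≤ c' y⁴` -/
lemma ls_le {x k m4 m8 y c4 c8 : ℝ} (hx : 0 ≤ x) (hk : 0 ≤ k) (hy : 0 ≤ y) (hc4 : 0 ≤ c4)
    (hc8 : 0 ≤ c8) (h4 : m4 ≤ c4 ^ 4 * y ^ 2) (h8 : m8 ≤ c8 ^ 2 * y ^ 4) :
    6 * x * k * √(√m4) * √m8 ≤ 6 * c4 * c8 * (x * (k * √y) * y ^ 2) := by
  have e1 : √(√m4) ≤ c4 * √y := by
    have h1 : √m4 ≤ c4 ^ 2 * y := by
      rw [Real.sqrt_le_left (by positivity)]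
      calc m4 ≤ c4 ^ 4 * y ^ 2 := h4
        _ = (c4 ^ 2 * y) ^ 2 := by ring
    refine (Real.sqrt_le_sqrt h1).trans (le_of_eq ?_)
    rw [Real.sqrt_mul (sq_nonneg _), Real.sqrt_sq hc4]
  have e2 : √m8 ≤ c8 * y ^ 2 := by
    rw [Real.sqrt_le_left (by positivity)]
    calc m8 ≤ c8 ^ 2 * y ^ 4 := h8
      _ = (c8 * y ^ 2) ^ 2 := by ring
  calc 6 * x * k * √(√m4) * √m8 ≤ 6 * x * k * (c4 * √y) * (c8 * y ^ 2) := by gcongr
    _ = _ := by ring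

end Vale.Agent.P146.R1C
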