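import Vale.Agent.P146.H706.LawF

/-! P146, R1 (8c): the law change in the form of `∫ exp Ψ * Av R f`. -/

set_option linter.all false

open MeasureTheory ProbabilityTheory Finset Filter Topology

namespace Vale.Agent.P146.H706

open Vale.Agent.P157.Lv Vale.Agent.P146.H712

variable {ι : Type} [Fintype ι] [DecidableEq ι] {R : Finset ι}

/-- `Av R` is self-adjoint -/
lemma int_mul_Av {p f : (ι → ℝ) → ℝ} (hp : EG p) (hf : EG f) :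
    ∫ z, p z * Av R f z ∂(gI ι) = ∫ z, Av R p z * f z ∂(gI ι) := by
  have e1 : ∀ z, Av R (fun z => p z * Av R f z) z = Av R f z * Av R p z := by
    intro z
    have := Av_mul (R := R) (ind_Av R f) p z
    rw [← this]
    congr 1
    funext z
    ring
  have e2 : ∀ z, Av R (fun z => Av R p z * f z) z = Av R p z * Av R f z := fun z =>
    Av_mul (ind_Av R p) f z
  rw [← integral_Av R (hp.mul (eg_Av R hf)), ← integral_Av R ((eg_Av R hp).mul hf)]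
  refine integral_congr_ae (ae_of_all _ fun z => ?_)
  show Av R (fun z => p z * Av R f z) z = Av R (fun z => Av R p z * f z) z
  rw [e1, e2]; ring

variable {Ψ : (ι → ℝ) → ℝ} {Ψ' : ι → (ι → ℝ) → ℝ} {l : ℝ}

/-- **(LC2)** -/
theorem LF.LC2 (h : LF R Ψ Ψ' l) (hl : 16 * l ^ 2 ≤ 1) {f : (ι → ℝ) → ℝ} (hf : EG f) :
    |∫ z, Real.exp (Ψ z) * f z ∂(gI ι) - ∫ z, Real.exp (Ψ z) * Av R f z ∂(gI ι)| ≤
      √(2 * √((∫ z, Real.exp (Ψ z) ∂(gI ι)) *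
        ∫ z, Real.exp (Ψ z) * Av R (fun z => (∑ e ∈ R, Ψ' e z ^ 2) ^ 2) z ∂(gI ι))) *
      √(∫ z, Real.exp (Ψ z) * Av R (fun z => f z ^ 2) z ∂(gI ι)) := by
  have eQ : EG fun z => (∑ e ∈ R, Ψ' e z ^ 2) ^ 2 := (EG.sum _ fun e he => (h.eg e he).pow 2).pow 2
  rw [int_mul_Av h.en hf, int_mul_Av h.en eQ, int_mul_Av h.en (hf.pow 2)]
  exact h.lc2 hl hf

/-- **(LC1)**, first half -/
theorem LF.LC1 (h : LF R Ψ Ψ' l) (p : ℕ) (hp : ((p : ℝ) + 1) ^ 2 * l ^ 2 ≤ 1)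
    {f : (ι → ℝ) → ℝ} (hf : EG f) {K : ℝ} (h0 : ∀ z, 0 ≤ f z) (hK : ∀ z, f z ≤ K) :
    ∫ z, Real.exp (Ψ z) * f z ∂(gI ι) ≤ 2 * ∫ z, Real.exp (Ψ z) * Av R f z ∂(gI ι) +
      3 * K / 2 ^ p * ∫ z, Real.exp (Ψ z) ∂(gI ι) := by
  rw [int_mul_Av h.en hf]
  exact h.lc_up p hp hf h0 hK

/-- **(LC1)**, second half -/
theorem LF.LC1' (h : LF R Ψ Ψ' l) (p : ℕ) (hp : ((p : ℝ) + 1) ^ 2 * l ^ 2 ≤ 1)
    {f : (ι → ℝ) → ℝ} (hf : EG f) {K : ℝ} (h0 : ∀ z, 0 ≤ f z) (hK : ∀ z, f z ≤ K) :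
    ∫ z, Real.exp (Ψ z) * Av R f z ∂(gI ι) ≤ 2 * ∫ z, Real.exp (Ψ z) * f z ∂(gI ι) +
      3 * K / 2 ^ p * ∫ z, Real.exp (Ψ z) ∂(gI ι) := by
  rw [int_mul_Av h.en hf]
  exact h.lc_low p hp hf h0 hK

end Vale.Agent.P146.H706
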