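import Vale.Agent.P146.H706.LamSum
import Vale.Agent.P146.H645.CS0

/-! P146, R1 (8c): the law change for position systems (S-form). -/

set_option linter.all false

open MeasureTheory ProbabilityTheory Finset

namespace Vale.Agent.P146.R1S

open Vale.Agent.P157.Lv Vale.Agent.P146.H425 Vale.Agent.P146.H325 Vale.Agent.P146.H332
  Vale.Agent.P146.H712 Vale.Agent.P146.R1 Vale.Agent.P146.R1C Vale.Agent.P146.H706

section gen

variable {κ : Type} [Fintype κ] [DecidableEq κ] {F : (κ → ℝ) → ℝ} {D : κ → (κ → ℝ) → ℝ}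
  {B L : ℝ} {q : Par} {R : Finset κ}

/-- the log density satisfies the hypotheses of the law change, with a bound on `grF` -/
theorem lf_psi_gr (h : C11 F D B L) (hq : q.Ok) {Bd l : ℝ}
    (hG : ∀ t z, grF q.x t F D R z ≤ Bd) (hl0 : 0 ≤ l) (hl : 9 * q.x ^ 2 * Bd ≤ l ^ 2) :
    LF (lf R) (psi q F) (psi' q F D) l where
  lip := lip_psi h hq.x0
  pd j _ := pd_psi h hq.x0 j
  eg j _ := eg_psi' h hq.x0 j
  nn := hl0
  le w := by
    refine (psi_sq_le hq w).trans (le_trans ?_ hl)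
    have g3 := hG q.s2 (P3 q w)
    have g1 := hG q.t1 (P1 q w)
    have g0 := hG q.t0 (P0 q w)
    have hBd : 0 ≤ Bd := (grF_nonneg _ _ _).trans g0
    have hθ : q.θ ^ 2 ≤ 1 := pow_le_one₀ hq.θ0 hq.θ1
    have k1 : q.θ ^ 2 * grF q.x q.t1 F D R (P1 q w) ≤ 1 * Bd :=
      mul_le_mul hθ g1 (grF_nonneg _ _ _) zero_le_one
    have k0 : q.θ ^ 2 * grF q.x q.t0 F D R (P0 q w) ≤ 1 * Bd :=
      mul_le_mul hθ g0 (grF_nonneg _ _ _) zero_le_one
    have : 3 * q.x ^ 2 * (grF q.x q.s2 F D R (P3 q w) + (q.θ ^ 2 * grF q.x q.t1 F D R (P1 q w) +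
        q.θ ^ 2 * grF q.x q.t0 F D R (P0 q w))) ≤ 3 * q.x ^ 2 * (3 * Bd) :=
      mul_le_mul_of_nonneg_left (by linarith) (by positivity)
    linarith

end gen

variable {n : ℕ} {k : ℝ} {q : Par} (S : CS n k q.x)

/-! ### elementary facts on `A` (private names) -/

lemma lw_self (s : ℝ) (z : Pair n → ℝ) (i : Fin n) : S.A s z i i = 1 := by
  rw [S.A_mu]
  have : ∀ σ : Fin n → ℤˣ, S.mu s z σ * pr i i σ = S.mu s z σ := fun σ => by
    rw [pr_self, mul_one]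
  simp only [this]
  exact S.mu1 s z

lemma lw_comm (s : ℝ) (z : Pair n → ℝ) (i j : Fin n) : S.A s z i j = S.A s z j i := by
  rw [S.A_mu, S.A_mu, pr_comm]

lemma lw_eg (s : ℝ) (i j : Fin n) : EG fun z => S.A s z i j := by
  simp only [S.A_mu]
  exact EG.sum _ fun σ _ => (S.eg_mu s σ).mul (EG.const _)

lemma lw_abs (s : ℝ) (z : Pair n → ℝ) (i j : Fin n) : |S.A s z i j| ≤ 1 := by
  rw [S.A_mu, ← S.mu1 s z]
  refine (abs_sum_le_sum_abs _ _).trans (sum_le_sum fun σ _ => ?_)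
  rw [abs_mul, abs_of_nonneg (S.mu0 s z σ), abs_pr i j σ, mul_one]

lemma lw_oth {s : ℝ} {b : Fin n} {e : Pair n} (he : e ∈ row b) (z : Pair n → ℝ) :
    S.A s z e.1.1 e.1.2 = S.A s z (oth b e) b := by
  rw [mem_row] at he
  unfold oth
  split_ifs with h1
  · rw [h1]; exact lw_comm S s z _ _
  · rw [he.resolve_left h1]

lemma lw_gr_row (s : ℝ) (b : Fin n) (z : Pair n → ℝ) :
    grF q.x s S.F S.D (row b) z = k ^ 2 * (vn (H816.col (S.A s z) b) - 1) := by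
  unfold grF
  have e1 : ∀ e ∈ row b, dd q.x s S.F S.D e z ^ 2 =
      k ^ 2 * (fun j => S.A s z j b ^ 2 - if j = b then 1 else 0) (oth b e) := by
    intro e he
    have h1 : oth b e ≠ b := oth_ne he
    rw [S.dd_eq, lw_oth S he]
    simp only [h1, if_false]
    ring
  rw [Finset.sum_congr rfl e1, ← Finset.mul_sum, sum_row_all b
    (G := fun j => S.A s z j b ^ 2 - if j = b then 1 else 0) (by simp [lw_self])]
  congr 1
  rw [Finset.sum_sub_distrib]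
  simp [vn, H816.col]

lemma lw_vn_le (s : ℝ) (b : Fin n) (z : Pair n → ℝ) : vn (H816.col (S.A s z) b) ≤ n := by
  unfold vn H816.col
  calc ∑ i, S.A s z i b ^ 2 ≤ ∑ _i : Fin n, (1 : ℝ) := by
        refine sum_le_sum fun i _ => ?_
        rw [← sq_abs]
        exact pow_le_one₀ (abs_nonneg _) (lw_abs S s z i b)
    _ = n := by simp

/-- the row gradient of the value function -/
theorem grF_rows (s : ℝ) (b b' : Fin n) (z : Pair n → ℝ) :
    grF q.x s S.F S.D (row b ∪ row b') z ≤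
      k ^ 2 * (vn (H816.col (S.A s z) b) + vn (H816.col (S.A s z) b')) := by
  have h1 := sum_union_le (row b) (row b') (f := fun e => dd q.x s S.F S.D e z ^ 2)
    fun e => sq_nonneg _
  have h2 := lw_gr_row S s b z
  have h3 := lw_gr_row S s b' z
  unfold grF at *
  have h4 : 0 ≤ k ^ 2 := sq_nonneg k
  nlinarith

theorem grF_rows_le (s : ℝ) (b b' : Fin n) (z : Pair n → ℝ) :
    grF q.x s S.F S.D (row b ∪ row b') z ≤ 2 * k ^ 2 * n := by
  have h1 := grF_rows S s b b' z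
  have h2 := lw_vn_le S s b z
  have h3 := lw_vn_le S s b' z
  have h4 : 0 ≤ k ^ 2 := sq_nonneg k
  nlinarith

lemma lf_psi_S (hq : q.Ok) (b b' : Fin n) :
    LF (lf (row b ∪ row b')) (psi q S.F) (psi' q S.F S.D) (√(18 * q.x ^ 2 * k ^ 2 * n)) := by
  have hn : 0 ≤ 18 * q.x ^ 2 * k ^ 2 * n := by positivity
  have e : √(18 * q.x ^ 2 * k ^ 2 * n) ^ 2 = 18 * q.x ^ 2 * k ^ 2 * n := Real.sq_sqrt hn
  exact lf_psi_gr (Bd := 2 * k ^ 2 * n) S.c11 hq (fun t z => grF_rows_le S t b b' z)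
    (Real.sqrt_nonneg _) (by rw [e]; linarith)

/-- the transfer `E → E~` -/
theorem law_up_S (hq : q.Ok) (b b' : Fin n) (p : ℕ)
    (hp : ((p : ℝ) + 1) ^ 2 * (18 * q.x ^ 2 * k ^ 2 * n) ≤ 1)
    {f : (K4 (Pair n) → ℝ) → ℝ} (hf : EG f) {K : ℝ} (h0 : ∀ w, 0 ≤ f w) (hK : ∀ w, f w ≤ K) :
    Ew q S.F f ≤ 2 * Ew q S.F (Av (lf (row b ∪ row b')) f) +
      3 * K / 2 ^ p * Ew q S.F (fun _ => 1) := by
  have hn : 0 ≤ 18 * q.x ^ 2 * k ^ 2 * n := by positivity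
  have e : √(18 * q.x ^ 2 * k ^ 2 * n) ^ 2 = 18 * q.x ^ 2 * k ^ 2 * n := Real.sq_sqrt hn
  have := (lf_psi_S S hq b b').LC1 p (by rw [e]; exact hp) hf h0 hK
  unfold Ew
  simpa only [mul_one, dens_eq] using this

/-- the transfer `E~ → E` -/
theorem law_low_S (hq : q.Ok) (b b' : Fin n) (p : ℕ)
    (hp : ((p : ℝ) + 1) ^ 2 * (18 * q.x ^ 2 * k ^ 2 * n) ≤ 1)
    {f : (K4 (Pair n) → ℝ) → ℝ} (hf : EG f) {K : ℝ} (h0 : ∀ w, 0 ≤ f w) (hK : ∀ w, f w ≤ K) :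
    Ew q S.F (Av (lf (row b ∪ row b')) f) ≤ 2 * Ew q S.F f +
      3 * K / 2 ^ p * Ew q S.F (fun _ => 1) := by
  have hn : 0 ≤ 18 * q.x ^ 2 * k ^ 2 * n := by positivity
  have e : √(18 * q.x ^ 2 * k ^ 2 * n) ^ 2 = 18 * q.x ^ 2 * k ^ 2 * n := Real.sq_sqrt hn
  have := (lf_psi_S S hq b b').LC1' p (by rw [e]; exact hp) hf h0 hK
  unfold Ew
  simpa only [mul_one, dens_eq] using this

/-- the density with the two rows averaged out: moments of the columns -/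
def H4 (m4 : ℝ) : Prop :=
  ∀ b b' : Fin n, b' ≠ b → ∀ c, c = b ∨ c = b' →
    ∫ w, ph q S.F b b' w * vn (H816.col (S.A q.s2 (P3 q w)) c) ^ 2
      ∂(gI (K4 (Pair n))) ≤ Ew q S.F (fun _ => 1) * m4 ∧
    ∫ w, ph q S.F b b' w * vn (H816.col (S.A q.t1 (P1 q w)) c) ^ 2
      ∂(gI (K4 (Pair n))) ≤ Ew q S.F (fun _ => 1) * m4 ∧
    ∫ w, ph q S.F b b' w * vn (H816.col (S.A q.t0 (P0 q w)) c) ^ 2
      ∂(gI (K4 (Pair n))) ≤ Ew q S.F (fun _ => 1) * m4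

/-- eighth moments of the columns -/
def H8 (m8 : ℝ) : Prop :=
  ∀ b b' : Fin n, b' ≠ b → ∀ c, c = b ∨ c = b' →
    ∫ w, ph q S.F b b' w * vn (H816.col (S.A q.s1 (P2 q w)) c) ^ 4
      ∂(gI (K4 (Pair n))) ≤ Ew q S.F (fun _ => 1) * m8 ∧
    ∫ w, ph q S.F b b' w * vn (H816.col (S.A q.s2 (P3 q w)) c) ^ 4
      ∂(gI (K4 (Pair n))) ≤ Ew q S.F (fun _ => 1) * m8

lemma Ew1_pos_S (hq : q.Ok) : 0 < Ew q S.F (fun _ => 1) := Ew_one_pos S.c11 hq.x0

lemma ph_nonneg_S (b b' : Fin n) (w : K4 (Pair n) → ℝ) : 0 ≤ ph q S.F b b' w :=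
  integral_nonneg fun w => (Real.exp_pos _).le

lemma eg_ph_S (hq : q.Ok) (b b' : Fin n) : EG (ph q S.F b b') := eg_Av _ (eg_dens S.c11 hq.x0)

lemma eg_vn_col_S (s : ℝ) (c : Fin n) : EG fun z => vn (H816.col (S.A s z) c) :=
  EG.sum _ fun i _ => (lw_eg S s i c).pow 2

/-- the fourth moment of the row gradient -/
theorem psi_four_S (hq : q.Ok) {b b' : Fin n} (hb : b' ≠ b) {m4 : ℝ} (h4 : H4 S m4) :
    ∫ w, ph q S.F b b' w * (∑ j ∈ lf (row b ∪ row b'), psi' q S.F S.D j w ^ 2) ^ 2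
      ∂(gI (K4 (Pair n))) ≤ 324 * q.x ^ 4 * k ^ 4 * (Ew q S.F (fun _ => 1) * m4) := by
  set Z := Ew q S.F (fun _ => 1) with hZ
  set φ := ph q S.F b b' with hφd
  have hφ : EG φ := eg_ph_S S hq b b'
  have hφ0 : ∀ w, 0 ≤ φ w := ph_nonneg_S S b b'
  have key := psi_four_le (R := row b ∪ row b') S.c11 hq hφ hφ0
  have hM4 : 0 ≤ Z * m4 := (integral_nonneg fun w => mul_nonneg (hφ0 w) (sq_nonneg _)).trans
    (h4 b b' hb b (Or.inl rfl)).1
  have one : ∀ (t : ℝ) (P : (K4 (Pair n) → ℝ) → Pair n → ℝ)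
      (eP : ∀ {f : (Pair n → ℝ) → ℝ}, EG f → EG fun w => f (P w)),
      (∀ c, c = b ∨ c = b' →
        ∫ w, φ w * vn (H816.col (S.A t (P w)) c) ^ 2 ∂(gI (K4 (Pair n))) ≤ Z * m4) →
      ∫ w, φ w * grF q.x t S.F S.D (row b ∪ row b') (P w) ^ 2 ∂(gI (K4 (Pair n))) ≤
        4 * k ^ 4 * (Z * m4) := by
    intro t P eP hm
    have ev : ∀ c, EG fun w => vn (H816.col (S.A t (P w)) c) := fun c => eP (eg_vn_col_S S t c)
    have i1 : Integrable (fun w => φ w * vn (H816.col (S.A t (P w)) b) ^ 2)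
      (gI (K4 (Pair n))) := (hφ.mul ((ev b).pow 2)).integrable
    have i2 : Integrable (fun w => φ w * vn (H816.col (S.A t (P w)) b') ^ 2)
      (gI (K4 (Pair n))) := (hφ.mul ((ev b').pow 2)).integrable
    have h1 : ∫ w, φ w * grF q.x t S.F S.D (row b ∪ row b') (P w) ^ 2
        ∂(gI (K4 (Pair n))) ≤ ∫ w, 2 * k ^ 4 * (φ w * vn (H816.col (S.A t (P w)) b) ^ 2 +
          φ w * vn (H816.col (S.A t (P w)) b') ^ 2) ∂(gI (K4 (Pair n))) := by
      refine integral_mono (hφ.mul ((eP (eg_grF S.c11 hq.x0 t)).pow 2)).integrable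
        ((i1.add i2).const_mul _) fun w => ?_
      show φ w * grF q.x t S.F S.D (row b ∪ row b') (P w) ^ 2 ≤ 2 * k ^ 4 *
        (φ w * vn (H816.col (S.A t (P w)) b) ^ 2 + φ w * vn (H816.col (S.A t (P w)) b') ^ 2)
      have h2 := grF_rows S t b b' (P w)
      have h3 := grF_nonneg (F := S.F) (D := S.D) (R := row b ∪ row b') q.x t (P w)
      have h4 := pow_le_pow_left₀ h3 h2 2
      set a := vn (H816.col (S.A t (P w)) b)
      set c := vn (H816.col (S.A t (P w)) b')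
      have h5 : (k ^ 2 * (a + c)) ^ 2 ≤ 2 * k ^ 4 * (a ^ 2 + c ^ 2) := by
        have h6 : 0 ≤ k ^ 4 := by positivity
        nlinarith [mul_nonneg h6 (sq_nonneg (a - c))]
      have := mul_le_mul_of_nonneg_left (h4.trans h5) (hφ0 w)
      linarith
    refine h1.trans ?_
    rw [integral_const_mul, integral_add i1 i2]
    have h2 := hm b (Or.inl rfl)
    have h3 := hm b' (Or.inr rfl)
    have h6 : 0 ≤ k ^ 4 := by positivity
    nlinarith
  have k3 := one q.s2 (P3 q) (fun h => eg_P3 h) fun c hc => (h4 b b' hb c hc).1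
  have k1 := one q.t1 (P1 q) (fun h => eg_P1 h) fun c hc => (h4 b b' hb c hc).2.1
  have k0 := one q.t0 (P0 q) (fun h => eg_P0 h) fun c hc => (h4 b b' hb c hc).2.2
  refine key.trans ?_
  have hθ : q.θ ^ 4 ≤ 1 := pow_le_one₀ hq.θ0 hq.θ1
  have hθ0 : 0 ≤ q.θ ^ 4 := by positivity
  have hk : 0 ≤ 4 * k ^ 4 * (Z * m4) := by positivity
  have l1 := mul_le_mul hθ k1 (integral_nonneg fun w => mul_nonneg (hφ0 w) (sq_nonneg _)) zero_le_one
  have l0 := mul_le_mul hθ k0 (integral_nonneg fun w => mul_nonneg (hφ0 w) (sq_nonneg _)) zero_le_one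
  have hx : 0 ≤ 27 * q.x ^ 4 := by positivity
  have := mul_le_mul_of_nonneg_left (add_le_add k3 (add_le_add l1 l0)) hx
  refine this.trans (le_of_eq ?_)
  ring

/-- **the law change of a general functional** -/
theorem lam_gen_S (hq : q.Ok) (hl : 288 * q.x ^ 2 * k ^ 2 * n ≤ 1) {m4 m : ℝ}
    (hm4 : 0 ≤ m4) (h4 : H4 S m4) {b b' : Fin n} (hb : b' ≠ b)
    {f : (K4 (Pair n) → ℝ) → ℝ} (hf : EG f)
    (hM : ∫ w, ph q S.F b b' w * f w ^ 2 ∂(gI (K4 (Pair n))) ≤ Ew q S.F (fun _ => 1) * m) :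
    |∫ w, dens q S.F w * f w ∂(gI (K4 (Pair n))) -
      ∫ w, ph q S.F b b' w * f w ∂(gI (K4 (Pair n)))| ≤
      Ew q S.F (fun _ => 1) * (6 * q.x * k * √(√m4) * √m) := by
  have hn : 0 ≤ 18 * q.x ^ 2 * k ^ 2 * n := by positivity
  have e : √(18 * q.x ^ 2 * k ^ 2 * n) ^ 2 = 18 * q.x ^ 2 * k ^ 2 * n := Real.sq_sqrt hn
  have h1 := (lf_psi_S S hq b b').lc2 (by rw [e]; linarith) hf
  have h3 : Ew q S.F (fun _ => 1) = ∫ w, Real.exp (psi q S.F w) ∂(gI (K4 (Pair n))) := by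
    unfold Ew; simp only [mul_one, dens_eq]
  rw [← sqrt_num (Ew1_pos_S S hq).le hq.x0.le S.k0.le hm4]
  refine h1.trans (mul_le_mul (Real.sqrt_le_sqrt ?_) (Real.sqrt_le_sqrt hM) (Real.sqrt_nonneg _)
    (Real.sqrt_nonneg _))
  refine mul_le_mul_of_nonneg_left (Real.sqrt_le_sqrt ?_) (by norm_num)
  rw [← h3]
  exact mul_le_mul_of_nonneg_left (psi_four_S S hq hb h4) (Ew1_pos_S S hq).le

/-- **the law change of the quartic functionals** -/
theorem lam_S (hq : q.Ok) (hl : 288 * q.x ^ 2 * k ^ 2 * n ≤ 1) {m4 m8 : ℝ}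
    (hm4 : 0 ≤ m4) (h4 : H4 S m4) (h8 : H8 S m8) {b b' : Fin n} (hb : b' ≠ b)
    {U V X Y : (K4 (Pair n) → ℝ) → Fin n → ℝ}
    (hU : U = (fun w => H816.col (S.A q.s1 (P2 q w)) b) ∨
      U = (fun w => H816.col (S.A q.s2 (P3 q w)) b))
    (hV : V = (fun w => H816.col (S.A q.s1 (P2 q w)) b') ∨
      V = (fun w => H816.col (S.A q.s2 (P3 q w)) b'))
    (hX : X = (fun w => H816.col (S.A q.s1 (P2 q w)) b) ∨
      X = (fun w => H816.col (S.A q.s2 (P3 q w)) b))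
    (hY : Y = (fun w => H816.col (S.A q.s1 (P2 q w)) b') ∨
      Y = (fun w => H816.col (S.A q.s2 (P3 q w)) b')) :
    |∫ w, dens q S.F w * (dp (U w) (V w) * dp (X w) (Y w)) ∂(gI (K4 (Pair n))) -
      ∫ w, ph q S.F b b' w * (dp (U w) (V w) * dp (X w) (Y w)) ∂(gI (K4 (Pair n)))| ≤
      Ew q S.F (fun _ => 1) * (6 * q.x * k * √(√m4) * √m8) := by
  have g1 : ∀ c : Fin n, ∀ i, EG fun w => H816.col (S.A q.s1 (P2 q w)) c i := fun c i =>
    eg_P2 (lw_eg S q.s1 i c)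
  have g2 : ∀ c : Fin n, ∀ i, EG fun w => H816.col (S.A q.s2 (P3 q w)) c i := fun c i =>
    eg_P3 (lw_eg S q.s2 i c)
  have key : ∀ {W : (K4 (Pair n) → ℝ) → Fin n → ℝ} {c : Fin n}, (c = b ∨ c = b') →
      (W = (fun w => H816.col (S.A q.s1 (P2 q w)) c) ∨
        W = (fun w => H816.col (S.A q.s2 (P3 q w)) c)) →
      (∀ i, EG fun w => W w i) ∧ ∫ w, ph q S.F b b' w *
        vs (W w) ^ 4 ∂(gI (K4 (Pair n))) ≤ Ew q S.F (fun _ => 1) * m8 := by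
    intro W c hc hW
    rcases hW with rfl | rfl
    · exact ⟨g1 c, (h8 b b' hb c hc).1⟩
    · exact ⟨g2 c, (h8 b b' hb c hc).2⟩
  obtain ⟨eU, mU⟩ := key (Or.inl rfl) hU
  obtain ⟨eV, mV⟩ := key (Or.inr rfl) hV
  obtain ⟨eX, mX⟩ := key (Or.inl rfl) hX
  obtain ⟨eY, mY⟩ := key (Or.inr rfl) hY
  have ed : ∀ {X Y : (K4 (Pair n) → ℝ) → Fin n → ℝ}, (∀ i, EG fun w => X w i) →
      (∀ i, EG fun w => Y w i) → EG fun w => dp (X w) (Y w) :=
    fun h h' => EG.sum _ fun i _ => (h i).mul (h' i)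
  exact lam_gen_S S hq hl hm4 h4 hb ((ed eU eV).mul (ed eX eY))
    (quart_sq_le (eg_ph_S S hq b b') (ph_nonneg_S S b b') eU eV eX eY mU mV mX mY)

end Vale.Agent.P146.R1S
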