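import Vale.Agent.P146.H713.DeepDef

/-!
The second difference of the deep functional in one exponent: the object of the choice of the
exponents.
-/

namespace Vale.Agent.P146.R1

open Vale.Agent.P157.Lv Vale.Agent.P146.H425

variable {κ : Type} [Fintype κ]

/-- The exponents with the exponent of the layer `l` moved by `h`. -/
noncomputable def ups (m : ℕ → ℝ) (l : ℕ) (h : ℝ) : ℕ → ℝ := Function.update m l (m l + h)

/-- The second difference (step `h`) of the deep functional in the exponent of the layer `l`. -/
noncomputable def dsec (F : (κ → ℝ) → ℝ) (m σ : ℕ → ℝ) (J l : ℕ) (h : ℝ) (z : κ → ℝ) : ℝ :=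
  FD F (ups m l h) σ J z - 2 * FD F m σ J z + FD F (ups m l (-h)) σ J z

end Vale.Agent.P146.R1
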