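import Vale.Agent.P146.H326.Def7

/-! P146, (B1): the algebraic identity `Alg` of `H326/Def7`. -/

set_option linter.all false

open Finset

namespace Vale.Agent.P146.H706.Alg7

open Vale.Agent.P146.H326.B7
open Vale.Agent.P157.Par (Exponents)

/-- a square is its diagonal and two triangles -/
lemma sq_split (f : ℕ → ℕ → ℝ) (b : ℕ) : ∀ n a, a + n = b →
    ∑ j ∈ Ico a b, ∑ k ∈ Ico a b, f j k =
      ∑ j ∈ Ico a b, f j j + ∑ j ∈ Ico a b, ∑ i ∈ Ico (j + 1) b, (f i j + f j i)
  | 0, a, h => by
    have : Ico a b = ∅ := Ico_eq_empty (by omega)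
    simp [this]
  | n + 1, a, h => by
    have hab : a < b := by omega
    have ih := sq_split f b n (a + 1) (by omega)
    rw [sum_eq_sum_Ico_succ_bot hab, sum_eq_sum_Ico_succ_bot hab,
      sum_eq_sum_Ico_succ_bot hab (fun j => f j j),
      sum_eq_sum_Ico_succ_bot hab (fun j => ∑ i ∈ Ico (j + 1) b, (f i j + f j i))]
    have h1 : ∀ j ∈ Ico (a + 1) b, ∑ k ∈ Ico a b, f j k = f j a + ∑ k ∈ Ico (a + 1) b, f j k :=
      fun j _ => sum_eq_sum_Ico_succ_bot hab _
    rw [sum_congr rfl h1, sum_add_distrib, ih]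
    simp only [sum_add_distrib]
    ring

variable {K : ℕ} {m : ℕ → ℝ} {L : ℕ → ℕ → ℕ → ℝ}

lemma sum_p (hm : Exponents K m) {j : ℕ} (hj : j ≤ K) :
    ∑ i ∈ Ico (j + 1) (K + 1), (m (i + 1) - m i) = 1 - m (j + 1) := by
  rw [sum_Ico_sub m (by omega), hm.2.1]

/-- the value of `Xf` at a level -/
lemma X_form (hm : Exponents K m) (hL : Red K L) {j : ℕ} (hj : j ≤ K) :
    Xf K m L j = (L (K + 1) (K + 1) j + L (K + 1) j (K + 1)) -
      ∑ i ∈ Ico (j + 1) (K + 1), (m (i + 1) - m i) * (L (K + 1) i j + L (K + 1) j i) -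
      (m (j + 1) + (m (j + 1) - m j)) * L (K + 1) j j -
      ∑ i ∈ range j, (m (i + 1) - m i) * L i j j := by
  unfold Xf MMf
  rw [if_pos hj]
  have h1 : ∑ i ∈ Ico (j + 1) (K + 1), (m (i + 1) - m i) * L i (K + 1) j =
      ∑ i ∈ Ico (j + 1) (K + 1), (m (i + 1) - m i) * L (K + 1) i j := by
    refine sum_congr rfl fun i hi => ?_
    rw [mem_Ico] at hi
    rw [hL.r4 i (K + 1) j (by omega) (by omega) (by omega) le_rfl,
      hL.r2 i i j (by omega) le_rfl (by omega)]
  have h2 : ∑ i ∈ Ico (j + 1) (K + 1), (m (i + 1) - m i) * L i j (K + 1) =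
      ∑ i ∈ Ico (j + 1) (K + 1), (m (i + 1) - m i) * L (K + 1) j i := by
    refine sum_congr rfl fun i hi => ?_
    rw [mem_Ico] at hi
    rw [hL.r3 i j (K + 1) (by omega) (by omega) (by omega) le_rfl,
      hL.r2 i j i (by omega) (by omega) le_rfl]
  have h3 : L j (K + 1) j = L (K + 1) j j := by
    rw [hL.r4 j (K + 1) j hj le_rfl (by omega) le_rfl, hL.r2 j j j hj le_rfl le_rfl]
  have h4 : L j j (K + 1) = L (K + 1) j j := by
    rw [hL.r3 j j (K + 1) hj le_rfl (by omega) le_rfl, hL.r2 j j j hj le_rfl le_rfl]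
  have h5 : ∑ i ∈ range (K + 1), (m (i + 1) - m i) * L i j j =
      ∑ i ∈ range j, (m (i + 1) - m i) * L i j j + (m (j + 1) - m j) * L (K + 1) j j +
        (1 - m (j + 1)) * L (K + 1) j j := by
    rw [range_eq_Ico, ← sum_Ico_consecutive _ (Nat.zero_le (j + 1)) (by omega : j + 1 ≤ K + 1),
      ← range_eq_Ico, sum_range_succ, ← sum_p hm hj, sum_mul]
    congr 1
    · rw [hL.r2 j j j hj le_rfl le_rfl]
    · refine sum_congr rfl fun i hi => ?_
      rw [mem_Ico] at hi
      rw [hL.r2 i j j (by omega) (by omega) (by omega)]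
  rw [h1, h2, h3, h4, h5]
  simp only [mul_add, sum_add_distrib]
  ring

lemma X_top : Xf K m L (K + 1) = L (K + 1) (K + 1) (K + 1) -
    ∑ i ∈ range (K + 1), (m (i + 1) - m i) * L i (K + 1) (K + 1) := by
  unfold Xf
  rw [if_neg (by omega), zero_add]

lemma Gm_form (hL : Red K L) {i μ k : ℕ} (hi : i ≤ μ) (hμ : μ ≤ k) (hk : k ≤ K) :
    Gm K L i μ k = L i (K + 1) (K + 1) - L i k k := by
  unfold Gm
  rw [hL.r1 i (K + 1) k (by omega) (by omega) (by omega) le_rfl (by omega),
    hL.r1 i μ (K + 1) (by omega) hi (by omega) (by omega) le_rfl,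
    hL.r1 i μ k (by omega) hi (by omega) (by omega) (by omega),
    min_eq_right (by omega : k ≤ K + 1), min_eq_left (by omega : μ ≤ K + 1), min_eq_left hμ]
  ring

/-- **(B1)** -/
theorem alg : Alg := by
  intro K m L hm hL l hl
  set p : ℕ → ℝ := fun i => m (i + 1) - m i with hp
  set d := K + 1 with hd
  have hpsum : ∑ i ∈ Ico (l + 1) d, p i = 1 - m (l + 1) := sum_p hm hl
  -- the names of the sums
  set U : ℝ := ∑ k ∈ Ico (l + 1) d, p k * (L d d k + L d k d) with hU
  set T : ℝ := ∑ j ∈ Ico (l + 1) d, ∑ i ∈ Ico (j + 1) d, p j * p i * (L d i j + L d j i) with hT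
  set D1 : ℝ := ∑ i ∈ Ico (l + 1) d, p i * (L d i l + L d l i) with hD1
  set D2 : ℝ := ∑ j ∈ Ico (l + 1) d, p j * p j * L d j j with hD2
  set D3 : ℝ := ∑ j ∈ Ico (l + 1) d, p j * m (j + 1) * L d j j with hD3
  set E1 : ℝ := ∑ i ∈ range l, p i * L i l l with hE1
  set E2 : ℝ := ∑ i ∈ range l, p i * ∑ j ∈ Ico (l + 1) d, p j * L i j j with hE2
  set E3 : ℝ := ∑ j ∈ Ico (l + 1) d, p j * L l j j with hE3
  set E4 : ℝ := ∑ i ∈ Ico (l + 1) d, ∑ j ∈ Ico (i + 1) d, p i * (p j * L i j j) with hE4
  set Z1 : ℝ := ∑ i ∈ range (l + 1), p i * L i d d with hZ1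
  set Z2 : ℝ := ∑ i ∈ Ico (l + 1) d, p i * L i d d with hZ2
  -- `W X`
  have hX : W K m l (Xf K m L) = m (l + 1) * (L d d l + L d l d) + U - m (l + 1) * D1 - T -
      m (l + 1) * (m (l + 1) + p l) * L d l l - D3 - D2 - m (l + 1) * E1 - E2 - p l * E3 - E4 := by
    have h1 : ∑ k ∈ Ico (l + 1) (K + 1), (m (k + 1) - m k) * Xf K m L k =
        U - T - D3 - D2 - (E2 + p l * E3 + E4) := by
      have h2 : ∀ k ∈ Ico (l + 1) (K + 1), (m (k + 1) - m k) * Xf K m L k =
          p k * (L d d k + L d k d) - ∑ i ∈ Ico (k + 1) d, p k * p i * (L d i k + L d k i) -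
          p k * m (k + 1) * L d k k - p k * p k * L d k k -
          (∑ i ∈ range l, p k * (p i * L i k k) + p l * (p k * L l k k) +
            ∑ i ∈ Ico (l + 1) k, p i * (p k * L i k k)) := by
        intro k hk
        rw [mem_Ico] at hk
        rw [X_form hm hL (by omega : k ≤ K)]
        have h3 : ∑ i ∈ range k, (m (i + 1) - m i) * L i k k =
            ∑ i ∈ range l, p i * L i k k + p l * L l k k +
              ∑ i ∈ Ico (l + 1) k, p i * L i k k := by
          rw [range_eq_Ico, ← sum_Ico_consecutive _ (Nat.zero_le (l + 1)) (by omega : l + 1 ≤ k),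
            ← range_eq_Ico, sum_range_succ]
        rw [h3, ← mul_sum]
        have h4 : ∑ i ∈ Ico (k + 1) d, p k * p i * (L d i k + L d k i) =
            p k * ∑ i ∈ Ico (k + 1) (K + 1), (m (i + 1) - m i) * (L d i k + L d k i) := by
          rw [mul_sum]
          exact sum_congr rfl fun i _ => by ring
        have h5 : ∑ i ∈ Ico (l + 1) k, p i * (p k * L i k k) =
            p k * ∑ i ∈ Ico (l + 1) k, p i * L i k k := by
          rw [mul_sum]
          exact sum_congr rfl fun i _ => by ring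
        rw [h4, h5]
        ring
      rw [sum_congr rfl h2]
      simp only [sum_sub_distrib, sum_add_distrib]
      have h6 : ∑ k ∈ Ico (l + 1) (K + 1), ∑ i ∈ range l, p k * (p i * L i k k) = E2 := by
        rw [sum_comm, hE2]
        refine sum_congr rfl fun i _ => ?_
        rw [mul_sum]
        exact sum_congr rfl fun j _ => by ring
      have h7 : ∑ k ∈ Ico (l + 1) (K + 1), p l * (p k * L l k k) = p l * E3 := by
        rw [← mul_sum]
      have h8 : ∑ k ∈ Ico (l + 1) (K + 1), ∑ i ∈ Ico (l + 1) k, p i * (p k * L i k k) = E4 := by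
        rw [hE4, hd, sum_Ico_Ico_comm']
      rw [h6, h7, h8]
    show m (l + 1) * Xf K m L l + ∑ k ∈ Ico (l + 1) (K + 1), (m (k + 1) - m k) * Xf K m L k = _
    rw [h1, X_form hm hL hl]
    ring
  -- the double `W`
  have hWW : W K m l (fun j => W K m l (fun k => Gm K L (K + 1) j k)) =
      L d d d - (m (l + 1) * (L d d l + L d l d) + U) +
        (m (l + 1) * m (l + 1) * L d l l + m (l + 1) * D1 + D2 + T) := by
    have h1 : ∀ j, W K m l (fun k => Gm K L (K + 1) j k) =
        (L d d d - L d j d) - (m (l + 1) * L d d l + ∑ k ∈ Ico (l + 1) d, p k * L d d k) +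
          (m (l + 1) * L d j l + ∑ k ∈ Ico (l + 1) d, p k * L d j k) := by
      intro j
      unfold W Gm
      have h2 : ∀ k, (m (k + 1) - m k) * (L d d d - L d d k - L d j d + L d j k) =
          p k * (L d d d - L d j d) - p k * L d d k + p k * L d j k := fun k => by
        simp only [hp]; ring
      simp only [← hd, h2, sum_add_distrib, sum_sub_distrib]
      rw [← sum_mul, hpsum]
      ring
    simp only [h1]
    unfold W
    have h3 : ∀ j, (m (j + 1) - m j) * ((L d d d - L d j d) - (m (l + 1) * L d d l +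
        ∑ k ∈ Ico (l + 1) d, p k * L d d k) + (m (l + 1) * L d j l +
          ∑ k ∈ Ico (l + 1) d, p k * L d j k)) =
        p j * (L d d d - (m (l + 1) * L d d l + ∑ k ∈ Ico (l + 1) d, p k * L d d k)) -
          p j * L d j d + m (l + 1) * (p j * L d j l) +
            ∑ k ∈ Ico (l + 1) d, p j * (p k * L d j k) := by
      intro j
      rw [← mul_sum]
      simp only [hp]
      ring
    simp only [← hd, h3, sum_add_distrib, sum_sub_distrib]
    rw [← sum_mul, hpsum, ← mul_sum,
      sq_split (fun j k => p j * (p k * L d j k)) d (d - (l + 1)) (l + 1) (by omega)]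
    have h4 : ∑ j ∈ Ico (l + 1) d, p j * (p j * L d j j) = D2 := by
      rw [hD2]
      exact sum_congr rfl fun j _ => by ring
    have h5 : ∑ j ∈ Ico (l + 1) d, ∑ i ∈ Ico (j + 1) d, (p i * (p j * L d i j) +
        p j * (p i * L d j i)) = T := by
      rw [hT]
      exact sum_congr rfl fun j _ => sum_congr rfl fun i _ => by ring
    have h6 : U = ∑ k ∈ Ico (l + 1) d, p k * L d d k + ∑ k ∈ Ico (l + 1) d, p k * L d k d := by
      rw [hU, ← sum_add_distrib]
      exact sum_congr rfl fun j _ => by ring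
    have h7 : D1 = ∑ k ∈ Ico (l + 1) d, p k * L d k l + ∑ k ∈ Ico (l + 1) d, p k * L d l k := by
      rw [hD1, ← sum_add_distrib]
      exact sum_congr rfl fun j _ => by ring
    rw [h4, h5, h6, h7]
    ring
  -- the terms of the levels
  have hS : ∑ i ∈ range (K + 1), (m (i + 1) - m i) *
      W K m (max i l) (fun k => Gm K L i (max i l) k) =
      Z1 + Z2 - (m (l + 1) * E1 + E2 + p l * (m (l + 1) * L d l l + E3)) - (D3 + E4) := by
    rw [range_eq_Ico, ← sum_Ico_consecutive _ (Nat.zero_le (l + 1)) (by omega : l + 1 ≤ K + 1),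
      ← range_eq_Ico]
    have h1 : ∑ i ∈ range (l + 1), (m (i + 1) - m i) *
        W K m (max i l) (fun k => Gm K L i (max i l) k) =
        Z1 - (m (l + 1) * E1 + E2 + p l * (m (l + 1) * L d l l + E3)) := by
      have h2 : ∀ i ∈ range (l + 1), (m (i + 1) - m i) *
          W K m (max i l) (fun k => Gm K L i (max i l) k) =
          p i * L i d d - p i * (m (l + 1) * L i l l + ∑ k ∈ Ico (l + 1) d, p k * L i k k) := by
        intro i hi
        rw [mem_range] at hi
        rw [max_eq_right (by omega : i ≤ l)]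
        unfold W
        have h3 : ∑ k ∈ Ico (l + 1) (K + 1), (m (k + 1) - m k) * Gm K L i l k =
            (1 - m (l + 1)) * L i d d - ∑ k ∈ Ico (l + 1) d, p k * L i k k := by
          rw [← hpsum, sum_mul, ← sum_sub_distrib]
          refine sum_congr rfl fun k hk => ?_
          rw [mem_Ico] at hk
          rw [Gm_form hL (by omega) (by omega) (by omega)]
          simp only [hp, hd]
          ring
        rw [h3]
        beta_reduce
        rw [Gm_form hL (by omega) le_rfl hl]
        simp only [hp, hd]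
        ring
      rw [sum_congr rfl h2, sum_sub_distrib, ← hZ1, sum_range_succ]
      have h4 : L l l l = L d l l := hL.r2 l l l hl le_rfl le_rfl
      have h5 : ∑ i ∈ range l, p i * (m (l + 1) * L i l l + ∑ k ∈ Ico (l + 1) d, p k * L i k k) =
          m (l + 1) * E1 + E2 := by
        rw [hE1, hE2, mul_sum, ← sum_add_distrib]
        exact sum_congr rfl fun i _ => by ring
      rw [h5, h4, ← hE3]
    have h6 : ∑ i ∈ Ico (l + 1) (K + 1), (m (i + 1) - m i) *
        W K m (max i l) (fun k => Gm K L i (max i l) k) = Z2 - (D3 + E4) := by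
      have h7 : ∀ i ∈ Ico (l + 1) (K + 1), (m (i + 1) - m i) *
          W K m (max i l) (fun k => Gm K L i (max i l) k) =
          p i * L i d d - (p i * m (i + 1) * L d i i +
            ∑ k ∈ Ico (i + 1) d, p i * (p k * L i k k)) := by
        intro i hi
        rw [mem_Ico] at hi
        rw [max_eq_left (by omega : l ≤ i)]
        unfold W
        have h3 : ∑ k ∈ Ico (i + 1) (K + 1), (m (k + 1) - m k) * Gm K L i i k =
            (1 - m (i + 1)) * L i d d - ∑ k ∈ Ico (i + 1) d, p k * L i k k := by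
          rw [← sum_p hm (by omega : i ≤ K), sum_mul, ← sum_sub_distrib]
          refine sum_congr rfl fun k hk => ?_
          rw [mem_Ico] at hk
          rw [Gm_form hL le_rfl (by omega) (by omega)]
          simp only [hp, hd]
          ring
        rw [h3]
        beta_reduce
        rw [Gm_form hL le_rfl le_rfl (by omega),
          hL.r2 i i i (by omega) le_rfl le_rfl, ← mul_sum]
        simp only [hp, hd]
        ring
      rw [sum_congr rfl h7, sum_sub_distrib, sum_add_distrib]
    rw [h1, h6]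
    ring
  have hXd : Xf K m L (K + 1) = L d d d - (Z1 + Z2) := by
    rw [X_top, range_eq_Ico, ← sum_Ico_consecutive _ (Nat.zero_le (l + 1))
      (by omega : l + 1 ≤ K + 1), ← range_eq_Ico]
  rw [hXd, hX, hWW, hS]
  ring

end Vale.Agent.P146.H706.Alg7
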