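import Vale.Agent.P146.R3.H49.Lam

/-! P146: the largest eigenvalue, fourth moment version:
`P(∃ v, (2 + s) |v|² < v · W v) ≤ 320 / (N² s⁴)`. -/

set_option linter.all false

open MeasureTheory ProbabilityTheory Finset Matrix Filter Topology

namespace Vale.Agent.P146.H706

open Vale.Agent.P157.Lv Vale.Agent.P146.Sk Vale.Agent.P146.R3.H49.Lam

section gen

variable {ι : Type} [Fintype ι] [DecidableEq ι]

/-- fourth moment from the Poincaré inequality and a pointwise gradient bound -/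
theorem fourth_le {F : (ι → ℝ) → ℝ} {F' : ι → (ι → ℝ) → ℝ} (hF : EG F)
    (hd : ∀ e, PD e F (F' e)) (hF' : ∀ e, EG (F' e)) {K : ℝ} (hK : 0 ≤ K)
    (hb : ∀ z, ∑ e, F' e z ^ 2 ≤ K) :
    ∫ z, (F z - ∫ w, F w ∂(gI ι)) ^ 4 ∂(gI ι) ≤ 5 * K ^ 2 := by
  set m := ∫ w, F w ∂(gI ι) with hm
  have hv : ∫ z, (F z - m) ^ 2 ∂(gI ι) ≤ K := by
    refine (cc_var_le_one hF hd hF').trans ?_
    rw [← integral_finsetSum _ fun e _ => ((hF' e).pow 2).integrable]
    calc ∫ z, ∑ e, F' e z ^ 2 ∂(gI ι) ≤ ∫ _z : ι → ℝ, K ∂(gI ι) :=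
          integral_mono (EG.sum _ fun e _ => (hF' e).pow 2).integrable (integrable_const _) hb
      _ = K := by simp
  have hv0 : 0 ≤ ∫ z, (F z - m) ^ 2 ∂(gI ι) := integral_nonneg fun z => sq_nonneg _
  have hc : EG (fun z => F z - m) := hF.sub (EG.const m)
  have hG : EG (fun z => (F z - m) ^ 2) := hc.pow 2
  have hGd : ∀ e, PD e (fun z => (F z - m) ^ 2) (fun z => 2 * ((F z - m) * F' e z)) := by
    intro e
    have h1 : PD e (fun z => F z - m) (fun z => F' e z) := by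
      have := (hd e).sub (PD.const (e := e) m)
      refine this.congr fun y => ?_
      simp
    have h2 := h1.mul h1
    have h3 : (fun z => (F z - m) ^ 2) = fun z => (F z - m) * (F z - m) := by
      funext z; ring
    rw [h3]
    refine h2.congr fun y => ?_
    ring
  have hG' : ∀ e, EG (fun z => 2 * ((F z - m) * F' e z)) := fun e =>
    (hc.mul (hF' e)).const_mul 2
  have hp := cc_var_le_one hG hGd hG'
  have hp2 : ∑ e, ∫ z, (2 * ((F z - m) * F' e z)) ^ 2 ∂(gI ι) ≤ 4 * K * ∫ z, (F z - m) ^ 2 ∂(gI ι) := by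
    rw [← integral_finsetSum _ fun e _ => ((hG' e).pow 2).integrable, ← integral_const_mul]
    refine integral_mono (EG.sum _ fun e _ => (hG' e).pow 2).integrable
      ((hG.const_mul (4 * K)).integrable) fun z => ?_
    have h1 : ∑ e, (2 * ((F z - m) * F' e z)) ^ 2 = 4 * (F z - m) ^ 2 * ∑ e, F' e z ^ 2 := by
      rw [mul_sum]
      exact sum_congr rfl fun e _ => by ring
    rw [h1]
    have h2 : 0 ≤ 4 * (F z - m) ^ 2 := by positivity
    calc 4 * (F z - m) ^ 2 * ∑ e, F' e z ^ 2 ≤ 4 * (F z - m) ^ 2 * K :=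
          mul_le_mul_of_nonneg_left (hb z) h2
      _ = 4 * K * (F z - m) ^ 2 := by ring
  set v := ∫ z, (F z - m) ^ 2 ∂(gI ι) with hvd
  have h4 : ∫ z, (F z - m) ^ 4 ∂(gI ι) = (∫ z, ((F z - m) ^ 2 - v) ^ 2 ∂(gI ι)) + v ^ 2 := by
    have h5 : ∀ z, ((F z - m) ^ 2 - v) ^ 2 = (F z - m) ^ 4 + ((-(2 * v)) * (F z - m) ^ 2 + v ^ 2) := by
      intro z; ring
    simp only [h5]
    rw [integral_add (hc.pow 4).integrable ((hG.const_mul _).add (EG.const _)).integrable,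
      integral_add (hG.const_mul _).integrable (EG.const _).integrable, integral_const_mul]
    have h6 : ∫ _z : ι → ℝ, v ^ 2 ∂(gI ι) = v ^ 2 := by simp
    rw [h6, ← hvd]
    ring
  rw [h4]
  have h7 : ∫ z, ((F z - m) ^ 2 - v) ^ 2 ∂(gI ι) ≤ 4 * K * v := hp.trans hp2
  have h8 : K * v ≤ K * K := mul_le_mul_of_nonneg_left hv hK
  have h9 : v * v ≤ K * K := mul_le_mul hv hv hv0 hK
  nlinarith

end gen

variable {N : ℕ}

section fam

variable {S : Type} [Fintype S] [Nonempty S]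

lemma four_le (hN : 0 < N) (r : ℝ) (V : S → Fin N → ℝ) (hV : ∀ x, V x ⬝ᵥ V x = 1) :
    ∫ g, (Pw.lse (En N r V) g - ∫ g', Pw.lse (En N r V) g' ∂(gI (Ix N))) ^ 4 ∂(gI (Ix N)) ≤
      20 * r ^ 4 / N ^ 2 := by
  classical
  have hN' : (0 : ℝ) < N := by exact_mod_cast hN
  have e1 : ∀ e, EG (fun g => Pw.lav (En N r V) g (fun x => r * ca N (V x) e)) := fun e =>
    Pw.eg_lav (eg_En r V) (fun x => (eg_En r V x).meas) (fun x => measurable_const)
      (C := ∑ x, ∑ e, |r * ca N (V x) e|)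
      (fun g x => (single_le_sum (f := fun e => |r * ca N (V x) e|) (fun _ _ => abs_nonneg _)
        (mem_univ e)).trans (single_le_sum (f := fun x => ∑ e, |r * ca N (V x) e|)
          (fun _ _ => sum_nonneg fun _ _ => abs_nonneg _) (mem_univ x)))
  have h := fourth_le (F := Pw.lse (En N r V))
    (F' := fun e g => Pw.lav (En N r V) g (fun x => r * ca N (V x) e))
    (Pw.eg_lse (eg_En r V)) (fun e => Pw.pd_lse (fun e x => pd_En r V e x) e) e1
    (K := 2 * r ^ 2 / N) (by positivity) (by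
      intro g
      have hD : ∀ x, ∑ e, (r * ca N (V x) e) ^ 2 ≤ 2 * r ^ 2 / N := by
        intro x
        have h1 : ∑ e, (r * ca N (V x) e) ^ 2 = 2 * r ^ 2 / N * ((∑ i, V x i * V x i) *
            ∑ j, V x j * V x j) := by
          rw [sum_mul_sum, Fintype.sum_prod_type, mul_sum]
          refine sum_congr rfl fun i _ => ?_
          rw [mul_sum]
          refine sum_congr rfl fun j _ => ?_
          unfold ca
          rw [mul_pow, mul_pow, Real.sq_sqrt (by positivity)]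
          ring
        have h2 : ∑ i, V x i * V x i = 1 := hV x
        rw [h1, h2, mul_one, mul_one]
      calc ∑ e, Pw.lav (En N r V) g (fun x => r * ca N (V x) e) ^ 2 ≤
          ∑ e, Pw.lav (En N r V) g (fun x => (r * ca N (V x) e) ^ 2) :=
            sum_le_sum fun e _ => Pw.lav_sq_le g _
        _ = Pw.lav (En N r V) g (fun x => ∑ e, (r * ca N (V x) e) ^ 2) := Pw.lav_sum _ g _
        _ ≤ Pw.lav (En N r V) g (fun _ => 2 * r ^ 2 / N) := Pw.lav_mono g hD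
        _ = 2 * r ^ 2 / N := Pw.lav_const g _)
  refine h.trans (le_of_eq ?_)
  ring

/-- the maximum over a finite family of unit vectors -/
theorem fin_max4 (hN : 0 < N) {s : ℝ} (hs : 0 < s) (V : S → Fin N → ℝ)
    (hV : ∀ x, V x ⬝ᵥ V x = 1) :
    (gI (Ix N)).real {g | ∃ x, 2 + s < V x ⬝ᵥ (Wm N g *ᵥ V x)} ≤ 320 / (N ^ 2 * s ^ 4) := by
  classical
  have hN' : (0 : ℝ) < N := by exact_mod_cast hN
  have hc : (1 : ℝ) ≤ Fintype.card S := by exact_mod_cast Fintype.card_pos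
  have hlc : 0 ≤ Real.log (Fintype.card S) := Real.log_nonneg hc
  obtain ⟨r, hr, hr2⟩ : ∃ r : ℝ, 0 < r ∧ Real.log (Fintype.card S) ≤ r * (s / 2) := by
    refine ⟨2 * Real.log (Fintype.card S) / s + 1, by positivity, ?_⟩
    rw [add_mul, div_mul_div_comm, mul_comm s 2, mul_assoc, mul_div_mul_left _ _ two_ne_zero,
      mul_div_assoc, div_self hs.ne']
    linarith
  set L := Pw.lse (En N r V) with hL
  set M := ∫ g', L g' ∂(gI (Ix N)) with hM
  have hEG : EG L := Pw.eg_lse (eg_En r V)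
  have h1 : ∀ g ∈ {g : Ix N → ℝ | ∃ x, 2 + s < V x ⬝ᵥ (Wm N g *ᵥ V x)},
      (r * (s / 2)) ^ 4 ≤ (L g - M) ^ 4 := by
    rintro g ⟨x, hx⟩
    have h2 : r * (2 + s) ≤ L g := by
      have h3 : En N r V g x ≤ L g := by
        rw [hL]
        unfold Pw.lse
        rw [Real.le_log_iff_exp_le (Pw.sum_exp_pos g)]
        exact single_le_sum (f := fun x => Real.exp (En N r V g x))
          (fun _ _ => (Real.exp_pos _).le) (mem_univ x)
      have h4 : En N r V g x = r * (V x ⬝ᵥ (Wm N g *ᵥ V x)) := by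
        rw [quad_eq hN, mul_sum]
        unfold En
        exact sum_congr rfl fun e _ => by ring
      rw [h4] at h3
      exact (mul_le_mul_of_nonneg_left hx.le hr.le).trans h3
    have h5 : M ≤ Real.log (Fintype.card S) + 2 * r := mean_le hN r hr V hV
    refine pow_le_pow_left₀ (by positivity) ?_ 4
    linarith
  have hi : Integrable (fun g => (L g - M) ^ 4) (gI (Ix N)) :=
    ((hEG.sub (EG.const M)).pow 4).integrable
  have h6 := mul_meas_ge_le_integral_of_nonneg (μ := gI (Ix N))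
    (Eventually.of_forall fun g => by positivity) hi ((r * (s / 2)) ^ 4)
  have h7 : (gI (Ix N)).real {g | ∃ x, 2 + s < V x ⬝ᵥ (Wm N g *ᵥ V x)} ≤
      (gI (Ix N)).real {g | (r * (s / 2)) ^ 4 ≤ (L g - M) ^ 4} :=
    measureReal_mono fun g hg => h1 g hg
  have h8 := four_le hN r V hV
  have h9 : 0 < (r * (s / 2)) ^ 4 := by positivity
  have h10 : (gI (Ix N)).real {g | (r * (s / 2)) ^ 4 ≤ (L g - M) ^ 4} ≤
      (20 * r ^ 4 / N ^ 2) / (r * (s / 2)) ^ 4 := by
    rw [le_div_iff₀ h9, mul_comm]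
    exact h6.trans h8
  refine h7.trans (h10.trans (le_of_eq ?_))
  field_simp
  ring

end fam

/-- **The largest eigenvalue, fourth moment.** -/
theorem lam_max4 (hN : 0 < N) {s : ℝ} (hs : 0 < s) :
    (gI (Ix N)).real {g | ∃ v : Fin N → ℝ, (2 + s) * (v ⬝ᵥ v) < v ⬝ᵥ (Wm N g *ᵥ v)} ≤
      320 / (N ^ 2 * s ^ 4) := by
  classical
  have hne : Nonempty {v : Fin N → ℝ // v ⬝ᵥ v = 1} :=
    ⟨⟨Pi.single ⟨0, hN⟩ 1, by simp⟩⟩
  set d : ℕ → {v : Fin N → ℝ // v ⬝ᵥ v = 1} := TopologicalSpace.denseSeq _ with hd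
  set A : ℕ → Set (Ix N → ℝ) := fun n =>
    {g | ∃ k : Fin (n + 1), 2 + s < (d k).1 ⬝ᵥ (Wm N g *ᵥ (d k).1)} with hA
  have hmono : Monotone A := by
    intro n m hnm g hg
    obtain ⟨k, hk⟩ := hg
    exact ⟨⟨k, by omega⟩, hk⟩
  have hsub : {g | ∃ v : Fin N → ℝ, (2 + s) * (v ⬝ᵥ v) < v ⬝ᵥ (Wm N g *ᵥ v)} ⊆ ⋃ n, A n := by
    rintro g ⟨v, hv⟩
    have hv0 : v ≠ 0 := by
      rintro rfl
      simp at hv
    have hp : 0 < v ⬝ᵥ v := by
      rcases lt_or_eq_of_le (Finset.sum_nonneg fun i _ => mul_self_nonneg (v i) :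
        0 ≤ v ⬝ᵥ v) with h | h
      · exact h
      · exact absurd (dotProduct_self_eq_zero.1 h.symm) hv0
    set u : Fin N → ℝ := (1 / √(v ⬝ᵥ v)) • v with hu
    have hsq : √(v ⬝ᵥ v) * √(v ⬝ᵥ v) = v ⬝ᵥ v := Real.mul_self_sqrt hp.le
    have hs0 : 0 < √(v ⬝ᵥ v) := Real.sqrt_pos.2 hp
    have hu1 : u ⬝ᵥ u = 1 := by
      rw [hu, smul_dotProduct, dotProduct_smul, smul_eq_mul, smul_eq_mul]
      field_simp
      rw [sq, hsq]
    have hu2 : 2 + s < u ⬝ᵥ (Wm N g *ᵥ u) := by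
      have e1 : u ⬝ᵥ (Wm N g *ᵥ u) = (v ⬝ᵥ (Wm N g *ᵥ v)) / (v ⬝ᵥ v) := by
        rw [hu, mulVec_smul, smul_dotProduct, dotProduct_smul, smul_eq_mul, smul_eq_mul]
        rw [← mul_assoc, div_mul_div_comm, hsq]
        ring
      rw [e1, lt_div_iff₀ hp]
      exact hv
    have hcont : Continuous fun w : {v : Fin N → ℝ // v ⬝ᵥ v = 1} =>
        w.1 ⬝ᵥ (Wm N g *ᵥ w.1) := by
      have h1 : Continuous fun w : Fin N → ℝ => w ⬝ᵥ (Wm N g *ᵥ w) := by
        simp only [dotProduct, mulVec]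
        fun_prop
      exact h1.comp continuous_subtype_val
    have hopen : IsOpen {w : {v : Fin N → ℝ // v ⬝ᵥ v = 1} | 2 + s < w.1 ⬝ᵥ (Wm N g *ᵥ w.1)} :=
      isOpen_lt continuous_const hcont
    obtain ⟨k, hk⟩ := (TopologicalSpace.denseRange_denseSeq
      {v : Fin N → ℝ // v ⬝ᵥ v = 1}).exists_mem_open hopen ⟨⟨u, hu1⟩, hu2⟩
    exact Set.mem_iUnion.2 ⟨k, ⟨⟨k, by omega⟩, hk⟩⟩
  have hb : ∀ n, (gI (Ix N)) (A n) ≤ ENNReal.ofReal (320 / (N ^ 2 * s ^ 4)) := by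
    intro n
    have h := fin_max4 (S := Fin (n + 1)) hN hs (fun k => (d k).1) fun k => (d k).2
    rw [← ENNReal.ofReal_toReal (measure_ne_top (gI (Ix N)) (A n))]
    exact ENNReal.ofReal_le_ofReal h
  have hU : (gI (Ix N)) (⋃ n, A n) ≤ ENNReal.ofReal (320 / (N ^ 2 * s ^ 4)) := by
    rw [hmono.measure_iUnion]
    exact iSup_le hb
  calc (gI (Ix N)).real {g | ∃ v : Fin N → ℝ, (2 + s) * (v ⬝ᵥ v) < v ⬝ᵥ (Wm N g *ᵥ v)} ≤
      (gI (Ix N)).real (⋃ n, A n) := measureReal_mono hsub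
    _ ≤ (ENNReal.ofReal (320 / (N ^ 2 * s ^ 4))).toReal :=
        ENNReal.toReal_mono ENNReal.ofReal_ne_top hU
    _ = 320 / (N ^ 2 * s ^ 4) := ENNReal.toReal_ofReal (by positivity)

end Vale.Agent.P146.H706
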