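import Vale.Agent.P146.Bdl.B2

/-! P146, R1 (8b): replacement of the full rows by the clean rows in quartic functionals. -/

set_option linter.all false

open MeasureTheory ProbabilityTheory Finset

namespace Vale.Agent.P146.H706

variable {Ω : Type*} [MeasurableSpace Ω] {P : Measure Ω} {q : Type} [Fintype q]

/-- squared norm -/
def vs (v : q → ℝ) : ℝ := ∑ i, v i ^ 2

/-- scalar product -/
def dp (v w : q → ℝ) : ℝ := ∑ i, v i * w i

lemma vs_nonneg (v : q → ℝ) : 0 ≤ vs v := sum_nonneg fun i _ => sq_nonneg _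

lemma dp_sq_le (v w : q → ℝ) : dp v w ^ 2 ≤ vs v * vs w :=
  sum_mul_sq_le_sq_mul_sq _ _ _

lemma dp_sub_left (a b c : q → ℝ) : dp (a - b) c = dp a c - dp b c := by
  unfold dp; rw [← sum_sub_distrib]; exact sum_congr rfl fun i _ => by simp [sub_mul]

lemma dp_sub_right (a b c : q → ℝ) : dp a (b - c) = dp a b - dp a c := by
  unfold dp; rw [← sum_sub_distrib]; exact sum_congr rfl fun i _ => by simp [mul_sub]

lemma vs_sub_le (a b : q → ℝ) : vs (a - b) ≤ 2 * vs a + 2 * vs b := by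
  unfold vs
  rw [mul_sum, mul_sum, ← sum_add_distrib]
  refine sum_le_sum fun i _ => ?_
  simp only [Pi.sub_apply]
  nlinarith [sq_nonneg (a i + b i)]

/-- sixth moment -/
structure S6 (P : Measure Ω) (A : Ω → q → ℝ) (M : ℝ) : Prop where
  meas : ∀ i, Measurable fun w => A w i
  int : Integrable (fun w => vs (A w) ^ 3) P
  le : ∫ w, vs (A w) ^ 3 ∂P ≤ M

variable {M δ : ℝ} {A B C D a b c d : Ω → q → ℝ}

lemma S6.meas_vs (h : S6 P A M) : Measurable fun w => vs (A w) :=
  Finset.measurable_sum _ fun i _ => (h.meas i).pow_const 2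

lemma meas_vs' (h : ∀ i, Measurable fun w => A w i) : Measurable fun w => vs (A w) :=
  Finset.measurable_sum _ fun i _ => (h i).pow_const 2

lemma meas_dp (h : ∀ i, Measurable fun w => A w i) (h' : ∀ i, Measurable fun w => B w i) :
    Measurable fun w => dp (A w) (B w) :=
  Finset.measurable_sum _ fun i _ => (h i).mul (h' i)

lemma ia {f g : Ω → ℝ} (hf : Integrable f P) (hg : Integrable g P) :
    Integrable (fun w => f w + g w) P := hf.add hg

/-- Cauchy-Schwarz in the root form -/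
lemma int_mul_le [IsFiniteMeasure P] {f g : Ω → ℝ} (hf : Measurable f) (hg : Measurable g)
    (hf2 : Integrable (fun w => f w ^ 2) P) (hg2 : Integrable (fun w => g w ^ 2) P) :
    Integrable (fun w => f w * g w) P ∧
    |∫ w, f w * g w ∂P| ≤ √(∫ w, f w ^ 2 ∂P) * √(∫ w, g w ^ 2 ∂P) := by
  have hi : Integrable (fun w => f w * g w) P := by
    refine (hf2.add hg2).mono (hf.mul hg).aestronglyMeasurable (ae_of_all _ fun w => ?_)
    simp only [Pi.add_apply, Real.norm_eq_abs]
    rw [abs_le, abs_of_nonneg (by positivity)]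
    constructor <;> nlinarith [sq_nonneg (f w - g w), sq_nonneg (f w + g w)]
  refine ⟨hi, ?_⟩
  set X := ∫ w, f w ^ 2 ∂P with hX
  set Y := ∫ w, g w ^ 2 ∂P with hY
  set Z := ∫ w, f w * g w ∂P with hZ
  have hX0 : 0 ≤ X := integral_nonneg fun w => sq_nonneg _
  have hY0 : 0 ≤ Y := integral_nonneg fun w => sq_nonneg _
  have key : ∀ t : ℝ, 0 ≤ X * t ^ 2 + 2 * Z * t + Y := by
    intro t
    have h1 : 0 ≤ ∫ w, (t * f w + g w) ^ 2 ∂P := integral_nonneg fun w => sq_nonneg _
    have h2 : ∫ w, (t * f w + g w) ^ 2 ∂P = X * t ^ 2 + 2 * Z * t + Y := by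
      have h3 : ∀ w, (t * f w + g w) ^ 2 = t ^ 2 * f w ^ 2 + (2 * t * (f w * g w) + g w ^ 2) :=
        fun w => by ring
      simp only [h3]
      rw [integral_add (hf2.const_mul _) (ia (hi.const_mul _) hg2),
        integral_add (hi.const_mul _) hg2, integral_const_mul, integral_const_mul]
      ring
    rw [h2] at h1; exact h1
  have hZ2 : Z ^ 2 ≤ X * Y := by
    rcases eq_or_lt_of_le hX0 with h | h
    · rw [← h] at key ⊢
      have h1 := key (-(Y + 1) / (2 * Z))
      by_contra hc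
      push Not at hc
      have hZ0 : 0 < Z ^ 2 := by linarith
      have hZ1 : Z ≠ 0 := fun h => by rw [h] at hZ0; simp at hZ0
      have h2 : 2 * Z * (-(Y + 1) / (2 * Z)) = -(Y + 1) := by field_simp
      rw [h2] at h1
      linarith
    · have h1 := key (-Z / X)
      have h2 : X * (-Z / X) ^ 2 + 2 * Z * (-Z / X) + Y = Y - Z ^ 2 / X := by
        field_simp; ring
      rw [h2] at h1
      have h3 : Z ^ 2 / X ≤ Y := by linarith
      rw [div_le_iff₀ h] at h3
      linarith
  rw [← Real.sqrt_mul hX0]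
  exact Real.abs_le_sqrt hZ2

/-- three factors of the sixth moment -/
lemma prod3_le (hB : S6 P B M) (hC : S6 P C M) (hD : S6 P D M) :
    Integrable (fun w => vs (B w) * (vs (C w) * vs (D w))) P ∧
    ∫ w, vs (B w) * (vs (C w) * vs (D w)) ∂P ≤ M := by
  have h0 : ∀ w, vs (B w) * (vs (C w) * vs (D w)) ≤
      (1 / 3) * (vs (B w) ^ 3 + (vs (C w) ^ 3 + vs (D w) ^ 3)) := by
    intro w
    have h1 := vs_nonneg (B w)
    have h2 := vs_nonneg (C w)
    have h3 := vs_nonneg (D w)
    nlinarith [mul_nonneg (add_nonneg (add_nonneg h1 h2) h3)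
      (add_nonneg (add_nonneg (sq_nonneg (vs (B w) - vs (C w))) (sq_nonneg (vs (C w) - vs (D w))))
        (sq_nonneg (vs (B w) - vs (D w))))]
  have hm : Integrable (fun w => (1 / 3 : ℝ) * (vs (B w) ^ 3 + (vs (C w) ^ 3 + vs (D w) ^ 3))) P :=
    (ia hB.int (ia hC.int hD.int)).const_mul _
  have hi : Integrable (fun w => vs (B w) * (vs (C w) * vs (D w))) P := by
    refine hm.mono (hB.meas_vs.mul (hC.meas_vs.mul hD.meas_vs)).aestronglyMeasurable
      (ae_of_all _ fun w => ?_)
    have h1 := vs_nonneg (B w)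
    have h2 := vs_nonneg (C w)
    have h3 := vs_nonneg (D w)
    rw [Real.norm_eq_abs, Real.norm_eq_abs, abs_of_nonneg (by positivity),
      abs_of_nonneg (by positivity)]
    exact h0 w
  refine ⟨hi, (integral_mono hi hm h0).trans ?_⟩
  rw [integral_const_mul, integral_add hB.int (ia hC.int hD.int), integral_add hC.int hD.int]
  linarith [hB.le, hC.le, hD.le]

/-- one factor is small in mean square -/
lemma quart_le [IsFiniteMeasure P] {E : Ω → q → ℝ} (hE : ∀ i, Measurable fun w => E w i)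
    (hE2 : Integrable (fun w => vs (E w)) P) (hEd : ∫ w, vs (E w) ∂P ≤ δ ^ 2) (hδ : 0 ≤ δ)
    (hB : S6 P B M) (hC : S6 P C M) (hD : S6 P D M) :
    Integrable (fun w => dp (E w) (B w) * dp (C w) (D w)) P ∧
    |∫ w, dp (E w) (B w) * dp (C w) (D w) ∂P| ≤ δ * √M := by
  obtain ⟨h1, h2⟩ := prod3_le hB hC hD
  have hb : ∀ w, |dp (E w) (B w) * dp (C w) (D w)| ≤
      √(vs (E w)) * √(vs (B w) * (vs (C w) * vs (D w))) := by
    intro w
    have e1 := vs_nonneg (E w)
    have e2 := vs_nonneg (B w)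
    have e3 := vs_nonneg (C w)
    have e4 := vs_nonneg (D w)
    rw [← Real.sqrt_mul e1]
    refine Real.abs_le_sqrt ?_
    rw [mul_pow]
    calc dp (E w) (B w) ^ 2 * dp (C w) (D w) ^ 2 ≤ (vs (E w) * vs (B w)) * (vs (C w) * vs (D w)) :=
          mul_le_mul (dp_sq_le _ _) (dp_sq_le _ _) (sq_nonneg _) (by positivity)
      _ = _ := by ring
  have hmE : Measurable fun w => √(vs (E w)) := (meas_vs' hE).sqrt
  have hm3 : Measurable fun w => √(vs (B w) * (vs (C w) * vs (D w))) :=
    (hB.meas_vs.mul (hC.meas_vs.mul hD.meas_vs)).sqrt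
  have s1 : (fun w => √(vs (E w)) ^ 2) = fun w => vs (E w) := by
    funext w; rw [Real.sq_sqrt (vs_nonneg _)]
  have s2 : (fun w => √(vs (B w) * (vs (C w) * vs (D w))) ^ 2) =
      fun w => vs (B w) * (vs (C w) * vs (D w)) := by
    funext w
    rw [Real.sq_sqrt]
    exact mul_nonneg (vs_nonneg _) (mul_nonneg (vs_nonneg _) (vs_nonneg _))
  obtain ⟨k1, k2⟩ := int_mul_le (P := P) hmE hm3 (by rw [s1]; exact hE2) (by rw [s2]; exact h1)
  rw [s1, s2] at k2
  have hmeas : Measurable fun w => dp (E w) (B w) * dp (C w) (D w) :=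
    (meas_dp hE hB.meas).mul (meas_dp hC.meas hD.meas)
  have hi : Integrable (fun w => dp (E w) (B w) * dp (C w) (D w)) P := by
    refine k1.mono hmeas.aestronglyMeasurable (ae_of_all _ fun w => ?_)
    rw [Real.norm_eq_abs, Real.norm_eq_abs, abs_of_nonneg (by positivity :
      0 ≤ √(vs (E w)) * √(vs (B w) * (vs (C w) * vs (D w))))]
    exact hb w
  refine ⟨hi, ?_⟩
  calc |∫ w, dp (E w) (B w) * dp (C w) (D w) ∂P| ≤ ∫ w, |dp (E w) (B w) * dp (C w) (D w)| ∂P :=
        abs_integral_le_integral_abs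
    _ ≤ ∫ w, √(vs (E w)) * √(vs (B w) * (vs (C w) * vs (D w))) ∂P :=
        integral_mono hi.abs k1 hb
    _ ≤ √(∫ w, vs (E w) ∂P) * √(∫ w, vs (B w) * (vs (C w) * vs (D w)) ∂P) :=
        (le_abs_self _).trans k2
    _ ≤ δ * √M := by
        refine mul_le_mul ?_ (Real.sqrt_le_sqrt h2) (Real.sqrt_nonneg _) hδ
        rw [Real.sqrt_le_left hδ]
        exact hEd

/-- mean square of a difference -/
structure L2d (P : Measure Ω) (A a : Ω → q → ℝ) (δ : ℝ) : Prop where
  nn : 0 ≤ δ
  int : Integrable (fun w => vs (A w - a w)) P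
  le : ∫ w, vs (A w - a w) ∂P ≤ δ ^ 2

/-- **(8b)** replacement in a quartic functional -/
theorem repl [IsFiniteMeasure P] (hA : S6 P A M) (hB : S6 P B M) (hC : S6 P C M) (hD : S6 P D M)
    (ha : S6 P a M) (hb : S6 P b M) (hc : S6 P c M) (hd : S6 P d M)
    (dA : L2d P A a δ) (dB : L2d P B b δ) (dC : L2d P C c δ) (dD : L2d P D d δ) :
    Integrable (fun w => dp (A w) (B w) * dp (C w) (D w)) P ∧
    Integrable (fun w => dp (a w) (b w) * dp (c w) (d w)) P ∧
    |(∫ w, dp (A w) (B w) * dp (C w) (D w) ∂P) - ∫ w, dp (a w) (b w) * dp (c w) (d w) ∂P| ≤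
      4 * (δ * √M) := by
  have hm : ∀ {A a : Ω → q → ℝ}, S6 P A M → S6 P a M → ∀ i, Measurable fun w => (A w - a w) i :=
    fun hA ha i => (hA.meas i).sub (ha.meas i)
  obtain ⟨i1, k1⟩ := quart_le (hm hA ha) dA.int dA.le dA.nn hB hC hD
  obtain ⟨i2, k2⟩ := quart_le (hm hB hb) dB.int dB.le dB.nn ha hC hD
  obtain ⟨i3, k3⟩ := quart_le (hm hC hc) dC.int dC.le dC.nn hD ha hb
  obtain ⟨i4, k4⟩ := quart_le (hm hD hd) dD.int dD.le dD.nn hc ha hb
  have dpc : ∀ v w : q → ℝ, dp v w = dp w v := fun v w => sum_congr rfl fun i _ => mul_comm _ _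
  have e : ∀ w, dp (A w) (B w) * dp (C w) (D w) = dp (a w) (b w) * dp (c w) (d w) +
      (dp (A w - a w) (B w) * dp (C w) (D w) + (dp (B w - b w) (a w) * dp (C w) (D w) +
        (dp (C w - c w) (D w) * dp (a w) (b w) + dp (D w - d w) (c w) * dp (a w) (b w)))) := by
    intro w
    simp only [dp_sub_left]
    rw [dpc (B w) (a w), dpc (b w) (a w), dpc (D w) (c w), dpc (d w) (c w)]
    ring
  -- integrability of the two products
  have z0 : L2d P a a δ := ⟨dA.nn, by simp [vs], by simp [vs]; positivity⟩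
  have bound : ∀ {A B C D : Ω → q → ℝ}, S6 P A M → S6 P B M → S6 P C M → S6 P D M →
      Integrable (fun w => dp (A w) (B w) * dp (C w) (D w)) P := by
    intro A B C D hA hB hC hD
    have hA2 : Integrable (fun w => vs (A w)) P := by
      refine ((integrable_const (1 : ℝ)).add hA.int).mono hA.meas_vs.aestronglyMeasurable
        (ae_of_all _ fun w => ?_)
      have h1 := vs_nonneg (A w)
      simp only [Pi.add_apply]
      rw [Real.norm_eq_abs, Real.norm_eq_abs, abs_of_nonneg h1, abs_of_nonneg (by positivity)]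
      nlinarith [sq_nonneg (vs (A w)), sq_nonneg (vs (A w) - 1), mul_nonneg h1 h1,
        mul_nonneg h1 (sq_nonneg (vs (A w) - 1))]
    exact (quart_le (δ := √(∫ w, vs (A w) ∂P)) hA.meas hA2
      (by rw [Real.sq_sqrt (integral_nonneg fun w => vs_nonneg _)]) (Real.sqrt_nonneg _)
      hB hC hD).1
  have I1 := bound hA hB hC hD
  have I2 := bound ha hb hc hd
  refine ⟨I1, I2, ?_⟩
  simp only [e]
  rw [integral_add I2 (ia i1 (ia i2 (ia i3 i4))), integral_add i1 (ia i2 (ia i3 i4)),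
    integral_add i2 (ia i3 i4), integral_add i3 i4, add_sub_cancel_left]
  rw [abs_le] at k1 k2 k3 k4 ⊢
  constructor <;> linarith [k1.1, k1.2, k2.1, k2.2, k3.1, k3.2, k4.1, k4.2]

end Vale.Agent.P146.H706
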