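import Mathlib

/-!
Averaging over a product grid: the sum of the second differences in each direction telescopes,
so some point of the grid has small second differences in all directions and for all functions
of a finite family.
-/

namespace Vale.Agent.P146.D4

open Finset Function

/-- The grid point with the coordinates `1..N`. -/
def gp {J N : ℕ} (f : Fin J → Fin N) (j : ℕ) : ℕ := if h : j < J then (f ⟨j, h⟩ : ℕ) + 1 else 0

lemma gp_mem {J N : ℕ} (f : Fin J → Fin N) {j : ℕ} (h : j < J) : 1 ≤ gp f j ∧ gp f j ≤ N := by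
  unfold gp
  rw [dif_pos h]
  exact ⟨by omega, (f ⟨j, h⟩).2⟩

lemma gp_le {J N : ℕ} (f : Fin J → Fin N) (j : ℕ) : gp f j ≤ N := by
  by_cases h : j < J
  · exact (gp_mem f h).2
  · unfold gp
    rw [dif_neg h]
    exact Nat.zero_le _

lemma gp_split {J N : ℕ} (l : Fin J) (f' : {j // j ≠ l} → Fin N) (a c : Fin N) :
    gp ((Equiv.funSplitAt l (Fin N)).symm (a, f')) =
      update (gp ((Equiv.funSplitAt l (Fin N)).symm (c, f'))) (l : ℕ) ((a : ℕ) + 1) := by
  funext j
  by_cases hj : j = l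
  · subst hj
    rw [update_self]
    unfold gp
    rw [dif_pos l.2]
    simp [Equiv.funSplitAt, Equiv.piSplitAt]
  · rw [update_of_ne hj]
    unfold gp
    by_cases h : j < J
    · have hne : (⟨j, h⟩ : Fin J) ≠ l := fun hh => hj (by rw [← hh])
      rw [dif_pos h, dif_pos h]
      simp [Equiv.funSplitAt, Equiv.piSplitAt, hne]
    · rw [dif_neg h, dif_neg h]

/-- One direction. -/
lemma line_le {J N : ℕ} (l : Fin J) (e : (ℕ → ℕ) → ℝ) (c : ℝ)
    (h : ∀ g : ℕ → ℕ, (∀ j, g j ≤ N) → e (update g l N) - e (update g l 0) ≤ c) (hc : 0 ≤ c) :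
    ∑ f : Fin J → Fin N, (e (gp f) - e (update (gp f) l (gp f l - 1))) ≤
      c * (N : ℝ) ^ (J - 1) := by
  classical
  have hcard : (Fintype.card ({j : Fin J // j ≠ l} → Fin N) : ℝ) = (N : ℝ) ^ (J - 1) := by
    rw [Fintype.card_fun, Fintype.card_fin]
    have : Fintype.card {j : Fin J // j ≠ l} = J - 1 := by
      rw [Fintype.card_subtype_compl, Fintype.card_fin, Fintype.card_unique]
    rw [this]
    push_cast
    rfl
  rw [← Equiv.sum_comp (Equiv.funSplitAt l (Fin N)).symm, Fintype.sum_prod_type_right,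
    ← hcard, mul_comm, ← nsmul_eq_mul, ← Finset.card_univ, ← Finset.sum_const]
  refine Finset.sum_le_sum fun f' _ => ?_
  rcases Nat.eq_zero_or_pos N with hN | hN
  · subst hN
    simpa using hc
  set G : ℕ → ℕ := gp ((Equiv.funSplitAt l (Fin N)).symm (⟨0, hN⟩, f')) with hG
  have hval : ∀ a : Fin N, gp ((Equiv.funSplitAt l (Fin N)).symm (a, f')) =
      update G l ((a : ℕ) + 1) := fun a => gp_split l f' a ⟨0, hN⟩
  have h1 : ∀ a : Fin N, e (gp ((Equiv.funSplitAt l (Fin N)).symm (a, f'))) -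
      e (update (gp ((Equiv.funSplitAt l (Fin N)).symm (a, f'))) l
        (gp ((Equiv.funSplitAt l (Fin N)).symm (a, f')) l - 1)) =
      e (update G l ((a : ℕ) + 1)) - e (update G l (a : ℕ)) := by
    intro a
    rw [hval a, update_self, update_idem, Nat.add_sub_cancel]
  rw [Finset.sum_congr rfl fun a _ => h1 a,
    Fin.sum_univ_eq_sum_range (fun a => e (update G l (a + 1)) - e (update G l a)) N,
    Finset.sum_range_sub (fun a => e (update G l a)) N]
  exact h G fun j => gp_le _ j

/-- **The choice of a point of the grid.** -/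
theorem grid_choice {J N : ℕ} (hN : 0 < N) {T : Type*} (S : Finset T)
    (e : T → ℕ → (ℕ → ℕ) → ℝ)
    (h : ∀ τ ∈ S, ∀ l < J, ∀ g : ℕ → ℕ, (∀ j, g j ≤ N) →
      e τ l (update g l N) - e τ l (update g l 0) ≤ 1) :
    ∃ g : ℕ → ℕ, (∀ j < J, 1 ≤ g j ∧ g j ≤ N) ∧ (∀ j, g j ≤ N) ∧
      ∑ τ ∈ S, ∑ l ∈ range J, (e τ l g - e τ l (update g l (g l - 1))) ≤
        (S.card : ℝ) * J / N := by
  classical
  haveI : Nonempty (Fin N) := ⟨⟨0, hN⟩⟩
  have hN0 : (0 : ℝ) < N := by exact_mod_cast hN
  have hmain : ∑ f : Fin J → Fin N, ∑ τ ∈ S, ∑ l ∈ range J,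
      (e τ l (gp f) - e τ l (update (gp f) l (gp f l - 1))) ≤
      ∑ _f : Fin J → Fin N, (S.card : ℝ) * J / N := by
    rw [Finset.sum_comm]
    have h1 : ∀ τ ∈ S, ∑ f : Fin J → Fin N, ∑ l ∈ range J,
        (e τ l (gp f) - e τ l (update (gp f) l (gp f l - 1))) ≤
        J * (N : ℝ) ^ (J - 1) := by
      intro τ hτ
      rw [Finset.sum_comm]
      calc ∑ l ∈ range J, ∑ f : Fin J → Fin N,
          (e τ l (gp f) - e τ l (update (gp f) l (gp f l - 1)))
          ≤ ∑ l ∈ range J, (N : ℝ) ^ (J - 1) := by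
            refine Finset.sum_le_sum fun l hl => ?_
            have := line_le (N := N) ⟨l, Finset.mem_range.1 hl⟩ (e τ l) 1
              (fun g hg => h τ hτ l (Finset.mem_range.1 hl) g hg) zero_le_one
            rwa [one_mul] at this
        _ = J * (N : ℝ) ^ (J - 1) := by
            rw [Finset.sum_const, card_range, nsmul_eq_mul]
    refine (Finset.sum_le_sum h1).trans ?_
    rw [Finset.sum_const, Finset.sum_const, nsmul_eq_mul, nsmul_eq_mul, Finset.card_univ,
      Fintype.card_fun, Fintype.card_fin, Fintype.card_fin]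
    push_cast
    rcases Nat.eq_zero_or_pos J with hJ | hJ
    · subst hJ
      simp
    · have e1 : (N : ℝ) ^ J = N ^ (J - 1) * N := by
        rw [← pow_succ, Nat.sub_add_cancel hJ]
      rw [e1]
      have : (N : ℝ) ^ (J - 1) * N * (S.card * J / N) = S.card * (J * N ^ (J - 1)) := by
        field_simp
      rw [this]
  obtain ⟨f, -, hf⟩ := Finset.exists_le_of_sum_le (Finset.univ_nonempty) hmain
  exact ⟨gp f, fun j hj => gp_mem f hj, gp_le f, hf⟩

end Vale.Agent.P146.D4
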