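import Vale.Agent.P146.H332.CDef
import Vale.Agent.P146.H713.Deep

/-!
Comparison of the laws `P_θ` of two functionals which differ by a bounded function, and the
reduction of a conditional expectation at the time `s` to the time `1`.
-/

open MeasureTheory ProbabilityTheory

namespace Vale.Agent.P146.R1

open Vale.Agent.P157.Lv Vale.Agent.P146.H425
open Vale.Agent.P146.H785 (Ax)

set_option linter.unusedSectionVars false

variable {κ : Type} [Fintype κ] {F G : (κ → ℝ) → ℝ} {D D' : κ → (κ → ℝ) → ℝ}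
  {B B' L L' x θ t0 t1 s c : ℝ}

/-- value functions of comparable functionals are comparable -/
lemma uu_comp (h : C11 F D B L) (h' : C11 G D' B' L') (hx : 0 < x) (h0 : ∀ z, F z ≤ G z)
    (h1 : ∀ z, G z ≤ F z + c) (t : ℝ) (z : κ → ℝ) :
    uu x t F z ≤ uu x t G z ∧ uu x t G z ≤ uu x t F z + c := by
  unfold uu
  refine ⟨H941.W_mono h.lip h.B0 h'.lip h'.B0 hx h0 z, ?_⟩
  have hl : LipB (fun z => F z + c) B := fun y w => by
    have := h.lip y w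
    rwa [add_sub_add_right_eq_sub]
  rw [← H941.W_add_const h.lip h.B0 hx]
  exact H941.W_mono h'.lip h'.B0 hl h.B0 hx h1 z

/-- the densities -/
lemma dn_comp (h : C11 F D B L) (h' : C11 G D' B' L') (hx : 0 < x) (hθ : 0 ≤ θ)
    (h0 : ∀ z, F z ≤ G z) (h1 : ∀ z, G z ≤ F z + c) (t0 t1 s : ℝ) (z0 z1 z2 : κ → ℝ) :
    Real.exp (-(θ * x * c)) * dn x θ t0 t1 s F z0 z1 z2 ≤ dn x θ t0 t1 s G z0 z1 z2 ∧
      dn x θ t0 t1 s G z0 z1 z2 ≤ Real.exp ((1 + θ) * x * c) * dn x θ t0 t1 s F z0 z1 z2 := by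
  obtain ⟨a0, a1⟩ := uu_comp h h' hx h0 h1 t0 z0
  obtain ⟨b0, b1⟩ := uu_comp h h' hx h0 h1 t1 z1
  obtain ⟨c0, c1⟩ := uu_comp h h' hx h0 h1 s z2
  have hθx : 0 ≤ θ * x := mul_nonneg hθ hx.le
  unfold dn xi
  rw [← Real.exp_add, ← Real.exp_add]
  constructor
  · apply Real.exp_le_exp.2
    nlinarith [mul_le_mul_of_nonneg_left c0 hx.le, mul_le_mul_of_nonneg_left b0 hθx,
      mul_le_mul_of_nonneg_left a1 hθx]
  · apply Real.exp_le_exp.2
    nlinarith [mul_le_mul_of_nonneg_left c1 hx.le, mul_le_mul_of_nonneg_left b1 hθx,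
      mul_le_mul_of_nonneg_left a0 hθx]

/-- **Comparison of the laws.** -/
theorem Et_comp {Ψ : (κ → ℝ) → (κ → ℝ) → (κ → ℝ) → ℝ} (h : C11 F D B L)
    (h' : C11 G D' B' L') (hx : 0 < x) (hθ : 0 ≤ θ) (h0 : ∀ z, F z ≤ G z)
    (h1 : ∀ z, G z ≤ F z + c) (hΨ : E3 Ψ) (hΨ0 : ∀ z0 z1 z2, 0 ≤ Ψ z0 z1 z2) :
    Et x θ t0 t1 s G Ψ ≤ Real.exp ((1 + 2 * θ) * x * c) * Et x θ t0 t1 s F Ψ := by
  have k1 : Eu x θ t0 t1 s G Ψ ≤ Real.exp ((1 + θ) * x * c) * Eu x θ t0 t1 s F Ψ := by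
    unfold Eu
    rw [← integral_const_mul]
    refine integral_mono (eg_Eu h' hx hΨ θ t0 t1 s).integrable
      ((eg_Eu h hx hΨ θ t0 t1 s).const_mul _).integrable fun w => ?_
    simp only
    rw [← mul_assoc]
    exact mul_le_mul_of_nonneg_right (dn_comp h h' hx hθ h0 h1 _ _ _ _ _ _).2 (hΨ0 _ _ _)
  have k2 : Real.exp (-(θ * x * c)) * Eu x θ t0 t1 s F (fun _ _ _ => 1) ≤
      Eu x θ t0 t1 s G (fun _ _ _ => 1) := by
    unfold Eu
    rw [← integral_const_mul]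
    refine integral_mono ((eg_Eu h hx (E3.const 1) θ t0 t1 s).const_mul _).integrable
      (eg_Eu h' hx (E3.const 1) θ t0 t1 s).integrable fun w => ?_
    simp only
    rw [← mul_assoc]
    exact mul_le_mul_of_nonneg_right (dn_comp h h' hx hθ h0 h1 _ _ _ _ _ _).1 zero_le_one
  have p1 := Eu_one_pos (θ := θ) (t0 := t0) (t1 := t1) (s := s) h hx
  have p2 := Eu_one_pos (θ := θ) (t0 := t0) (t1 := t1) (s := s) h' hx
  have p3 : 0 ≤ Eu x θ t0 t1 s F Ψ := Eu_nonneg hΨ0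
  unfold Et
  rw [div_le_iff₀ p2]
  have e : Real.exp ((1 + θ) * x * c) =
      Real.exp ((1 + 2 * θ) * x * c) * Real.exp (-(θ * x * c)) := by
    rw [← Real.exp_add]
    congr 1
    ring
  calc Eu x θ t0 t1 s G Ψ ≤ Real.exp ((1 + θ) * x * c) * Eu x θ t0 t1 s F Ψ := k1
    _ = Real.exp ((1 + 2 * θ) * x * c) *
        (Eu x θ t0 t1 s F Ψ / Eu x θ t0 t1 s F (fun _ _ _ => 1)) *
        (Real.exp (-(θ * x * c)) * Eu x θ t0 t1 s F (fun _ _ _ => 1)) := by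
          rw [e]
          field_simp
    _ ≤ _ := mul_le_mul_of_nonneg_left k2 (by positivity)

lemma uu_one (hx : 0 < x) (z : κ → ℝ) : uu x 1 F z = F z := by
  unfold uu
  rw [sub_self, Real.sqrt_zero, W_zero hx]

/-- the conditional expectation of the endpoint -/
lemma Ax_mul (h : C11 F D B L) (hx : 0 < x) (φ : (κ → ℝ) → ℝ) (s : ℝ) (z : κ → ℝ) :
    Real.exp (x * uu x s F z) * Ax x (√(1 - s)) F φ z =
      ∫ y, Real.exp (x * F (z + √(1 - s) • y)) * φ (z + √(1 - s) • y) ∂(gI κ) := by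
  unfold uu Ax
  rw [h.lip.exp_W h.B0 hx z]
  exact mul_div_cancel₀ _ (C11.posx h x _ z).ne'

/-- **The endpoint.** -/
theorem Eu_end (h : C11 F D B L) (hx : 0 < x) {φ : (κ → ℝ) → ℝ} (hφ : EG φ) (h0 : t1 ≤ s)
    (hs : s ≤ 1) :
    Eu x θ t0 t1 s F (fun _ _ z => Ax x (√(1 - s)) F φ z) =
      Eu x θ t0 t1 1 F (fun _ _ z => φ z) := by
  have hA : EG (Ax x (√(1 - s)) F φ) := eg_Ax h hφ x _
  rw [Eu_iter h hx (E3.of2 hA), Eu_iter h hx (E3.of2 hφ)]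
  refine integral_congr_ae (Filter.Eventually.of_forall fun y0 => ?_)
  refine integral_congr_ae (Filter.Eventually.of_forall fun y1 => ?_)
  simp only
  set z1 := √t0 • y0 + √(t1 - t0) • y1 with hz1
  have hf : EG fun z : κ → ℝ => dn x θ t0 t1 1 F (√t0 • y0) z1 z * φ z :=
    eg_elim (eg_elim ((e3_dn h hx θ t0 t1 1).mul (E3.of2 hφ)) (√t0 • y0)) z1
  have key := gI_rot hf (a := √(s - t1)) (b := √(1 - s)) (c := √(1 - t1)) (by
    rw [Real.sq_sqrt (by linarith), Real.sq_sqrt (by linarith), Real.sq_sqrt (by linarith)]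
    ring) z1
  refine Eq.trans ?_ key
  refine integral_congr_ae (Filter.Eventually.of_forall fun y2 => ?_)
  simp only
  unfold dn
  rw [Real.exp_add, mul_comm (Real.exp (x * _)), mul_assoc, Ax_mul h hx, ← integral_const_mul]
  refine integral_congr_ae (Filter.Eventually.of_forall fun y3 => ?_)
  simp only
  rw [uu_one hx, Real.exp_add]
  ring

theorem Et_end (h : C11 F D B L) (hx : 0 < x) {φ : (κ → ℝ) → ℝ} (hφ : EG φ) (h0 : t1 ≤ s)
    (hs : s ≤ 1) :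
    Et x θ t0 t1 s F (fun _ _ z => Ax x (√(1 - s)) F φ z) =
      Et x θ t0 t1 1 F (fun _ _ z => φ z) := by
  unfold Et
  rw [Eu_end h hx hφ h0 hs, Eu_one_eq h hx h0 hs, Eu_one_eq h hx (h0.trans hs) le_rfl]

/-! ### the mean `En` -/

section en

variable [DecidableEq κ] {q : R1C.Par} {φ : (κ → ℝ) → ℝ}

lemma En_two (h : C11 F D B L) (hq : q.Ok) {ψ : (κ → ℝ) → ℝ} (hψ : EG ψ) :
    R1C.En q F (fun w => ψ (R1C.P2 q w)) =
      R1.Et q.x q.θ q.t0 q.t1 q.s1 F (fun _ _ z2 => ψ z2) :=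
  (R1C.En_eq q F fun _ _ z2 _ => ψ z2).trans (Et4_123 h hq.x0 (E3.of2 hψ) hq.h12 hq.h2)

lemma En_three (h : C11 F D B L) (hq : q.Ok) {ψ : (κ → ℝ) → ℝ} (hψ : EG ψ) :
    R1C.En q F (fun w => ψ (R1C.P3 q w)) =
      R1.Et q.x q.θ q.t0 q.t1 q.s2 F (fun _ _ z2 => ψ z2) :=
  (R1C.En_eq q F fun _ _ _ z3 => ψ z3).trans (Et4_124 h hq.x0 (E3.of2 hψ) hq.h1 hq.h12)

/-- the endpoint seen from the time `s1` -/
theorem En_end2 (h : C11 F D B L) (hq : q.Ok) (hφ : EG φ) :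
    R1C.En q F (fun w => Ax q.x (√(1 - q.s1)) F φ (R1C.P2 q w)) =
      Et q.x q.θ q.t0 q.t1 1 F (fun _ _ z => φ z) := by
  rw [En_two h hq (eg_Ax h hφ _ _), Et_end h hq.x0 hφ hq.h1 (hq.h12.trans hq.h2)]

/-- the endpoint seen from the time `s2` -/
theorem En_end3 (h : C11 F D B L) (hq : q.Ok) (hφ : EG φ) :
    R1C.En q F (fun w => Ax q.x (√(1 - q.s2)) F φ (R1C.P3 q w)) =
      Et q.x q.θ q.t0 q.t1 1 F (fun _ _ z => φ z) := by
  rw [En_three h hq (eg_Ax h hφ _ _), Et_end h hq.x0 hφ (hq.h1.trans hq.h12) hq.h2]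

end en

end Vale.Agent.P146.R1
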