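import Vale.Agent.P146.H706.D4a
import Vale.Agent.P146.H706.D4b
import Vale.Agent.P146.H706.D4Def

/-!
The choice of the exponents of the deep layers: for a finite family of laws, and on the average
over a finite family of systems, the second differences of the deep functionals are small.
-/

open MeasureTheory ProbabilityTheory

namespace Vale.Agent.P146.R1

open Vale.Agent.P157.Lv Vale.Agent.P146.H425
open Vale.Agent.P146.H785 (Ax)

set_option linter.unusedSectionVars false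

/-- The exponents of the grid. -/
noncomputable def mgr (J : ℕ) (h : ℝ) (g : ℕ → ℕ) (l : ℕ) : ℝ :=
  ((J : ℝ) - l) / (J + 1) + h * g l

lemma mgr_pos {J : ℕ} {h : ℝ} (h0 : 0 ≤ h) (g : ℕ → ℕ) {l : ℕ} (hl : l < J) :
    1 / ((J : ℝ) + 1) ≤ mgr J h g l := by
  have h1 : (l : ℝ) + 1 ≤ J := by exact_mod_cast hl
  have h2 : 1 / ((J : ℝ) + 1) ≤ ((J : ℝ) - l) / (J + 1) := by
    gcongr
    linarith
  have h3 : 0 ≤ h * (g l : ℝ) := by positivity
  unfold mgr
  linarith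

lemma mgr_pos' {J : ℕ} {h : ℝ} (h0 : 0 ≤ h) (g : ℕ → ℕ) (l : ℕ) (hl : l < J) :
    0 < mgr J h g l := (by positivity : 0 < 1 / ((J : ℝ) + 1)).trans_le (mgr_pos h0 g hl)

lemma ups_mgr (J : ℕ) (h : ℝ) (g : ℕ → ℕ) (l : ℕ) :
    ups (mgr J h g) l h = mgr J h (Function.update g l (g l + 1)) := by
  funext j
  unfold ups
  by_cases hj : j = l
  · subst hj
    rw [Function.update_self]
    unfold mgr
    rw [Function.update_self]
    push_cast
    ring
  · rw [Function.update_of_ne hj]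
    unfold mgr
    rw [Function.update_of_ne hj]

lemma ups_mgr' (J : ℕ) (h : ℝ) {g : ℕ → ℕ} {l : ℕ} (hl : 1 ≤ g l) :
    ups (mgr J h g) l (-h) = mgr J h (Function.update g l (g l - 1)) := by
  funext j
  unfold ups
  by_cases hj : j = l
  · subst hj
    rw [Function.update_self]
    unfold mgr
    rw [Function.update_self]
    push_cast [Nat.cast_sub hl]
    ring
  · rw [Function.update_of_ne hj]
    unfold mgr
    rw [Function.update_of_ne hj]

variable {κ : Type} [Fintype κ] {F : (κ → ℝ) → ℝ} {D : κ → (κ → ℝ) → ℝ} {B L : ℝ}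

/-- The law of the endpoint for the undressed functional at the scale and window `p`. -/
noncomputable def Le (θ : ℝ) (F : (κ → ℝ) → ℝ) (p : ℝ × ℝ) (φ : (κ → ℝ) → ℝ) : ℝ :=
  Et p.1 θ (1 - p.2) (1 - p.2 / 2) 1 F fun _ _ z => φ z

section le

variable {θ : ℝ} {p : ℝ × ℝ} {φ ψ : (κ → ℝ) → ℝ}

lemma Le_sub (h : C11 F D B L) (hp : 0 < p.1) (hφ : EG φ) (hψ : EG ψ) :
    Le θ F p (fun z => φ z - ψ z) = Le θ F p φ - Le θ F p ψ :=
  Et_sub h hp (E3.of2 hφ) (E3.of2 hψ)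

lemma Le_const_mul (c : ℝ) : Le θ F p (fun z => c * φ z) = c * Le θ F p φ :=
  Et_const_mul c

lemma Le_nonneg (h : C11 F D B L) (hp : 0 < p.1) (h0 : ∀ z, 0 ≤ φ z) : 0 ≤ Le θ F p φ :=
  Et_nonneg h hp fun _ _ z => h0 z

lemma Le_le (h : C11 F D B L) (hp : 0 < p.1) (hφ : EG φ) {c : ℝ} (h0 : ∀ z, φ z ≤ c) :
    Le θ F p φ ≤ c :=
  (Et_mono h hp (E3.of2 hφ) (E3.const c) fun _ _ z => h0 z).trans_eq (Et_const h hp c)

end le

/-- **The choice of the exponents.** -/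
theorem d4_choice {ι : Type} [Fintype ι] [Nonempty ι] {Fb : ι → (κ → ℝ) → ℝ}
    {Db : ι → κ → (κ → ℝ) → ℝ} {Bb Lb : ι → ℝ} (hFb : ∀ b, C11 (Fb b) (Db b) (Bb b) (Lb b))
    (h : C11 F D B L) (σ : ℕ → ℝ) {J N : ℕ} (hN : 0 < N) {hh k0 : ℝ} (hh0 : 0 ≤ hh)
    (hk0 : 0 < k0)
    (hinc : ∀ b (m : ℕ → ℝ), (∀ j < J, 1 / ((J : ℝ) + 1) ≤ m j) → ∀ l < J, ∀ z,
      0 ≤ FD (Fb b) (ups m l hh) σ J z - FD (Fb b) m σ J z ∧
        FD (Fb b) (ups m l hh) σ J z - FD (Fb b) m σ J z ≤ k0)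
    (θ : ℝ) (S : Finset (ℝ × ℝ)) (hS : ∀ p ∈ S, 0 < p.1) :
    ∃ g : ℕ → ℕ, (∀ j < J, 1 ≤ g j ∧ g j ≤ N) ∧
      ∑ p ∈ S, ∑ l ∈ Finset.range J, (∑ b, Le θ F p
        (dsec (Fb b) (mgr J hh g) σ J l hh)) / Fintype.card ι ≤ k0 * ((S.card : ℝ) * J / N) := by
  classical
  have hι : (0 : ℝ) < Fintype.card ι := by exact_mod_cast Fintype.card_pos
  have hM : ∀ b g, EG (FD (Fb b) (mgr J hh g) σ J) := fun b g =>
    (c11_FD (σ := σ) (hFb b) J fun j hj => mgr_pos' hh0 g j hj).eg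
  set e : ℝ × ℝ → ℕ → (ℕ → ℕ) → ℝ := fun p l g => (∑ b, Le θ F p (fun z =>
    FD (Fb b) (mgr J hh (Function.update g l (g l + 1))) σ J z -
      FD (Fb b) (mgr J hh g) σ J z)) / Fintype.card ι / k0 with he
  have hb : ∀ p ∈ S, ∀ l < J, ∀ g, 0 ≤ e p l g ∧ e p l g ≤ 1 := by
    intro p hp l hl g
    have hi : ∀ b z, 0 ≤ FD (Fb b) (mgr J hh (Function.update g l (g l + 1))) σ J z -
        FD (Fb b) (mgr J hh g) σ J z ∧
        FD (Fb b) (mgr J hh (Function.update g l (g l + 1))) σ J z -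
        FD (Fb b) (mgr J hh g) σ J z ≤ k0 := by
      intro b z
      have := hinc b (mgr J hh g) (fun j hj => mgr_pos hh0 g hj) l hl z
      rwa [ups_mgr] at this
    simp only [he]
    constructor
    · refine div_nonneg (div_nonneg (Finset.sum_nonneg fun b _ => ?_) hι.le) hk0.le
      exact Le_nonneg h (hS p hp) fun z => (hi b z).1
    · rw [div_div, div_le_one (by positivity)]
      calc ∑ b, Le θ F p (fun z => FD (Fb b) (mgr J hh (Function.update g l (g l + 1))) σ J z -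
            FD (Fb b) (mgr J hh g) σ J z) ≤ ∑ _b : ι, k0 :=
            Finset.sum_le_sum fun b _ => Le_le h (hS p hp) ((hM b _).sub (hM b _))
              fun z => (hi b z).2
        _ = Fintype.card ι * k0 := by
            rw [Finset.sum_const, Finset.card_univ, nsmul_eq_mul]
  obtain ⟨g, hg, -, hsum⟩ := D4.grid_choice hN S e fun p hp l hl g _ => by
    have h1 := (hb p hp l hl (Function.update g l N)).2
    have h2 := (hb p hp l hl (Function.update g l 0)).1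
    linarith
  refine ⟨g, hg, ?_⟩
  have key : ∀ p ∈ S, ∀ l ∈ Finset.range J, (∑ b, Le θ F p
      (dsec (Fb b) (mgr J hh g) σ J l hh)) / Fintype.card ι =
      k0 * (e p l g - e p l (Function.update g l (g l - 1))) := by
    intro p hp l hl
    have hgl := (hg l (Finset.mem_range.1 hl)).1
    have e1 : Function.update (Function.update g l (g l - 1)) l
        (Function.update g l (g l - 1) l + 1) = g := by
      rw [Function.update_self, Function.update_idem, Nat.sub_add_cancel hgl,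
        Function.update_eq_self]
    simp only [he]
    rw [e1, ← sub_div, ← sub_div, ← Finset.sum_sub_distrib, mul_div_cancel₀ _ hk0.ne']
    congr 1
    refine Finset.sum_congr rfl fun b _ => ?_
    rw [← Le_sub h (hS p hp) ((hM b _).sub (hM b _)) ((hM b _).sub (hM b _))]
    congr 1
    funext z
    unfold dsec
    rw [ups_mgr, ups_mgr' J hh hgl]
    ring
  calc ∑ p ∈ S, ∑ l ∈ Finset.range J, (∑ b, Le θ F p
        (dsec (Fb b) (mgr J hh g) σ J l hh)) / Fintype.card ι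
      = k0 * ∑ p ∈ S, ∑ l ∈ Finset.range J, (e p l g - e p l (Function.update g l (g l - 1))) := by
        rw [Finset.mul_sum]
        refine Finset.sum_congr rfl fun p hp => ?_
        rw [Finset.mul_sum]
        exact Finset.sum_congr rfl fun l hl => key p hp l hl
    _ ≤ _ := mul_le_mul_of_nonneg_left hsum hk0.le

/-- One pair `p`, one layer. -/
theorem d4_one {ι : Type} [Fintype ι] {Fb : ι → (κ → ℝ) → ℝ} (h : C11 F D B L) (σ : ℕ → ℝ)
    {J : ℕ} {hh : ℝ} {m : ℕ → ℝ} (hsec : ∀ b, ∀ l < J, ∀ z, 0 ≤ dsec (Fb b) m σ J l hh z)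
    (θ : ℝ) (S : Finset (ℝ × ℝ)) (hS : ∀ p ∈ S, 0 < p.1) {K : ℝ}
    (hK : ∑ p ∈ S, ∑ l ∈ Finset.range J, (∑ b, Le θ F p
        (dsec (Fb b) m σ J l hh)) / Fintype.card ι ≤ K) {p : ℝ × ℝ} (hp : p ∈ S) {l : ℕ}
    (hl : l < J) : (∑ b, Le θ F p (dsec (Fb b) m σ J l hh)) / Fintype.card ι ≤ K := by
  have h0 : ∀ p ∈ S, ∀ l ∈ Finset.range J,
      0 ≤ (∑ b, Le θ F p (dsec (Fb b) m σ J l hh)) / Fintype.card ι := fun p hp l hl =>
    div_nonneg (Finset.sum_nonneg fun b _ => Le_nonneg h (hS p hp)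
      fun z => hsec b l (Finset.mem_range.1 hl) z) (Nat.cast_nonneg _)
  refine le_trans ?_ hK
  refine (Finset.single_le_sum (f := fun l => (∑ b, Le θ F p
    (dsec (Fb b) m σ J l hh)) / Fintype.card ι) (h0 p hp) (Finset.mem_range.2 hl)).trans ?_
  exact Finset.single_le_sum (f := fun p => ∑ l ∈ Finset.range J, (∑ b, Le θ F p
    (dsec (Fb b) m σ J l hh)) / Fintype.card ι)
    (fun p hp => Finset.sum_nonneg fun l hl => h0 p hp l hl) hp

/-- **The second differences under the law of the dressed functional, seen from the times `s1`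
and `s2`.** -/
theorem d4_law [DecidableEq κ] {ι : Type} [Fintype ι]
    (h : C11 F D B L) {V : (κ → ℝ) → ℝ} {DV : κ → (κ → ℝ) → ℝ} {BV LV c : ℝ}
    (hV : C11 V DV BV LV) (h0 : ∀ z, F z ≤ V z) (h1 : ∀ z, V z ≤ F z + c)
    {G : ι → (κ → ℝ) → ℝ} (hG : ∀ b, EG (G b)) (hG0 : ∀ b z, 0 ≤ G b z) {q : R1C.Par}
    (hq : q.Ok) {T K : ℝ} (ht0 : q.t0 = 1 - T) (ht1 : q.t1 = 1 - T / 2)
    (hc : (1 + 2 * q.θ) * q.x * c ≤ 1)
    (hK : (∑ b, Le q.θ F (q.x, T) (G b)) / Fintype.card ι ≤ K) :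
    (∑ b, R1C.En q V fun w => Ax q.x (√(1 - q.s1)) V (G b) (R1C.P2 q w)) / Fintype.card ι ≤
        3 * K ∧
      (∑ b, R1C.En q V fun w => Ax q.x (√(1 - q.s2)) V (G b) (R1C.P3 q w)) / Fintype.card ι ≤
        3 * K := by
  have key : ∀ b, Et q.x q.θ q.t0 q.t1 1 V (fun _ _ z => G b z) ≤
      3 * Le q.θ F (q.x, T) (G b) := by
    intro b
    refine (Et_comp h hV hq.x0 hq.θ0 h0 h1 (E3.of2 (hG b)) fun _ _ z => hG0 b z).trans ?_
    have e : Et q.x q.θ q.t0 q.t1 1 F (fun _ _ z => G b z) = Le q.θ F (q.x, T) (G b) := by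
      unfold Le
      rw [ht0, ht1]
    rw [e]
    refine mul_le_mul_of_nonneg_right ?_ (Le_nonneg h hq.x0 (hG0 b))
    calc Real.exp ((1 + 2 * q.θ) * q.x * c) ≤ Real.exp 1 := Real.exp_le_exp.2 hc
      _ ≤ 3 := Real.exp_one_lt_d9.le.trans (by norm_num)
  have fin : (∑ b, Et q.x q.θ q.t0 q.t1 1 V (fun _ _ z => G b z)) / Fintype.card ι ≤ 3 * K := by
    calc (∑ b, Et q.x q.θ q.t0 q.t1 1 V (fun _ _ z => G b z)) / Fintype.card ι
        ≤ (∑ b, 3 * Le q.θ F (q.x, T) (G b)) / Fintype.card ι :=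
          div_le_div_of_nonneg_right (Finset.sum_le_sum fun b _ => key b) (Nat.cast_nonneg _)
      _ = 3 * ((∑ b, Le q.θ F (q.x, T) (G b)) / Fintype.card ι) := by
          rw [← Finset.mul_sum, mul_div_assoc]
      _ ≤ 3 * K := mul_le_mul_of_nonneg_left hK (by norm_num)
  constructor
  · simp only [En_end2 hV hq (hG _)]
    exact fin
  · simp only [En_end3 hV hq (hG _)]
    exact fin

end Vale.Agent.P146.R1
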