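import Vale.Agent.P146.H706.D4n
import Vale.Agent.P146.H785.GridD

/-!
The output of the choice of the exponents, for general functionals.
-/

open MeasureTheory ProbabilityTheory

namespace Vale.Agent.P146.R1

open Vale.Agent.P157.Lv Vale.Agent.P146.H425
open Vale.Agent.P146.H785 (Ax)

set_option linter.unusedSectionVars false

variable {κ : Type} [Fintype κ] {F : (κ → ℝ) → ℝ} {D : κ → (κ → ℝ) → ℝ} {B L : ℝ}

lemma Le_sum {θ : ℝ} {p : ℝ × ℝ} (h : C11 F D B L) (hp : 0 < p.1) (s : Finset ℕ)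
    {φ : ℕ → (κ → ℝ) → ℝ} (hφ : ∀ l ∈ s, EG (φ l)) :
    Le θ F p (fun z => ∑ l ∈ s, φ l z) = ∑ l ∈ s, Le θ F p (φ l) := by
  classical
  induction s using Finset.induction_on with
  | empty =>
    simp only [Finset.sum_empty]
    exact Et_const h hp 0
  | insert a s ha ih =>
    simp only [Finset.sum_insert ha]
    rw [← ih fun l hl => hφ l (Finset.mem_insert_of_mem hl)]
    exact Et_add h hp (E3.of2 (hφ a (Finset.mem_insert_self a s)))
      (E3.of2 (EG.sum s fun l hl => hφ l (Finset.mem_insert_of_mem hl)))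

/-- the second difference is of exponential growth -/
lemma eg_dsec (h : C11 F D B L) {m σ : ℕ → ℝ} {J l : ℕ} {hh : ℝ}
    (hm : ∀ j < J, |hh| < m j) : EG (dsec F m σ J l hh) := by
  have h0 : ∀ j < J, 0 < m j := fun j hj => (abs_nonneg hh).trans_lt (hm j hj)
  have hu : ∀ r : ℝ, |r| = |hh| → ∀ j < J, 0 < ups m l r j := by
    intro r hr j hj
    unfold ups
    by_cases hjl : j = l
    · subst hjl
      rw [Function.update_self]
      have := hm j hj
      rw [← hr] at this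
      linarith [neg_abs_le r]
    · rw [Function.update_of_ne hjl]
      exact h0 j hj
  have e1 := (c11_FD (σ := σ) h J (hu hh rfl)).eg
  have e2 := (c11_FD (σ := σ) h J h0).eg
  have e3 := (c11_FD (σ := σ) h J (hu (-hh) (abs_neg hh))).eg
  exact (e1.sub (e2.const_mul 2)).add e3

/-- The interval of the exponent of a layer of the box. -/
lemma mgr_box {J N : ℕ} {h : ℝ} (h0 : 0 ≤ h) (hN : h * (N + 1) = 1 / (4 * ((J : ℝ) + 1)))
    {g : ℕ → ℕ} {l : ℕ} (hg : 1 ≤ g l ∧ g l ≤ N) :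
    ((J : ℝ) - l) / (J + 1) + h ≤ mgr J h g l ∧
      mgr J h g l + h ≤ ((J : ℝ) - l) / (J + 1) + 1 / (4 * ((J : ℝ) + 1)) := by
  have h1 : (1 : ℝ) ≤ g l := by exact_mod_cast hg.1
  have h2 : (g l : ℝ) ≤ N := by exact_mod_cast hg.2
  unfold mgr
  constructor
  · nlinarith
  · rw [← hN]
    nlinarith

/-- **The choice of the exponents of the deep layers.** -/
theorem d4_gen {τ a C α : ℝ} (hτ : 0 < τ) (hα : α ≤ 2) :
    ∃ n₀ : ℝ, 2 ≤ n₀ ∧ ∀ n : ℝ, n₀ ≤ n → ∀ (J : ℕ) (lam : ℝ), 0 ≤ lam → n ^ τ ≤ lam * (C * n) →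
      ∀ (κ : Type) [Fintype κ] [DecidableEq κ] (F : (κ → ℝ) → ℝ) (D : κ → (κ → ℝ) → ℝ)
        (B L : ℝ), C11 F D B L →
      ∀ (ι : Type) [Fintype ι] [Nonempty ι] (Fb : ι → (κ → ℝ) → ℝ)
        (Db : ι → κ → (κ → ℝ) → ℝ) (Bb Lb : ι → ℝ), (∀ b, C11 (Fb b) (Db b) (Bb b) (Lb b)) →
        (∀ b, Cv (Fb b)) → (∀ b z, ∑ e, Db b e z ^ 2 ≤ C * n) →
      ∀ c : ℝ, (∀ m : ℕ → ℝ, (∀ j < J, 1 / ((J : ℝ) + 1) ≤ m j) → (∀ j < J, m j ≤ 1) →
        ∀ z, F z ≤ FD F m (fun _ => √lam) J z ∧ FD F m (fun _ => √lam) J z ≤ F z + c) →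
        3 * n ^ (-(1 / 6) + α : ℝ) * c ≤ 1 →
      ∃ (m : ℕ → ℝ) (h : ℝ), 0 < h ∧ 1 / (24 * ((J : ℝ) + 1)) ≤ h / 2 * (lam * (C * n)) ∧
        h / 2 * (lam * (C * n)) ≤ 1 / (8 * ((J : ℝ) + 1)) ∧
        (∀ l < J, ((J : ℝ) - l) / (J + 1) + h ≤ m l ∧
          m l + h ≤ ((J : ℝ) - l) / (J + 1) + 1 / (4 * ((J : ℝ) + 1))) ∧
        ∀ (q : R1C.Par) (T : ℝ), q.Ok → q.t0 = 1 - T → q.t1 = 1 - T / 2 →
          FGrid n a q.x q.θ T → q.x ≤ n ^ (-(1 / 6) + α : ℝ) → 1 / n ^ 2 ≤ T →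
          (∑ b, R1C.En q (FD F m (fun _ => √lam) J) fun w => Ax q.x (√(1 - q.s1))
            (FD F m (fun _ => √lam) J)
            (fun z => ∑ l ∈ Finset.range J, dsec (Fb b) m (fun _ => √lam) J l h z)
            (R1C.P2 q w)) / Fintype.card ι ≤ n ^ (-(τ / 2)) ∧
          (∑ b, R1C.En q (FD F m (fun _ => √lam) J) fun w => Ax q.x (√(1 - q.s2))
            (FD F m (fun _ => √lam) J)
            (fun z => ∑ l ∈ Finset.range J, dsec (Fb b) m (fun _ => √lam) J l h z)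
            (R1C.P3 q w)) / Fintype.card ι ≤ n ^ (-(τ / 2)) := by
  obtain ⟨n₀, hn₀, hfin⟩ := fin_num hτ
  refine ⟨n₀, hn₀, fun n hn J lam hlam hnl κ _ _ F D B L hF ι _ _ Fb Db Bb Lb hFb hcv hBd c
    hcl hc => ?_⟩
  have hn2 : 2 ≤ n := hn₀.trans hn
  have hn1 : 1 ≤ n := by linarith
  have hn0 : 0 < n := by linarith
  set u := lam * (C * n) with hu
  have hu1 : 1 ≤ u := (Real.one_le_rpow hn1 hτ.le).trans hnl
  obtain ⟨hN0, huN, hh0, hhN, hk1, hk2⟩ := mesh_num (J := J) hu1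
  set N := ⌈u⌉₊ with hN
  set h := 1 / (4 * ((J : ℝ) + 1) * (N + 1)) with hh
  set k0 := h / 2 * u with hk0
  have hJ : (0 : ℝ) < (J : ℝ) + 1 := by positivity
  have hk0p : 0 < k0 := lt_of_lt_of_le (by positivity) hk1
  have hk01 : k0 ≤ 1 := hk2.trans (by
    rw [div_le_one (by positivity)]
    have : (0 : ℝ) ≤ J := Nat.cast_nonneg J
    linarith)
  have ha0 : 0 < 1 / ((J : ℝ) + 1) := by positivity
  have ha1 : 1 / ((J : ℝ) + 1) ≤ 1 := by
    rw [div_le_one hJ]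
    have : (0 : ℝ) ≤ J := Nat.cast_nonneg J
    linarith
  have hσ : √lam ^ 2 * (C * n) = u := by rw [Real.sq_sqrt hlam]
  obtain ⟨g, hg, hsum⟩ := d4_choice (θ := 1 / (a * Real.log n)) hFb hF (fun _ => √lam) hN0
    hh0.le hk0p (fun b m hm l hl z => by
      have := H785.ups_bd (σ := fun _ => √lam) (hFb b) (hcv b)
        (fun j hj => ha0.trans_le (hm j hj)) hl hh0.le (hBd b) (by rw [hσ]; exact hk01) ha0 ha1
        (fun j _ hj => hm j hj) z
      rwa [hσ] at this)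
    (sgrid n ⌊4 * Real.log n⌋₊) (sgrid_pos hn0 _)
  have hbox : ∀ l < J, ((J : ℝ) - l) / (J + 1) + h ≤ mgr J h g l ∧
      mgr J h g l + h ≤ ((J : ℝ) - l) / (J + 1) + 1 / (4 * ((J : ℝ) + 1)) :=
    fun l hl => mgr_box hh0.le hhN (hg l hl)
  refine ⟨mgr J h g, h, hh0, hk1, hk2, hbox, fun q T hq ht0 ht1 hgr hx hT => ?_⟩
  have hml : ∀ j < J, 1 / ((J : ℝ) + 1) ≤ mgr J h g j := fun j hj => mgr_pos hh0.le g hj
  have hmle : ∀ j < J, mgr J h g j ≤ 1 := by
    intro j hj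
    have h1 := (hbox j hj).2
    have h2 : ((J : ℝ) - j) / (J + 1) + 1 / (4 * ((J : ℝ) + 1)) ≤ 1 := by
      rw [div_add_div _ _ (by positivity) (by positivity), div_le_one (by positivity)]
      have : (0 : ℝ) ≤ j := Nat.cast_nonneg j
      nlinarith [mul_nonneg this hJ.le]
    linarith
  have hhl : ∀ j < J, |h| < mgr J h g j := by
    intro j hj
    rw [abs_of_pos hh0]
    have h1 := (hbox j hj).1
    have h2 : 0 < ((J : ℝ) - j) / (J + 1) := by
      have : (j : ℝ) < J := by exact_mod_cast hj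
      have : 0 < (J : ℝ) - j := by linarith
      positivity
    linarith
  have hsec : ∀ b, ∀ l < J, ∀ z, 0 ≤ dsec (Fb b) (mgr J h g) (fun _ => √lam) J l h z := by
    intro b l hl z
    have h1 := hhl l hl
    rw [abs_of_pos hh0] at h1
    exact H785.dsec_nonneg (σ := fun _ => √lam) (hFb b) (hcv b)
      (fun j hj => ha0.trans_le (hml j hj)) hl hh0.le h1 (hBd b) (by rw [hσ]; exact hk01) ha0 ha1
      (fun j _ hj => hml j hj) z
  have hdg : ∀ b l, EG (dsec (Fb b) (mgr J h g) (fun _ => √lam) J l h) := fun b l =>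
    eg_dsec (hFb b) hhl
  have hmem := mem_sgrid hn1 hgr hα hx hT
  -- the mean for the undressed functional
  have hK : (∑ b, Le q.θ F (q.x, T) (fun z => ∑ l ∈ Finset.range J,
      dsec (Fb b) (mgr J h g) (fun _ => √lam) J l h z)) / Fintype.card ι ≤
      k0 * (((sgrid n ⌊4 * Real.log n⌋₊).card : ℝ) * J / N) := by
    refine le_trans (le_of_eq ?_) ((Finset.single_le_sum (f := fun p : ℝ × ℝ =>
      ∑ l ∈ Finset.range J, (∑ b, Le (1 / (a * Real.log n)) F p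
        (dsec (Fb b) (mgr J h g) (fun _ => √lam) J l h)) / Fintype.card ι)
      (fun p hp => Finset.sum_nonneg fun l hl => div_nonneg (Finset.sum_nonneg fun b _ =>
        Le_nonneg hF (sgrid_pos hn0 _ p hp) fun z => hsec b l (Finset.mem_range.1 hl) z)
        (Nat.cast_nonneg _)) hmem).trans hsum)
    rw [← Finset.sum_div, Finset.sum_comm, ← hgr.θ_grid]
    congr 1
    refine Finset.sum_congr rfl fun b _ => ?_
    exact Le_sum hF hq.x0 (Finset.range J) fun l _ => hdg b l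
  have hcl' := hcl (mgr J h g) hml hmle
  have hc0 : 0 ≤ c := by
    have := hcl' 0
    linarith
  have hcx : (1 + 2 * q.θ) * q.x * c ≤ 1 := by
    refine le_trans ?_ hc
    have h1 : (1 + 2 * q.θ) * q.x ≤ 3 * n ^ (-(1 / 6) + α : ℝ) :=
      mul_le_mul (by linarith [hq.θ1]) hx hq.x0.le (by norm_num)
    exact mul_le_mul_of_nonneg_right h1 hc0
  have hV := c11_FD (σ := fun _ => √lam) hF J fun j hj => ha0.trans_le (hml j hj)
  obtain ⟨r1, r2⟩ := d4_law hF hV (fun z => (hcl' z).1) (fun z => (hcl' z).2)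
    (G := fun b z => ∑ l ∈ Finset.range J, dsec (Fb b) (mgr J h g) (fun _ => √lam) J l h z)
    (fun b => EG.sum _ fun l _ => hdg b l)
    (fun b z => Finset.sum_nonneg fun l hl => hsec b l (Finset.mem_range.1 hl) z)
    hq ht0 ht1 hcx hK
  have hlast := hfin n hn J k0 N hk0p.le hk2 (hnl.trans huN)
    (sgrid n ⌊4 * Real.log n⌋₊).card (card_sgrid n _) (Nat.cast_nonneg _)
  exact ⟨r1.trans hlast, r2.trans hlast⟩

end Vale.Agent.P146.R1
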