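import Vale.Agent.P146.H706.D4c
import Vale.Agent.P146.H425.FOut2

/-!
The numbers of the choice of the exponents: mesh, number of the grid points, the grid of the
scales and windows.
-/

open MeasureTheory ProbabilityTheory

namespace Vale.Agent.P146.R1

open Vale.Agent.P157.Lv Vale.Agent.P146.H425

set_option linter.unusedSectionVars false

/-- The grid of the scales and windows. -/
noncomputable def sgrid (n : ℝ) (K : ℕ) : Finset (ℝ × ℝ) :=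
  (Finset.range (K + 1) ×ˢ Finset.range (K + 1)).image
    fun p => (2 ^ p.1 * n ^ (-(1 / 6) : ℝ), (1 / 2 : ℝ) ^ p.2)

lemma card_sgrid (n : ℝ) (K : ℕ) : ((sgrid n K).card : ℝ) ≤ ((K : ℝ) + 1) ^ 2 := by
  have h1 : (sgrid n K).card ≤ (K + 1) * (K + 1) := by
    refine Finset.card_image_le.trans ?_
    rw [Finset.card_product, Finset.card_range]
  have h2 : ((sgrid n K).card : ℝ) ≤ ((K + 1 : ℕ) : ℝ) * ((K + 1 : ℕ) : ℝ) := by exact_mod_cast h1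
  push_cast at h2
  rwa [← pow_two] at h2

lemma sgrid_pos {n : ℝ} (hn : 0 < n) (K : ℕ) : ∀ p ∈ sgrid n K, 0 < p.1 := by
  intro p hp
  unfold sgrid at hp
  obtain ⟨r, -, hr⟩ := Finset.mem_image.1 hp
  rw [← hr]
  have := Real.rpow_pos_of_pos hn (-(1 / 6) : ℝ)
  positivity

lemma nat_le_of_pow {n r : ℝ} (hn : 1 ≤ n) (hr : r ≤ 2) {j : ℕ} (h : (2 : ℝ) ^ j ≤ n ^ r) :
    (j : ℝ) ≤ 4 * Real.log n := by
  have hn0 : 0 < n := by linarith
  have hlog : 0 ≤ Real.log n := Real.log_nonneg hn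
  have h1 := Real.log_le_log (by positivity) h
  rw [Real.log_pow, Real.log_rpow hn0] at h1
  have h2 : r * Real.log n ≤ 2 * Real.log n := mul_le_mul_of_nonneg_right hr hlog
  have h3 := Real.log_two_gt_d9
  nlinarith [(Nat.cast_nonneg j : (0 : ℝ) ≤ j)]

lemma mem_sgrid {n a x θ T al : ℝ} (hn : 1 ≤ n) (hg : FGrid n a x θ T) (hal : al ≤ 2)
    (hx : x ≤ n ^ (-(1 / 6) + al : ℝ)) (hT : 1 / n ^ 2 ≤ T) :
    (x, T) ∈ sgrid n ⌊4 * Real.log n⌋₊ := by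
  have hn0 : 0 < n := by linarith
  have hlog : 0 ≤ Real.log n := Real.log_nonneg hn
  obtain ⟨j, hj⟩ := hg.x_grid
  obtain ⟨i, hi⟩ := hg.T_grid
  unfold sgrid
  refine Finset.mem_image.2 ⟨(j, i), ?_, by rw [hj, hi]⟩
  rw [Finset.mem_product, Finset.mem_range, Finset.mem_range, Nat.lt_succ_iff, Nat.lt_succ_iff,
    Nat.le_floor_iff (by positivity), Nat.le_floor_iff (by positivity)]
  constructor
  · refine nat_le_of_pow hn hal ?_
    rw [hj, Real.rpow_add hn0] at hx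
    have hp := Real.rpow_pos_of_pos hn0 (-(1 / 6) : ℝ)
    rw [mul_comm] at hx
    exact le_of_mul_le_mul_left hx hp
  · refine nat_le_of_pow hn (r := 2) le_rfl ?_
    rw [hi, one_div_pow] at hT
    have h2 : (0 : ℝ) < 2 ^ i := by positivity
    have hn2 : 0 < n ^ 2 := by positivity
    have h3 := (one_div_le_one_div hn2 h2).1 hT
    rw [Real.rpow_two]
    exact h3

/-- The mesh. -/
lemma mesh_num {J : ℕ} {u : ℝ} (hu : 1 ≤ u) :
    0 < ⌈u⌉₊ ∧ u ≤ ⌈u⌉₊ ∧ 0 < 1 / (4 * ((J : ℝ) + 1) * (⌈u⌉₊ + 1)) ∧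
      1 / (4 * ((J : ℝ) + 1) * (⌈u⌉₊ + 1)) * (⌈u⌉₊ + 1) = 1 / (4 * ((J : ℝ) + 1)) ∧
      1 / (24 * ((J : ℝ) + 1)) ≤ 1 / (4 * ((J : ℝ) + 1) * (⌈u⌉₊ + 1)) / 2 * u ∧
      1 / (4 * ((J : ℝ) + 1) * (⌈u⌉₊ + 1)) / 2 * u ≤ 1 / (8 * ((J : ℝ) + 1)) := by
  have h0 : u ≤ ⌈u⌉₊ := Nat.le_ceil u
  have h1 : (⌈u⌉₊ : ℝ) < u + 1 := Nat.ceil_lt_add_one (by linarith)
  have h2 : 0 < ⌈u⌉₊ := Nat.ceil_pos.2 (by linarith)
  have hJ : (0 : ℝ) < (J : ℝ) + 1 := by positivity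
  have hN : (0 : ℝ) < (⌈u⌉₊ : ℝ) + 1 := by positivity
  refine ⟨h2, h0, by positivity, by field_simp, ?_, ?_⟩
  · rw [div_div, div_mul_eq_mul_div, one_mul, div_le_div_iff₀ (by positivity) (by positivity)]
    nlinarith
  · rw [div_div, div_mul_eq_mul_div, one_mul, div_le_div_iff₀ (by positivity) (by positivity)]
    nlinarith

/-- The final number. -/
lemma fin_num {τ : ℝ} (hτ : 0 < τ) : ∃ n₀ : ℝ, 2 ≤ n₀ ∧ ∀ n : ℝ, n₀ ≤ n → ∀ (J : ℕ) (k0 N : ℝ),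
    0 ≤ k0 → k0 ≤ 1 / (8 * ((J : ℝ) + 1)) → n ^ τ ≤ N → ∀ c : ℝ,
    c ≤ ((⌊4 * Real.log n⌋₊ : ℝ) + 1) ^ 2 → 0 ≤ c → 3 * (k0 * (c * J / N)) ≤ n ^ (-(τ / 2)) := by
  obtain ⟨n₁, h2, h⟩ := H737.R1.log_le_pow (A := 8) (δ := τ / 4) (by positivity)
  refine ⟨n₁, h2, fun n hn J k0 N hk hk1 hN c hc hc0 => ?_⟩
  have hn2 : 2 ≤ n := h2.trans hn
  have hn0 : 0 < n := by linarith
  have hl := h n hn
  have hlog : 1 / 4 ≤ Real.log n := by
    have h3 := Real.log_two_gt_d9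
    have h4 : Real.log 2 ≤ Real.log n := Real.log_le_log (by norm_num) hn2
    linarith
  have hNp : 0 < N := (Real.rpow_pos_of_pos hn0 τ).trans_le hN
  have hJ : (0 : ℝ) < (J : ℝ) + 1 := by positivity
  have hfl : (⌊4 * Real.log n⌋₊ : ℝ) ≤ 4 * Real.log n := Nat.floor_le (by positivity)
  have hK : ((⌊4 * Real.log n⌋₊ : ℝ) + 1) ^ 2 ≤ n ^ (τ / 2) := by
    have e : n ^ (τ / 2) = (n ^ (τ / 4)) ^ 2 := by
      rw [← Real.rpow_natCast, ← Real.rpow_mul hn0.le]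
      congr 1
      push_cast
      ring
    rw [e]
    exact pow_le_pow_left₀ (by positivity) (by linarith) 2
  have hkJ : k0 * J ≤ 1 / 8 := by
    have h5 : k0 * ((J : ℝ) + 1) ≤ 1 / (8 * ((J : ℝ) + 1)) * ((J : ℝ) + 1) :=
      mul_le_mul_of_nonneg_right hk1 hJ.le
    have e : 1 / (8 * ((J : ℝ) + 1)) * ((J : ℝ) + 1) = 1 / 8 := by field_simp
    rw [e] at h5
    nlinarith
  have hkJ0 : 0 ≤ k0 * J := by positivity
  have e1 : 3 * (k0 * (c * J / N)) = 3 * (k0 * J) * c / N := by ring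
  rw [e1, div_le_iff₀ hNp]
  have e2 : n ^ (τ / 2) = n ^ (-(τ / 2)) * n ^ τ := by
    rw [← Real.rpow_add hn0]
    congr 1
    ring
  calc 3 * (k0 * J) * c ≤ 3 * (1 / 8) * n ^ (τ / 2) := by
        have := hc.trans hK
        gcongr
    _ ≤ n ^ (τ / 2) := by
        have := Real.rpow_pos_of_pos hn0 (τ / 2)
        linarith
    _ = n ^ (-(τ / 2)) * n ^ τ := e2
    _ ≤ n ^ (-(τ / 2)) * N :=
        mul_le_mul_of_nonneg_left hN (Real.rpow_pos_of_pos hn0 _).le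

end Vale.Agent.P146.R1
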