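import Vale.Agent.P146.H706.D4e
import Vale.Agent.P146.H89.DeepHF

/-!
The choice of the layers in the form used by the input `hF` of the end of the contradiction.
-/

open MeasureTheory ProbabilityTheory

namespace Vale.Agent.P146.R1

open Vale.Agent.P157.Lv Vale.Agent.P146.H425 Vale.Agent.P146.H332 Vale.Agent.P146.H325

set_option linter.unusedSectionVars false

/-- The property `Q` of the layers: `J0` layers of the same size, exponents from the choice. -/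
def QL (β : ℝ) (J0 : ℕ) (Sx : ∀ n, Fin n → Pair n → (Fin n → ℤˣ) → ℝ) (a c : ℝ) (n : ℕ)
    (_A : ℝ) (m σ : ℕ → ℝ) (J : ℕ) : Prop :=
  J = J0 ∧ σ = (fun _ => sdl (c / 2) n) ∧
    ∃ h : ℝ, DLay β a (c / 100) (c / 2) n J0 (Sx n) m h

/-- **The choice of the layers.** -/
theorem hQ_of {β : ℝ} (hβ : 0 < β) (J0 : ℕ) {Sx : ∀ n, Fin n → Pair n → (Fin n → ℤˣ) → ℝ}
    (hSx : ∀ n b e σ, |Sx n b e σ| ≤ 1) :
    ∀ c α a : ℝ, 0 < α → 100 * α ≤ c → 8 * c ≤ 1 / 10 → 0 < a → ∃ n₀ : ℕ, ∀ n : ℕ, n₀ ≤ n →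
      ∃ (m σ : ℕ → ℝ) (J : ℕ), Lay n β m σ J ∧ Exs m J ((n : ℝ) ^ (-(1 / 12) : ℝ)) ∧
        QL β J0 Sx a c n ((n : ℝ) ^ α) m σ J := by
  intro c α a hα h100 h8 _
  have hc : 0 < c := by linarith
  obtain ⟨n₀, hout⟩ := d4_out (a := a) (al := c / 100) (e2 := c / 2) hβ (by linarith)
    (by linarith) (by linarith) J0
  obtain ⟨n₁, h1⟩ := Filter.eventually_atTop.1
    ((tendsto_rpow_atTop (show (0 : ℝ) < 1 / 12 by norm_num)).eventually_ge_atTop ((J0 : ℝ) + 1))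
  obtain ⟨N, hN⟩ := exists_nat_ge n₁
  refine ⟨max 1 (max n₀ N), fun n hn => ?_⟩
  have hn1 : 1 ≤ n := (le_max_left _ _).trans hn
  have hn0' : n₀ ≤ n := ((le_max_left _ _).trans (le_max_right _ _)).trans hn
  have hnN : N ≤ n := ((le_max_right _ _).trans (le_max_right _ _)).trans hn
  have hnr : n₁ ≤ (n : ℝ) := hN.trans (by exact_mod_cast hnN)
  have : Nonempty (Fin n) := ⟨⟨0, hn1⟩⟩
  have hnp : (0 : ℝ) < n := by exact_mod_cast hn1
  obtain ⟨m, h, H, hL⟩ := hout n hn0' (Fin n) (Fin n → ℤˣ) (Sx n) (hSx n)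
  refine ⟨m, fun _ => sdl (c / 2) n, J0, hL, ?_, rfl, rfl, h, H⟩
  refine H.exs' (Real.rpow_pos_of_pos hnp _) ?_
  rw [Real.rpow_neg hnp.le, one_div ((J0 : ℝ) + 1)]
  exact inv_anti₀ (by positivity) (h1 n hnr)

end Vale.Agent.P146.R1
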