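import Vale.Agent.P146.H706.D4q
import Vale.Agent.P146.H327.Deep5

/-!
The choice of the layers for the SK systems without one row.
-/

open MeasureTheory ProbabilityTheory

namespace Vale.Agent.P146.R1

open Vale.Agent.P157.Lv Vale.Agent.P146.H425 Vale.Agent.P146.H332 Vale.Agent.P146.H325
open Vale.Agent.P146.H327 (Sb)

set_option linter.unusedSectionVars false

lemma abs_Sb {n : ℕ} (b : Fin n) (e : Pair n) (σ : Fin n → ℤˣ) : |Sb b e σ| ≤ 1 := by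
  unfold Sb
  split_ifs
  · simp
  · exact (H946.abs_SkS e σ).le

/-- The property `Q` of the layers for the systems without one row. -/
def QS (β : ℝ) (J0 : ℕ) (a c : ℝ) (n : ℕ) (A : ℝ) (m σ : ℕ → ℝ) (J : ℕ) : Prop :=
  QL β J0 (fun _ b => Sb b) a c n A m σ J

/-- **The choice of the layers for the SK model.** -/
theorem hQ_sk {β : ℝ} (hβ : 0 < β) (J0 : ℕ) :
    ∀ c α a : ℝ, 0 < α → 100 * α ≤ c → 8 * c ≤ 1 / 10 → 0 < a → ∃ n₀ : ℕ, ∀ n : ℕ, n₀ ≤ n →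
      ∃ (m σ : ℕ → ℝ) (J : ℕ), Lay n β m σ J ∧ Exs m J ((n : ℝ) ^ (-(1 / 12) : ℝ)) ∧
        QS β J0 a c n ((n : ℝ) ^ α) m σ J :=
  hQ_of hβ J0 fun _ b e σ => abs_Sb b e σ

end Vale.Agent.P146.R1
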