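import Vale.Agent.P146.H706.D4e
import Vale.Agent.P146.H425.FoN
import Vale.Agent.P146.H826.LawP

/-!
The second differences of the systems of a family: bounds, and the sum over the pairs of sites of
their means when two rows are averaged.
-/

open MeasureTheory ProbabilityTheory

namespace Vale.Agent.P146.R1

open Vale.Agent.P157.Lv Vale.Agent.P146.H425 Vale.Agent.P146.H332 Vale.Agent.P146.H325
open Vale.Agent.P146.H785 (Ax)
open Vale.Agent.P146.H946 (Dz)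
open Vale.Agent.P146.H712
open Vale.Agent.P146.R1C (En Ew P2 P3 Law2 lf AvP)

set_option linter.unusedSectionVars false

/-- The sum of the second differences. -/
noncomputable def DS (β e2 : ℝ) (n J : ℕ) {Y : Type} [Fintype Y] (S : Pair n → Y → ℝ)
    (m : ℕ → ℝ) (h : ℝ) (z : Pair n → ℝ) : ℝ :=
  ∑ l ∈ Finset.range J, dsec (lz (R1C.kk n β) S) m (fun _ => sdl e2 n) J l h z

lemma sum_Dz_le {n : ℕ} (hn : 0 < n) (β : ℝ) {Y : Type} [Fintype Y] [Nonempty Y]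
    {S : Pair n → Y → ℝ} (hS : ∀ e σ, |S e σ| ≤ 1) (z : Pair n → ℝ) :
    ∑ e, Dz (R1C.kk n β) S e z ^ 2 ≤ β ^ 2 / 2 * n := by
  have hnp : (0 : ℝ) < n := Nat.cast_pos.2 hn
  refine (H785.bd_lz (R1C.kk n β) S hS z).trans ?_
  unfold R1C.kk
  rw [div_pow, Real.sq_sqrt hnp.le]
  have h3 : β ^ 2 / (n : ℝ) * Fintype.card (Pair n) ≤ β ^ 2 / n * (n * n / 2) :=
    mul_le_mul_of_nonneg_left (card_le n) (by positivity)
  have h4 : β ^ 2 / (n : ℝ) * (n * n / 2) = β ^ 2 / 2 * n := by field_simp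
  linarith

section bound

variable {β a al e2 : ℝ} {n J : ℕ} {ι Y : Type} [Fintype ι] [Fintype Y] [Nonempty Y]
  {Sx : ι → Pair n → Y → ℝ} {m : ℕ → ℝ} {h : ℝ}

/-- the second difference is between `0` and `k0` -/
theorem DLay.dsec_bd (H : DLay β a al e2 n J Sx m h) (hn : 0 < n)
    (hS : ∀ b e σ, |Sx b e σ| ≤ 1) (b : ι) {l : ℕ} (hl : l < J) (z : Pair n → ℝ) :
    0 ≤ dsec (lz (R1C.kk n β) (Sx b)) m (fun _ => sdl e2 n) J l h z ∧
      dsec (lz (R1C.kk n β) (Sx b)) m (fun _ => sdl e2 n) J l h z ≤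
        h / 2 * (sdl e2 n ^ 2 * (β ^ 2 / 2 * n)) := by
  have hJ : (0 : ℝ) < (J : ℝ) + 1 := by positivity
  have hJ0 : (0 : ℝ) ≤ J := Nat.cast_nonneg J
  have ha0 : 0 < 1 / ((J : ℝ) + 1) := by positivity
  have ha1 : 1 / ((J : ℝ) + 1) ≤ 1 := by
    rw [div_le_one hJ]
    linarith
  have hk : h / 2 * (sdl e2 n ^ 2 * (β ^ 2 / 2 * n)) ≤ 1 := H.k0u.trans (by
    rw [div_le_one (by positivity)]
    linarith)
  have hc := c11_lz (R1C.kk n β) (Sx b)
  have hcv : Cv (lz (R1C.kk n β) (Sx b)) := cv_lz _ _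
  have hbd := sum_Dz_le hn β (hS b)
  have hbase : ∀ j < J, (0 : ℝ) < ((J : ℝ) - j) / (J + 1) := by
    intro j hj
    have : (j : ℝ) < J := by exact_mod_cast hj
    have : 0 < (J : ℝ) - j := by linarith
    positivity
  have hbase1 : ∀ j < J, 1 / ((J : ℝ) + 1) ≤ ((J : ℝ) - j) / (J + 1) := by
    intro j hj
    have h1 : (j : ℝ) + 1 ≤ J := by exact_mod_cast hj
    gcongr
    linarith
  have hh0 := H.h0
  have h0 := H785.dsec_nonneg (σ := fun _ => sdl e2 n) hc hcv (fun j hj => H.pos j hj) hl hh0.le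
    (by linarith [(H.box l hl).1, hbase l hl]) hbd hk ha0 ha1 (fun j _ hj => H.ge j hj) z
  refine ⟨h0, ?_⟩
  have u1 := (H785.ups_bd (σ := fun _ => sdl e2 n) hc hcv (fun j hj => H.pos j hj) hl hh0.le
    hbd hk ha0 ha1 (fun j _ hj => H.ge j hj) z).2
  -- the lower exponent
  set m' := ups m l (-h) with hm'
  have hge' : ∀ j < J, 1 / ((J : ℝ) + 1) ≤ m' j := by
    intro j hj
    rw [hm']
    unfold ups
    by_cases hjl : j = l
    · subst hjl
      rw [Function.update_self]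
      linarith [(H.box j hj).1, hbase1 j hj]
    · rw [Function.update_of_ne hjl]
      exact H.ge j hj
  have hback : ups m' l h = m := by
    rw [hm']
    unfold ups
    rw [Function.update_self, Function.update_idem]
    have : m l + -h + h = m l := by ring
    rw [this, Function.update_eq_self]
  have u2 := (H785.ups_bd (σ := fun _ => sdl e2 n) hc hcv
    (fun j hj => ha0.trans_le (hge' j hj)) hl hh0.le hbd hk ha0 ha1
    (fun j _ hj => hge' j hj) z).1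
  rw [hback] at u2
  unfold dsec
  linarith

lemma DLay.DS_nonneg (H : DLay β a al e2 n J Sx m h) (hn : 0 < n)
    (hS : ∀ b e σ, |Sx b e σ| ≤ 1) (b : ι) (z : Pair n → ℝ) : 0 ≤ DS β e2 n J (Sx b) m h z :=
  Finset.sum_nonneg fun _ hl => (H.dsec_bd hn hS b (Finset.mem_range.1 hl) z).1

lemma DLay.DS_le (H : DLay β a al e2 n J Sx m h) (hn : 0 < n)
    (hS : ∀ b e σ, |Sx b e σ| ≤ 1) (b : ι) (z : Pair n → ℝ) : DS β e2 n J (Sx b) m h z ≤ 1 := by
  have hJ : (0 : ℝ) < (J : ℝ) + 1 := by positivity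
  have hJ0 : (0 : ℝ) ≤ J := Nat.cast_nonneg J
  calc DS β e2 n J (Sx b) m h z
      ≤ ∑ _l ∈ Finset.range J, h / 2 * (sdl e2 n ^ 2 * (β ^ 2 / 2 * n)) :=
        Finset.sum_le_sum fun _ hl => (H.dsec_bd hn hS b (Finset.mem_range.1 hl) z).2
    _ = J * (h / 2 * (sdl e2 n ^ 2 * (β ^ 2 / 2 * n))) := by
        rw [Finset.sum_const, Finset.card_range, nsmul_eq_mul]
    _ ≤ J * (1 / (8 * ((J : ℝ) + 1))) := mul_le_mul_of_nonneg_left H.k0u hJ0
    _ ≤ 1 := by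
        rw [mul_one_div, div_le_one (by positivity)]
        linarith

lemma DLay.eg_DS (H : DLay β a al e2 n J Sx m h) (b : ι) :
    EG (DS β e2 n J (Sx b) m h) := by
  refine EG.sum _ fun l _ => eg_dsec (c11_lz (R1C.kk n β) (Sx b)) fun j hj => ?_
  rw [abs_of_pos H.h0]
  have h1 := (H.box j hj).1
  have : (j : ℝ) < J := by exact_mod_cast hj
  have : 0 < (J : ℝ) - j := by linarith
  have : 0 < ((J : ℝ) - j) / (J + 1) := by positivity
  linarith

end bound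

/-! ### the sum over the pairs of sites -/

section xsum

variable {β a al e2 : ℝ} {n J : ℕ} {Y : Type} [Fintype Y] [Nonempty Y]
  {Sx : Fin n → Pair n → Y → ℝ} {m : ℕ → ℝ} {h : ℝ} {q : R1C.Par} {T ε : ℝ}

lemma Ax_bd {κ : Type} [Fintype κ] {F : (κ → ℝ) → ℝ} {D : κ → (κ → ℝ) → ℝ} {B L : ℝ}
    (hF : C11 F D B L) {φ : (κ → ℝ) → ℝ} (hφ : EG φ) (h0 : ∀ z, 0 ≤ φ z) (h1 : ∀ z, φ z ≤ 1)
    (x s : ℝ) (z : κ → ℝ) : 0 ≤ Ax x s F φ z ∧ Ax x s F φ z ≤ 1 := by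
  refine ⟨Ax_nonneg hF h0 x s z, ?_⟩
  have := H785.Ax_mono hF.lip hF.B0 hφ (EG.const 1) h1 x s z
  rwa [H785.Ax_const hF.lip hF.B0] at this

/-- the comparison of the laws for a normalised mean -/
lemma En_low {F : (Pair n → ℝ) → ℝ} {D : Pair n → (Pair n → ℝ) → ℝ} {B L : ℝ}
    (hF : C11 F D B L) (hq : q.Ok) (hL : Law2 n ε q F) (b b' : Fin n)
    {f : (K4 (Pair n) → ℝ) → ℝ} (hf : EG f) (h0 : ∀ w, 0 ≤ f w) (h1 : ∀ w, f w ≤ 1) :
    En q F (Av (lf (row b ∪ row b')) f) ≤ 2 * En q F f + ε := by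
  have hE := R1C.Ew1_pos (q := q) hF hq.x0
  have := hL.low b b' f 1 hf h0 h1
  unfold R1C.En
  rw [div_le_iff₀ hE]
  have e : (2 * (Ew q F f / Ew q F fun _ => 1) + ε) * Ew q F (fun _ => 1) =
      2 * Ew q F f + ε * 1 * Ew q F (fun _ => 1) := by
    field_simp
  rw [e]
  exact this

/-- **The sum over the pairs of sites of the second differences, two rows being averaged.** -/
theorem DLay.x_sum (H : DLay β a al e2 n J Sx m h) (hn : 0 < n)
    (hS : ∀ b e σ, |Sx b e σ| ≤ 1) (hq : q.Ok) (ht0 : q.t0 = 1 - T) (ht1 : q.t1 = 1 - T / 2)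
    (hg : FGrid n a q.x q.θ T) (hx : q.x ≤ (n : ℝ) ^ (-(1 / 6) + al : ℝ))
    (hT : 1 / (n : ℝ) ^ 2 ≤ T) (hε : 0 ≤ ε)
    (hL : Law2 n ε q (Fz n β m (fun _ => sdl e2 n) J)) :
    (∑ b, ∑ b' ∈ Finset.univ.erase b, En q (Fz n β m (fun _ => sdl e2 n) J) fun w =>
        AvP q.s1 (row b ∪ row b') (Ax q.x (√(1 - q.s1)) (Fz n β m (fun _ => sdl e2 n) J)
          (DS β e2 n J (Sx b) m h)) (P2 q w)) ≤
        (n : ℝ) ^ 2 * (2 * (n : ℝ) ^ (-(1 / 24) : ℝ) + ε) ∧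
      (∑ b, ∑ b' ∈ Finset.univ.erase b, En q (Fz n β m (fun _ => sdl e2 n) J) fun w =>
        AvP q.s2 (row b ∪ row b') (Ax q.x (√(1 - q.s2)) (Fz n β m (fun _ => sdl e2 n) J)
          (DS β e2 n J (Sx b) m h)) (P3 q w)) ≤
        (n : ℝ) ^ 2 * (2 * (n : ℝ) ^ (-(1 / 24) : ℝ) + ε) := by
  have hnp : (0 : ℝ) < n := Nat.cast_pos.2 hn
  have hV := c11_FD (σ := fun _ => sdl e2 n) (c11_lz (R1C.kk n β) (SkS (n := n))) J H.pos
  obtain ⟨r1, r2⟩ := H.law q T hq ht0 ht1 hg hx hT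
  rw [Fintype.card_fin, div_le_iff₀ hnp] at r1 r2
  have hA : ∀ (s : ℝ) (b : Fin n), EG (Ax q.x s (Fz n β m (fun _ => sdl e2 n) J)
      (DS β e2 n J (Sx b) m h)) := fun s b => eg_Ax hV (H.eg_DS b) _ _
  have hB : ∀ (s : ℝ) (b : Fin n) z, 0 ≤ Ax q.x s (Fz n β m (fun _ => sdl e2 n) J)
      (DS β e2 n J (Sx b) m h) z ∧ Ax q.x s (Fz n β m (fun _ => sdl e2 n) J)
      (DS β e2 n J (Sx b) m h) z ≤ 1 := fun s b z =>
    Ax_bd hV (H.eg_DS b) (H.DS_nonneg hn hS b) (H.DS_le hn hS b) _ _ z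
  have hp : (0 : ℝ) ≤ (n : ℝ) ^ (-(1 / 24) : ℝ) := Real.rpow_nonneg hnp.le _
  -- one position
  have fin : ∀ f : Fin n → (K4 (Pair n) → ℝ) → ℝ, (∀ b, EG (f b)) → (∀ b w, 0 ≤ f b w) →
      (∀ b w, f b w ≤ 1) →
      (∑ b, En q (Fz n β m (fun _ => sdl e2 n) J) (f b)) ≤ (n : ℝ) ^ (-(1 / 24) : ℝ) * n →
      (∑ b, ∑ b' ∈ Finset.univ.erase b, En q (Fz n β m (fun _ => sdl e2 n) J)
        (Av (lf (row b ∪ row b')) (f b))) ≤
        (n : ℝ) ^ 2 * (2 * (n : ℝ) ^ (-(1 / 24) : ℝ) + ε) := by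
    intro f hf h0 h1 hs
    have hE : ∀ b, 0 ≤ En q (Fz n β m (fun _ => sdl e2 n) J) (f b) := fun b =>
      R1C.En_nonneg (h0 b)
    calc (∑ b, ∑ b' ∈ Finset.univ.erase b, En q (Fz n β m (fun _ => sdl e2 n) J)
          (Av (lf (row b ∪ row b')) (f b)))
        ≤ ∑ b, ∑ _b' ∈ Finset.univ.erase b,
            (2 * En q (Fz n β m (fun _ => sdl e2 n) J) (f b) + ε) :=
          Finset.sum_le_sum fun b _ => Finset.sum_le_sum fun b' _ =>
            En_low hV hq hL b b' (hf b) (h0 b) (h1 b)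
      _ ≤ ∑ b, (n : ℝ) * (2 * En q (Fz n β m (fun _ => sdl e2 n) J) (f b) + ε) := by
          refine Finset.sum_le_sum fun b _ => ?_
          rw [Finset.sum_const, nsmul_eq_mul]
          refine mul_le_mul_of_nonneg_right ?_ (by have := hE b; positivity)
          have : (Finset.univ.erase b).card ≤ n := by
            refine (Finset.card_erase_le).trans ?_
            rw [Finset.card_univ, Fintype.card_fin]
          exact_mod_cast this
      _ = (n : ℝ) * (2 * (∑ b, En q (Fz n β m (fun _ => sdl e2 n) J) (f b)) + n * ε) := by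
          rw [← Finset.mul_sum, Finset.sum_add_distrib, ← Finset.mul_sum, Finset.sum_const,
            Finset.card_univ, Fintype.card_fin, nsmul_eq_mul]
      _ ≤ (n : ℝ) * (2 * ((n : ℝ) ^ (-(1 / 24) : ℝ) * n) + n * ε) := by gcongr
      _ = _ := by ring
  constructor
  · have e : ∀ b b' : Fin n, (fun w => AvP q.s1 (row b ∪ row b') (Ax q.x (√(1 - q.s1))
        (Fz n β m (fun _ => sdl e2 n) J) (DS β e2 n J (Sx b) m h)) (P2 q w)) =
        Av (lf (row b ∪ row b')) (fun w => Ax q.x (√(1 - q.s1))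
          (Fz n β m (fun _ => sdl e2 n) J) (DS β e2 n J (Sx b) m h) (P2 q w)) := fun b b' =>
      funext fun w => (R1C.Av_lf_P2 hq (hA _ b) _ w).symm
    simp only [e]
    exact fin _ (fun b => H712.eg_P2 (hA _ b)) (fun b w => (hB _ b _).1) (fun b w => (hB _ b _).2)
      r1
  · have e : ∀ b b' : Fin n, (fun w => AvP q.s2 (row b ∪ row b') (Ax q.x (√(1 - q.s2))
        (Fz n β m (fun _ => sdl e2 n) J) (DS β e2 n J (Sx b) m h)) (P3 q w)) =
        Av (lf (row b ∪ row b')) (fun w => Ax q.x (√(1 - q.s2))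
          (Fz n β m (fun _ => sdl e2 n) J) (DS β e2 n J (Sx b) m h) (P3 q w)) := fun b b' =>
      funext fun w => (R1C.Av_lf_P3 hq (hA _ b) _ w).symm
    simp only [e]
    exact fin _ (fun b => H712.eg_P3 (hA _ b)) (fun b w => (hB _ b _).1) (fun b w => (hB _ b _).2)
      r2

end xsum

end Vale.Agent.P146.R1
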