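import Vale.Agent.P146.Bdl.B24

/-! P146: the self-consistent equation at the edge with error `O(1/(N y²))` and the facts on
`ζ = z - E τ` for `N y³ ≥ C` (instead of `N y⁶ ≥ C`). -/

set_option linter.all false

open MeasureTheory ProbabilityTheory Finset Matrix Filter Topology

namespace Vale.Agent.P146.H706

open Vale.Agent.P157.Lv Vale.Agent.P146.Sk Vale.Agent.P146.Pw2

variable {N : ℕ} {y : ℝ}

/-- the self-consistent equation, explicit -/
theorem self_cons2 (hN : 0 < N) (hy : 0 < y) (hNy : 1 ≤ N * y ^ 2) :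
    |(1 - mA N y) ^ 2 - (y / 2 + mB N y) ^ 2 + y ^ 2 / 4| ≤ 17 / (N * y ^ 2) ∧
    |2 * (1 - mA N y) * (y / 2 + mB N y) - y| ≤ 17 / (N * y ^ 2) := by
  have hN' : (0 : ℝ) < N := by exact_mod_cast hN
  have hN1 : (1 : ℝ) ≤ N := by exact_mod_cast hN
  obtain ⟨vA, vB⟩ := var_tr' hN hy
  set VA := ∫ g, (tA N y g - mA N y) ^ 2 ∂(gI (Ix N)) with hVA
  set VB := ∫ g, (tB N y g - mB N y) ^ 2 ∂(gI (Ix N)) with hVB
  have hVA0 : 0 ≤ VA := integral_nonneg fun g => sq_nonneg _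
  have hVB0 : 0 ≤ VB := integral_nonneg fun g => sq_nonneg _
  have eA := eg_tA (N := N) hy
  have eB := eg_tB (N := N) hy
  have k1 : (8 : ℝ) / (N ^ 2 * y ^ 4) ≤ 8 / (N * y ^ 2) := by
    refine div_le_div_of_nonneg_left (by norm_num) (by positivity) ?_
    calc (N : ℝ) * y ^ 2 = N * y ^ 2 * 1 := by ring
      _ ≤ N * y ^ 2 * (N * y ^ 2) := mul_le_mul_of_nonneg_left hNy (by positivity)
      _ = N ^ 2 * y ^ 4 := by ring
  have k3 : (17 : ℝ) / (N * y ^ 2) = 2 * (8 / (N * y ^ 2)) + 1 / (N * y ^ 2) := by ring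
  constructor
  · -- real part
    have h1 := ibp_A (N := N) hy
    set ρ := ∫ g, ((Ay y (Wm N g) * Ay y (Wm N g)).trace - (By y (Wm N g) * By y (Wm N g)).trace)
        ∂(gI (Ix N)) with hρ
    have hρb : |ρ| ≤ N / y ^ 2 := by
      refine abs_integral_le_integral_abs.trans ?_
      have eAA := ((egm_Ay (N := N) hy).mul (egm_Ay hy)).trace
      have eBB := ((egm_By (N := N) hy).mul (egm_By hy)).trace
      calc _ ≤ ∫ _g : Ix N → ℝ, (N : ℝ) / y ^ 2 ∂(gI (Ix N)) :=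
            integral_mono (eAA.sub eBB).abs.integrable (integrable_const _)
              fun g => abs_tr_sub_le hy g
        _ = _ := by simp
    have h2 : ∫ g, (1 / (N : ℝ)) * (Wm N g * Ay y (Wm N g)).trace ∂(gI (Ix N)) =
        2 * mA N y + y * mB N y - 1 := by
      simp only [tr_WA hN hy]
      rw [integral_sub ((eA.const_mul 2).add (eB.const_mul y)).integrable (integrable_const _),
        integral_add (eA.const_mul 2).integrable (eB.const_mul y).integrable,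
        integral_const_mul, integral_const_mul]
      simp [mA, mB]
    have h3 : ∫ g, ((Ay y (Wm N g)).trace * (Ay y (Wm N g)).trace -
        (By y (Wm N g)).trace * (By y (Wm N g)).trace) ∂(gI (Ix N)) =
        N ^ 2 * (∫ g, tA N y g ^ 2 ∂(gI (Ix N)) - ∫ g, tB N y g ^ 2 ∂(gI (Ix N))) := by
      rw [← integral_sub (eA.pow 2).integrable (eB.pow 2).integrable, ← integral_const_mul]
      congr 1
      funext g
      unfold tA tB
      field_simp
    rw [integral_const_mul, h1, h3, int_tA_sq hy, int_tB_sq hy, ← hVA, ← hVB] at h2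
    have h4 : 1 / (N : ℝ) * (1 / N * (N ^ 2 * (mA N y ^ 2 + VA - (mB N y ^ 2 + VB)) + ρ)) =
        (mA N y ^ 2 + VA - (mB N y ^ 2 + VB)) + ρ / N ^ 2 := by
      field_simp
    rw [h4] at h2
    have h5 : (1 - mA N y) ^ 2 - (y / 2 + mB N y) ^ 2 + y ^ 2 / 4 = VB - VA - ρ / N ^ 2 := by
      linear_combination h2
    rw [h5, k3]
    have h6 : |ρ / N ^ 2| ≤ 1 / (N * y ^ 2) := by
      rw [abs_div, abs_of_pos (by positivity : (0 : ℝ) < (N : ℝ) ^ 2)]
      calc |ρ| / (N : ℝ) ^ 2 ≤ (N / y ^ 2) / N ^ 2 := by gcongr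
        _ = _ := by field_simp
    have h7 := abs_le.1 h6
    rw [abs_le]
    constructor <;> linarith [h7.1, h7.2]
  · have h1 := ibp_B (N := N) hy
    set ρ := ∫ g, (2 * (Ay y (Wm N g) * By y (Wm N g)).trace) ∂(gI (Ix N)) with hρ
    have hρb : |ρ| ≤ N / y ^ 2 := by
      refine abs_integral_le_integral_abs.trans ?_
      have eAB := ((egm_Ay (N := N) hy).mul (egm_By hy)).trace
      calc _ ≤ ∫ _g : Ix N → ℝ, (N : ℝ) / y ^ 2 ∂(gI (Ix N)) :=
            integral_mono (eAB.const_mul 2).abs.integrable (integrable_const _)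
              fun g => abs_tr_AB_le hy g
        _ = _ := by simp
    have h2 : ∫ g, (1 / (N : ℝ)) * (Wm N g * By y (Wm N g)).trace ∂(gI (Ix N)) =
        2 * mB N y - y * mA N y := by
      simp only [tr_WB hN hy]
      rw [integral_sub (eB.const_mul 2).integrable (eA.const_mul y).integrable,
        integral_const_mul, integral_const_mul]
      rfl
    have h3 : ∫ g, ((Ay y (Wm N g)).trace * (By y (Wm N g)).trace) ∂(gI (Ix N)) =
        N ^ 2 * ∫ g, tA N y g * tB N y g ∂(gI (Ix N)) := by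
      rw [← integral_const_mul]
      congr 1
      funext g
      unfold tA tB
      field_simp
    set Cv := ∫ g, (tA N y g - mA N y) * (tB N y g - mB N y) ∂(gI (Ix N)) with hCv
    have hC : |2 * Cv| ≤ VA + VB := by
      rw [hCv, ← integral_const_mul, hVA, hVB, ← integral_add ((eA.sub (EG.const _)).pow 2).integrable
        ((eB.sub (EG.const _)).pow 2).integrable]
      refine abs_integral_le_integral_abs.trans (integral_mono
        (((eA.sub (EG.const _)).mul (eB.sub (EG.const _))).const_mul 2).abs.integrable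
        (((eA.sub (EG.const _)).pow 2).add ((eB.sub (EG.const _)).pow 2)).integrable fun g => ?_)
      simp only
      rw [abs_le]
      constructor <;> nlinarith [sq_nonneg ((tA N y g - mA N y) - (tB N y g - mB N y)),
        sq_nonneg ((tA N y g - mA N y) + (tB N y g - mB N y))]
    rw [integral_const_mul, h1, h3, int_tAB hy, ← hCv] at h2
    have h4 : 1 / (N : ℝ) * (1 / N * (2 * (N ^ 2 * (mA N y * mB N y + Cv)) + ρ)) =
        2 * (mA N y * mB N y + Cv) + ρ / N ^ 2 := by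
      field_simp
    rw [h4] at h2
    have h5 : 2 * (1 - mA N y) * (y / 2 + mB N y) - y = 2 * Cv + ρ / N ^ 2 := by
      linear_combination -h2
    rw [h5, k3]
    have h6 : |ρ / N ^ 2| ≤ 1 / (N * y ^ 2) := by
      rw [abs_div, abs_of_pos (by positivity : (0 : ℝ) < (N : ℝ) ^ 2)]
      calc |ρ| / (N : ℝ) ^ 2 ≤ (N / y ^ 2) / N ^ 2 := by gcongr
        _ = _ := by field_simp
    have h7 := abs_le.1 h6
    have h8 := abs_le.1 hC
    rw [abs_le]
    constructor <;> linarith [h7.1, h7.2, h8.1, h8.2]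

/-- the solution of the quadratic equation -/
lemma quad_sol' {p q t e1 e2 : ℝ} (ht : 0 < t) (ht4 : t ≤ 1 / 16) (hq : 0 < q)
    (h1 : p ^ 2 - q ^ 2 + t ^ 4 / 4 = e1) (h2 : 2 * p * q - t ^ 2 = e2)
    (he1 : |e1| ≤ t ^ 2 / 16) (he2 : |e2| ≤ t ^ 2 / 16) :
    t / 2 ≤ p ∧ p ≤ t ∧ t / 2 ≤ q - t ^ 2 / 2 ∧ q ≤ t := by
  obtain ⟨a1, a2⟩ := abs_le.1 he1
  obtain ⟨b1, b2⟩ := abs_le.1 he2
  have ht2 : t ^ 2 ≤ 1 / 256 := by
    calc t ^ 2 ≤ (1 / 16 : ℝ) ^ 2 := pow_le_pow_left₀ ht.le ht4 2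
      _ = 1 / 256 := by norm_num
  have ht0 : 0 < t ^ 2 := by positivity
  have ht44 : t ^ 4 ≤ t ^ 2 / 256 := by
    have := mul_le_mul_of_nonneg_left ht2 ht0.le
    calc t ^ 4 = t ^ 2 * t ^ 2 := by ring
      _ ≤ t ^ 2 * (1 / 256) := this
      _ = t ^ 2 / 256 := by ring
  have ht40 : 0 < t ^ 4 := by positivity
  have hpq : 0 < 2 * p * q := by linarith only [ht0, b1, h2]
  have hp : 0 < p := by
    by_contra hp
    push Not at hp
    linarith only [mul_nonneg (neg_nonneg.2 hp) hq.le, hpq]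
  have s1 : 2 * p * q ≤ p ^ 2 + q ^ 2 := by linarith only [sq_nonneg (p - q)]
  have s2 : (p ^ 2 + q ^ 2) ^ 2 = (p ^ 2 - q ^ 2) ^ 2 + (2 * p * q) ^ 2 := by ring
  have d1 : |p ^ 2 - q ^ 2| ≤ t ^ 2 / 15 := by
    rw [abs_le]; constructor <;> linarith only [a1, a2, h1, ht44, ht0, ht40]
  have d2 : (p ^ 2 - q ^ 2) ^ 2 ≤ (t ^ 2 / 15) ^ 2 := by
    rw [← sq_abs (p ^ 2 - q ^ 2)]
    exact pow_le_pow_left₀ (abs_nonneg _) d1 2
  have d3 : (2 * p * q) ^ 2 ≤ (17 / 16 * t ^ 2) ^ 2 :=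
    pow_le_pow_left₀ hpq.le (by linarith only [b2, h2]) 2
  have s3 : p ^ 2 + q ^ 2 ≤ 11 / 10 * t ^ 2 := by
    refine sc_le_of_sq ?_ (by positivity)
    rw [s2]
    have h3 : (t ^ 2 / 15) ^ 2 + (17 / 16 * t ^ 2) ^ 2 ≤ (11 / 10 * t ^ 2) ^ 2 := by
      have h4 : 0 ≤ t ^ 2 * t ^ 2 := by positivity
      linarith only [h4]
    linarith only [h3, d3, d2]
  have s4 : 15 / 16 * t ^ 2 ≤ p ^ 2 + q ^ 2 := by linarith only [s1, b1, h2]
  obtain ⟨c1, c2⟩ := abs_le.1 d1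
  refine ⟨?_, ?_, ?_, ?_⟩
  · refine sc_le_of_sq ?_ hp.le
    linarith only [c1, s4, ht0]
  · refine sc_le_of_sq ?_ ht.le
    linarith only [c2, s3, ht0]
  · have h3 : t / 2 + t ^ 2 / 2 ≤ q := by
      refine sc_le_of_sq ?_ hq.le
      have h4 : t ^ 2 * t ≤ t ^ 2 * (1 / 16) := mul_le_mul_of_nonneg_left ht4 ht0.le
      linarith only [h4, c2, s4, ht0, ht44]
    linarith only [h3]
  · refine sc_le_of_sq ?_ ht.le
    linarith only [c1, s3, ht0]

/-- consequences for `ζ = z - E τ = 1 + w + i y / 2` -/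
theorem zeta_facts' : ∃ C : ℝ, 1 ≤ C ∧ ∀ (N : ℕ) (y : ℝ), 0 < N → 0 < y → y ≤ 1 / C →
    C ≤ N * y ^ 3 →
    √y / 2 ≤ 1 - mA N y ∧ 1 - mA N y ≤ √y ∧ √y / 2 ≤ mB N y ∧ y / 2 + mB N y ≤ √y ∧
    mB N y ≤ √y ∧ ∫ g, tB N y g ^ 2 ∂(gI (Ix N)) ≤ 2 * y ∧
    1 + √y / 2 ≤ (zt N y).re ∧ (zt N y).re ≤ 1 + √y ∧ √y / 2 ≤ (zt N y).im ∧
    (zt N y).im ≤ 2 * √y := by
  refine ⟨272, by norm_num, fun N y hN hy hyC hNy => ?_⟩
  have hN' : (0 : ℝ) < N := by exact_mod_cast hN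
  have hN1 : (1 : ℝ) ≤ N := by exact_mod_cast hN
  have hy1 : y ≤ 1 := by linarith only [hyC, hy]
  have h0 : (N : ℝ) * y ^ 3 ≤ N * y ^ 2 :=
    mul_le_mul_of_nonneg_left (pow_le_pow_of_le_one hy.le hy1 (by norm_num)) hN'.le
  obtain ⟨h1, h2⟩ := self_cons2 hN hy (by linarith only [h0, hNy])
  obtain ⟨-, vB⟩ := var_tr' hN hy
  have hmB := mB_nonneg (N := N) hy
  obtain ⟨t, ht⟩ : ∃ t, t = √y := ⟨_, rfl⟩
  have ht0 : 0 < t := by rw [ht]; exact Real.sqrt_pos.2 hy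
  have hty : y = t ^ 2 := by rw [ht, Real.sq_sqrt hy.le]
  have ht4 : t ≤ 1 / 16 := by
    refine sc_le_of_sq ?_ (by norm_num)
    rw [← hty]
    linarith only [hyC, hy]
  have k1 : 17 / (N * y ^ 2) ≤ y / 16 := by
    rw [div_le_div_iff₀ (by positivity) (by norm_num)]
    linarith only [hNy]
  have k2 : (8 : ℝ) / (N ^ 2 * y ^ 4) ≤ y := by
    rw [div_le_iff₀ (by positivity)]
    have h3 : y ^ 6 ≤ y ^ 5 := pow_le_pow_of_le_one hy.le hy1 (by norm_num)
    have h4 : (N : ℝ) ^ 2 * y ^ 6 ≤ N ^ 2 * y ^ 5 := mul_le_mul_of_nonneg_left h3 (by positivity)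
    have h5 : (272 : ℝ) * 272 ≤ (N * y ^ 3) * (N * y ^ 3) :=
      mul_le_mul hNy hNy (by norm_num) (by positivity)
    calc (8 : ℝ) ≤ (N * y ^ 3) * (N * y ^ 3) := by linarith only [h5]
      _ = N ^ 2 * y ^ 6 := by ring
      _ ≤ N ^ 2 * y ^ 5 := h4
      _ = y * (N ^ 2 * y ^ 4) := by ring
  have hq : 0 < y / 2 + mB N y := by linarith only [hmB, hy]
  obtain ⟨r1, r2, r3, r4⟩ := quad_sol' (p := 1 - mA N y) (q := y / 2 + mB N y) (t := t)
    (e1 := (1 - mA N y) ^ 2 - (y / 2 + mB N y) ^ 2 + t ^ 4 / 4)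
    (e2 := 2 * (1 - mA N y) * (y / 2 + mB N y) - t ^ 2) ht0 ht4 hq rfl rfl
    (by
      have e3 : y ^ 2 = t ^ 4 := by rw [hty]; ring
      rw [← e3, ← hty]
      exact h1.trans k1)
    (by
      rw [← hty]
      exact h2.trans k1)
  have e4 : y / 2 + mB N y - t ^ 2 / 2 = mB N y := by rw [hty]; ring
  rw [e4] at r3
  rw [← ht]
  have hyt : y ≤ t := by rw [hty]; linarith only [e4, r4, r3]
  refine ⟨r1, r2, r3, r4, by linarith only [r4, hy], ?_, ?_, ?_, ?_, ?_⟩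
  · rw [int_tB_sq hy]
    have h5 : mB N y ^ 2 ≤ y :=
      calc mB N y ^ 2 ≤ t ^ 2 := pow_le_pow_left₀ hmB (by linarith only [r4, hy]) 2
        _ = y := hty.symm
    linarith only [h5, k2, vB]
  · show 1 + t / 2 ≤ 2 - mA N y
    linarith only [r1]
  · show 2 - mA N y ≤ 1 + t
    linarith only [r2]
  · show t / 2 ≤ y + mB N y
    linarith only [r3, hy]
  · show y + mB N y ≤ 2 * t
    linarith only [hyt, r4, ht0]

end Vale.Agent.P146.H706
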