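import Vale.Agent.P146.H706.Two

/-! P146, R1 (8c): change of the law of the Gaussian rows (log density with small gradient). -/

set_option linter.all false

open MeasureTheory ProbabilityTheory Finset Filter Topology

namespace Vale.Agent.P146.H706

open Vale.Agent.P157.Lv

section conc

variable {ρ : Type} [Fintype ρ] [DecidableEq ρ]

/-- the exponential moments are of exponential growth and the gradient is bounded by `l` -/
structure LG (ψ : (ρ → ℝ) → ℝ) (ψ' : ρ → (ρ → ℝ) → ℝ) (l : ℝ) : Prop where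
  lip : Lip ψ
  pd : ∀ e, PD e ψ (ψ' e)
  eg : ∀ e, EG (ψ' e)
  nn : 0 ≤ l
  le : ∀ z, ∑ e, ψ' e z ^ 2 ≤ l ^ 2

variable {ψ : (ρ → ℝ) → ℝ} {ψ' : ρ → (ρ → ℝ) → ℝ} {l : ℝ}

lemma LG.ee (h : LG ψ ψ' l) (t : ℝ) : EG fun z => Real.exp (t * ψ z) := h.lip.exp_eg t

lemma LG.pos (h : LG ψ ψ' l) (t : ℝ) : 0 < ∫ z, Real.exp (t * ψ z) ∂(gI ρ) :=
  integral_exp_pos (h.ee t).integrable

/-- one step of the Poincaré iteration -/
lemma LG.step (h : LG ψ ψ' l) (t : ℝ) :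
    ∫ z, Real.exp (t * ψ z) ∂(gI ρ) ≤ (∫ z, Real.exp (t / 2 * ψ z) ∂(gI ρ)) ^ 2 +
      t ^ 2 / 4 * ∫ z, (∑ e, ψ' e z ^ 2) * Real.exp (t * ψ z) ∂(gI ρ) := by
  set g : (ρ → ℝ) → ℝ := fun z => Real.exp (t / 2 * ψ z) with hg
  have eg : EG g := h.ee _
  have hd : ∀ e, PD e g (fun z => t / 2 * (ψ' e z * g z)) := by
    intro e
    refine (((h.pd e).const_mul (t / 2)).exp).congr fun y => ?_
    simp only [hg]; ring
  have hg' : ∀ e, EG (fun z => t / 2 * (ψ' e z * g z)) := fun e => ((h.eg e).mul eg).const_mul _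
  have hp := cc_var_le_one eg hd hg'
  have e1 : ∫ z, (g z - ∫ w, g w ∂(gI ρ)) ^ 2 ∂(gI ρ) =
      ∫ z, Real.exp (t * ψ z) ∂(gI ρ) - (∫ z, g z ∂(gI ρ)) ^ 2 := by
    set m := ∫ w, g w ∂(gI ρ) with hm
    have : ∀ z, (g z - m) ^ 2 = Real.exp (t * ψ z) + (m ^ 2 - 2 * m * g z) := by
      intro z
      have : g z * g z = Real.exp (t * ψ z) := by
        simp only [hg]; rw [← Real.exp_add]; congr 1; ring
      nlinarith
    simp only [this]
    have i2 : Integrable (fun z => m ^ 2 - 2 * m * g z) (gI ρ) :=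
      (integrable_const _).sub (eg.integrable.const_mul _)
    rw [integral_add (h.ee t).integrable i2,
      integral_sub (integrable_const _) (eg.integrable.const_mul _), integral_const_mul, ← hm]
    simp
    ring
  have e2 : ∑ e, ∫ z, (t / 2 * (ψ' e z * g z)) ^ 2 ∂(gI ρ) =
      t ^ 2 / 4 * ∫ z, (∑ e, ψ' e z ^ 2) * Real.exp (t * ψ z) ∂(gI ρ) := by
    rw [← integral_finsetSum _ fun e _ => ((hg' e).pow 2).integrable, ← integral_const_mul]
    refine integral_congr_ae (ae_of_all _ fun z => ?_)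
    have : g z * g z = Real.exp (t * ψ z) := by
      simp only [hg]; rw [← Real.exp_add]; congr 1; ring
    show ∑ e, (t / 2 * (ψ' e z * g z)) ^ 2 = t ^ 2 / 4 * ((∑ e, ψ' e z ^ 2) * Real.exp (t * ψ z))
    rw [sum_mul, mul_sum]
    refine sum_congr rfl fun e _ => ?_
    rw [← this]; ring
  rw [e1, e2] at hp
  linarith

lemma LG.eq2 (h : LG ψ ψ' l) : EG fun z => ∑ e, ψ' e z ^ 2 := EG.sum _ fun e _ => (h.eg e).pow 2

/-- one step, logarithmic form -/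
lemma LG.step_log (h : LG ψ ψ' l) {t : ℝ} (ht : t ^ 2 * l ^ 2 ≤ 1) :
    Real.log (∫ z, Real.exp (t * ψ z) ∂(gI ρ)) ≤
      2 * Real.log (∫ z, Real.exp (t / 2 * ψ z) ∂(gI ρ)) + t ^ 2 * l ^ 2 / 3 := by
  have h1 := h.step t
  set G := ∫ z, Real.exp (t * ψ z) ∂(gI ρ) with hG
  set K := ∫ z, Real.exp (t / 2 * ψ z) ∂(gI ρ) with hK
  have hG0 : 0 < G := h.pos t
  have hK0 : 0 < K := h.pos (t / 2)
  have h2 : ∫ z, (∑ e, ψ' e z ^ 2) * Real.exp (t * ψ z) ∂(gI ρ) ≤ l ^ 2 * G := by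
    rw [hG, ← integral_const_mul]
    exact integral_mono (h.eq2.mul (h.ee t)).integrable ((h.ee t).integrable.const_mul _)
      fun z => mul_le_mul_of_nonneg_right (h.le z) (Real.exp_pos _).le
  set u := t ^ 2 * l ^ 2 / 4 with hu
  have hu0 : 0 ≤ u := by positivity
  have hu1 : u ≤ 1 / 4 := by rw [hu]; linarith
  have h3 : G * (1 - u) ≤ K ^ 2 := by
    have : t ^ 2 / 4 * ∫ z, (∑ e, ψ' e z ^ 2) * Real.exp (t * ψ z) ∂(gI ρ) ≤
        t ^ 2 / 4 * (l ^ 2 * G) := mul_le_mul_of_nonneg_left h2 (by positivity)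
    rw [hu]; nlinarith
  have h4 : Real.log G + Real.log (1 - u) ≤ 2 * Real.log K := by
    rw [← Real.log_mul hG0.ne' (by linarith), show (2 : ℝ) * Real.log K = Real.log (K ^ 2) by
      rw [Real.log_pow]; norm_num]
    exact Real.log_le_log (mul_pos hG0 (by linarith)) h3
  have h5 : -(4 / 3 * u) ≤ Real.log (1 - u) := by
    have h6 : 1 - (1 - u)⁻¹ ≤ Real.log (1 - u) := Real.one_sub_inv_le_log_of_pos (by linarith)
    have h7 : (1 - u)⁻¹ ≤ 1 + 4 / 3 * u := by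
      rw [inv_le_iff_one_le_mul₀ (by linarith)]
      nlinarith
    linarith
  have h8 : 4 / 3 * u = t ^ 2 * l ^ 2 / 3 := by rw [hu]; ring
  linarith

lemma LG.iter (h : LG ψ ψ' l) {t : ℝ} (ht : t ^ 2 * l ^ 2 ≤ 1) (k : ℕ) :
    Real.log (∫ z, Real.exp (t * ψ z) ∂(gI ρ)) ≤
      2 ^ k * Real.log (∫ z, Real.exp (t / 2 ^ k * ψ z) ∂(gI ρ)) +
        (2 / 3 - 2 / 3 / 2 ^ k) * (t ^ 2 * l ^ 2) := by
  induction k with
  | zero => simp
  | succ k ih =>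
    have h1 : (t / 2 ^ k) ^ 2 * l ^ 2 ≤ 1 := by
      rw [div_pow, div_mul_eq_mul_div, div_le_one (by positivity)]
      have : (1 : ℝ) ≤ (2 ^ k) ^ 2 := one_le_pow₀ (one_le_pow₀ (by norm_num))
      linarith
    have h2 := h.step_log h1
    have h3 : t / 2 ^ k / 2 = t / 2 ^ (k + 1) := by rw [pow_succ]; field_simp
    rw [h3] at h2
    have h4 : (0 : ℝ) < 2 ^ k := by positivity
    have h5 := mul_le_mul_of_nonneg_left h2 h4.le
    have h6 : (2 : ℝ) ^ k * ((t / 2 ^ k) ^ 2 * l ^ 2 / 3) = 1 / 3 / 2 ^ k * (t ^ 2 * l ^ 2) := by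
      field_simp
    have h7 : (2 / 3 : ℝ) / 2 ^ (k + 1) = 1 / 3 / 2 ^ k := by rw [pow_succ]; field_simp
    rw [h7]
    have h8 : (2 : ℝ) / 3 / 2 ^ k = 2 * (1 / 3 / 2 ^ k) := by ring
    rw [h8] at ih
    have h9 : (2 : ℝ) ^ (k + 1) * Real.log (∫ z, Real.exp (t / 2 ^ (k + 1) * ψ z) ∂(gI ρ)) =
        2 ^ k * (2 * Real.log (∫ z, Real.exp (t / 2 ^ (k + 1) * ψ z) ∂(gI ρ))) := by
      rw [pow_succ]; ring
    rw [h9]
    rw [mul_add, h6] at h5
    nlinarith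

lemma exp_quad (v : ℝ) : Real.exp v ≤ 1 + v + v ^ 2 * Real.exp |v| := by
  have h1 : Real.exp v - 1 ≤ v * Real.exp v := by
    have h2 := Real.add_one_le_exp (-v)
    have h3 : Real.exp v * (-v + 1) ≤ Real.exp v * Real.exp (-v) :=
      mul_le_mul_of_nonneg_left h2 (Real.exp_pos v).le
    rw [← Real.exp_add, add_neg_cancel, Real.exp_zero] at h3
    linarith
  have h2 : |Real.exp v - 1| ≤ |v| * Real.exp |v| := by
    rcases le_total 0 v with h | h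
    · rw [abs_of_nonneg h, abs_of_nonneg (by linarith [Real.add_one_le_exp v])]
      exact h1
    · have h3 : Real.exp v ≤ 1 := Real.exp_le_one_iff.2 h
      rw [abs_of_nonpos (by linarith), abs_of_nonpos h]
      have h4 := Real.add_one_le_exp v
      have h5 : 1 ≤ Real.exp (-v) := Real.one_le_exp (by linarith)
      nlinarith [mul_le_mul_of_nonneg_left h5 (show 0 ≤ -v by linarith)]
  have h3 : Real.exp v - 1 - v ≤ v * (Real.exp v - 1) := by linarith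
  have h4 : v * (Real.exp v - 1) ≤ |v| * (|v| * Real.exp |v|) := by
    refine (le_abs_self _).trans ?_
    rw [abs_mul]
    exact mul_le_mul_of_nonneg_left h2 (abs_nonneg v)
  have h5 : |v| * (|v| * Real.exp |v|) = v ^ 2 * Real.exp |v| := by
    rw [← mul_assoc, abs_mul_abs_self, sq]
  linarith

/-- **Gaussian concentration**, exponential moments -/
theorem LG.conc (h : LG ψ ψ' l) {t : ℝ} (ht : t ^ 2 * l ^ 2 ≤ 1) :
    ∫ z, Real.exp (t * ψ z) ∂(gI ρ) ≤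
      Real.exp (t * ∫ z, ψ z ∂(gI ρ) + t ^ 2 * l ^ 2) := by
  set m := ∫ z, ψ z ∂(gI ρ) with hm
  have hψ : EG ψ := h.lip.eg
  have hKe : EG fun z => ψ z ^ 2 * (Real.exp (t * ψ z) + Real.exp (-t * ψ z)) :=
    (hψ.pow 2).mul ((h.ee t).add (h.ee (-t)))
  set K := ∫ z, ψ z ^ 2 * (Real.exp (t * ψ z) + Real.exp (-t * ψ z)) ∂(gI ρ) with hK
  have hs : ∀ k : ℕ, Real.log (∫ z, Real.exp (t / 2 ^ k * ψ z) ∂(gI ρ)) ≤
      t / 2 ^ k * m + (t / 2 ^ k) ^ 2 * K := by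
    intro k
    have hk : |t / 2 ^ k| ≤ |t| := by
      rw [abs_div, abs_of_pos (by positivity : (0 : ℝ) < 2 ^ k)]
      exact div_le_self (abs_nonneg _) (one_le_pow₀ (by norm_num))
    have hp : ∀ z, Real.exp (t / 2 ^ k * ψ z) ≤ 1 + (t / 2 ^ k * ψ z + (t / 2 ^ k) ^ 2 *
        (ψ z ^ 2 * (Real.exp (t * ψ z) + Real.exp (-t * ψ z)))) := by
      intro z
      have h1 := exp_quad (t / 2 ^ k * ψ z)
      have h2 : Real.exp |t / 2 ^ k * ψ z| ≤ Real.exp (t * ψ z) + Real.exp (-t * ψ z) := by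
        have h3 : |t / 2 ^ k * ψ z| ≤ |t * ψ z| := by
          rw [abs_mul, abs_mul]; exact mul_le_mul_of_nonneg_right hk (abs_nonneg _)
        refine (Real.exp_le_exp.2 h3).trans ?_
        rcases abs_cases (t * ψ z) with ⟨h4, -⟩ | ⟨h4, -⟩
        · rw [h4]; linarith [Real.exp_pos (-t * ψ z)]
        · rw [h4, ← neg_mul]; linarith [Real.exp_pos (t * ψ z)]
      have h5 : (t / 2 ^ k * ψ z) ^ 2 * Real.exp |t / 2 ^ k * ψ z| ≤ (t / 2 ^ k * ψ z) ^ 2 *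
          (Real.exp (t * ψ z) + Real.exp (-t * ψ z)) := mul_le_mul_of_nonneg_left h2 (sq_nonneg _)
      calc _ ≤ _ := h1
        _ ≤ _ := by
          have : (t / 2 ^ k * ψ z) ^ 2 * (Real.exp (t * ψ z) + Real.exp (-t * ψ z)) =
            (t / 2 ^ k) ^ 2 * (ψ z ^ 2 * (Real.exp (t * ψ z) + Real.exp (-t * ψ z))) := by ring
          linarith
    have hi : Integrable (fun z => t / 2 ^ k * ψ z + (t / 2 ^ k) ^ 2 *
        (ψ z ^ 2 * (Real.exp (t * ψ z) + Real.exp (-t * ψ z)))) (gI ρ) :=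
      (hψ.integrable.const_mul _).add (hKe.integrable.const_mul _)
    have h6 : ∫ z, Real.exp (t / 2 ^ k * ψ z) ∂(gI ρ) ≤ 1 + (t / 2 ^ k * m + (t / 2 ^ k) ^ 2 * K) := by
      refine (integral_mono (h.ee _).integrable ((integrable_const 1).add hi) hp).trans ?_
      simp only [Pi.add_apply]
      rw [integral_add (integrable_const _) hi, integral_add (hψ.integrable.const_mul _)
        (hKe.integrable.const_mul _), integral_const_mul, integral_const_mul, ← hm, ← hK]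
      simp
    have h7 := Real.log_le_sub_one_of_pos (h.pos (t / 2 ^ k))
    linarith
  have hl : ∀ k : ℕ, Real.log (∫ z, Real.exp (t * ψ z) ∂(gI ρ)) ≤
      t * m + t ^ 2 * l ^ 2 + t ^ 2 * K * (1 / 2) ^ k := by
    intro k
    have h1 := h.iter ht k
    have h2 := mul_le_mul_of_nonneg_left (hs k) (by positivity : (0 : ℝ) ≤ 2 ^ k)
    have h3 : (2 : ℝ) ^ k * (t / 2 ^ k * m + (t / 2 ^ k) ^ 2 * K) =
        t * m + t ^ 2 * K * (1 / 2) ^ k := by
      rw [one_div, inv_pow]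
      field_simp
    rw [h3] at h2
    have h4 : (2 / 3 - 2 / 3 / 2 ^ k : ℝ) ≤ 1 := by
      have : (0 : ℝ) ≤ 2 / 3 / 2 ^ k := by positivity
      linarith
    have h5 := mul_le_mul_of_nonneg_right h4 (by positivity : 0 ≤ t ^ 2 * l ^ 2)
    linarith
  have hlim : Tendsto (fun k : ℕ => t * m + t ^ 2 * l ^ 2 + t ^ 2 * K * (1 / 2 : ℝ) ^ k) atTop
      (𝓝 (t * m + t ^ 2 * l ^ 2 + t ^ 2 * K * 0)) :=
    ((tendsto_pow_atTop_nhds_zero_of_lt_one (by norm_num) (by norm_num)).const_mul _).const_add _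
  have h1 := ge_of_tendsto' hlim hl
  rw [mul_zero, add_zero] at h1
  exact (Real.log_le_iff_le_exp (h.pos t)).1 h1

/-! ### the density -/

/-- the normaliser -/
noncomputable def Zr (ψ : (ρ → ℝ) → ℝ) : ℝ := ∫ z, Real.exp (ψ z) ∂(gI ρ)

/-- the density -/
noncomputable def kap (ψ : (ρ → ℝ) → ℝ) (z : ρ → ℝ) : ℝ := Real.exp (ψ z) / Zr ψ

lemma LG.ee1 (h : LG ψ ψ' l) : EG fun z => Real.exp (ψ z) := by
  have := h.ee 1
  simpa using this

lemma LG.Zr_pos (h : LG ψ ψ' l) : 0 < Zr ψ := integral_exp_pos h.ee1.integrable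

lemma LG.Zr_ge (h : LG ψ ψ' l) : Real.exp (∫ z, ψ z ∂(gI ρ)) ≤ Zr ψ := by
  set m := ∫ z, ψ z ∂(gI ρ) with hm
  have hψ : EG ψ := h.lip.eg
  have h1 : ∀ z, Real.exp m * (1 + (ψ z - m)) ≤ Real.exp (ψ z) := by
    intro z
    have h2 := Real.add_one_le_exp (ψ z - m)
    have h3 : Real.exp m * Real.exp (ψ z - m) = Real.exp (ψ z) := by
      rw [← Real.exp_add]; congr 1; ring
    rw [← h3]
    exact mul_le_mul_of_nonneg_left (by linarith) (Real.exp_pos _).le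
  have i1 : Integrable (fun z => ψ z - m) (gI ρ) := hψ.integrable.sub (integrable_const _)
  have h4 : ∫ z, Real.exp m * (1 + (ψ z - m)) ∂(gI ρ) ≤ Zr ψ :=
    integral_mono (((integrable_const 1).add i1).const_mul _) h.ee1.integrable h1
  rw [integral_const_mul, integral_add (integrable_const _) i1, integral_sub hψ.integrable
    (integrable_const _)] at h4
  simpa [← hm] using h4

lemma LG.Zr_le (h : LG ψ ψ' l) (hl : l ^ 2 ≤ 1) :
    Zr ψ ≤ Real.exp ((∫ z, ψ z ∂(gI ρ)) + l ^ 2) := by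
  have h1 := h.conc (t := 1) (by simpa using hl)
  simpa [Zr] using h1

lemma LG.kap_pos (h : LG ψ ψ' l) (z : ρ → ℝ) : 0 < kap ψ z := div_pos (Real.exp_pos _) h.Zr_pos

lemma LG.eg_kap (h : LG ψ ψ' l) : EG (kap ψ) := by
  have : kap ψ = fun z => (Zr ψ)⁻¹ * Real.exp (ψ z) := by
    funext z; rw [kap]; ring
  rw [this]; exact h.ee1.const_mul _

lemma LG.int_kap (h : LG ψ ψ' l) : ∫ z, kap ψ z ∂(gI ρ) = 1 := by
  unfold kap
  rw [integral_div]
  exact div_self h.Zr_pos.ne'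

/-- powers of the density -/
theorem LG.kap_pow (h : LG ψ ψ' l) (p : ℕ) (hp : (p : ℝ) ^ 2 * l ^ 2 ≤ 1) :
    ∫ z, kap ψ z ^ p ∂(gI ρ) ≤ Real.exp ((p : ℝ) ^ 2 * l ^ 2) := by
  set m := ∫ z, ψ z ∂(gI ρ) with hm
  have h1 := h.conc hp
  have h2 : ∀ z, kap ψ z ^ p = (Zr ψ ^ p)⁻¹ * Real.exp ((p : ℝ) * ψ z) := by
    intro z
    rw [kap, div_pow, ← Real.exp_nat_mul]; ring
  simp only [h2]
  rw [integral_const_mul, inv_mul_le_iff₀ (pow_pos h.Zr_pos p)]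
  refine h1.trans ?_
  rw [Real.exp_add]
  refine mul_le_mul_of_nonneg_right ?_ (Real.exp_pos _).le
  rw [Real.exp_nat_mul]
  exact pow_le_pow_left₀ (Real.exp_pos _).le h.Zr_ge p

/-- negative powers of the density -/
theorem LG.kap_inv (h : LG ψ ψ' l) (p : ℕ) (hp : (p : ℝ) ^ 2 * l ^ 2 ≤ 1) (hl : l ^ 2 ≤ 1) :
    Integrable (fun z => (kap ψ z)⁻¹ ^ p) (gI ρ) ∧
    ∫ z, (kap ψ z)⁻¹ ^ p ∂(gI ρ) ≤ Real.exp ((p + (p : ℝ) ^ 2) * l ^ 2) := by
  set m := ∫ z, ψ z ∂(gI ρ) with hm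
  have h1 := h.conc (t := -(p : ℝ)) (by simpa using hp)
  have h2 : ∀ z, (kap ψ z)⁻¹ ^ p = Zr ψ ^ p * Real.exp (-(p : ℝ) * ψ z) := by
    intro z
    rw [kap, inv_div, div_pow, ← Real.exp_nat_mul, neg_mul, Real.exp_neg]; ring
  simp only [h2]
  refine ⟨(h.ee _).integrable.const_mul _, ?_⟩
  rw [integral_const_mul]
  calc Zr ψ ^ p * ∫ z, Real.exp (-(p : ℝ) * ψ z) ∂(gI ρ)
      ≤ Real.exp (m + l ^ 2) ^ p * Real.exp (-(p : ℝ) * m + (-(p : ℝ)) ^ 2 * l ^ 2) :=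
        mul_le_mul (pow_le_pow_left₀ h.Zr_pos.le (h.Zr_le hl) p) h1 (h.pos _).le (by positivity)
    _ = _ := by
        rw [← Real.exp_nat_mul, ← Real.exp_add]; congr 1; ring

/-- mean square of `κ - 1` -/
theorem LG.chi (h : LG ψ ψ' l) (hl : 16 * l ^ 2 ≤ 1) :
    ∫ z, (kap ψ z - 1) ^ 2 ∂(gI ρ) ≤ 2 * √(∫ z, (∑ e, ψ' e z ^ 2) ^ 2 ∂(gI ρ)) := by
  set m := ∫ z, ψ z ∂(gI ρ) with hm
  have hZ := h.Zr_pos
  have hd : ∀ e, PD e (kap ψ) (fun z => ψ' e z * kap ψ z) := by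
    intro e
    have h1 := (h.pd e).exp.const_mul (Zr ψ)⁻¹
    have h2 : kap ψ = fun z => (Zr ψ)⁻¹ * Real.exp (ψ z) := by funext z; rw [kap]; ring
    rw [h2]
    refine h1.congr fun y => ?_
    ring
  have hg' : ∀ e, EG (fun z => ψ' e z * kap ψ z) := fun e => (h.eg e).mul h.eg_kap
  have hp := cc_var_le_one h.eg_kap hd hg'
  rw [h.int_kap] at hp
  refine hp.trans ?_
  rw [← integral_finsetSum _ fun e _ => ((hg' e).pow 2).integrable]
  have e1 : ∀ z, ∑ e, (ψ' e z * kap ψ z) ^ 2 = (∑ e, ψ' e z ^ 2) * kap ψ z ^ 2 := by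
    intro z; rw [sum_mul]; exact sum_congr rfl fun e _ => by ring
  simp only [e1]
  obtain ⟨-, h3⟩ := int_mul_le (P := gI ρ) h.eq2.meas (h.eg_kap.pow 2).meas
    (h.eq2.pow 2).integrable ((h.eg_kap.pow 2).pow 2).integrable
  refine ((le_abs_self _).trans h3).trans ?_
  rw [mul_comm]
  refine mul_le_mul_of_nonneg_right ?_ (Real.sqrt_nonneg _)
  have h4 : ∫ z, (kap ψ z ^ 2) ^ 2 ∂(gI ρ) ≤ Real.exp 1 := by
    have h5 := h.kap_pow 4 (by norm_num; linarith)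
    have h6 : ∀ z, (kap ψ z ^ 2) ^ 2 = kap ψ z ^ 4 := fun z => by ring
    simp only [h6]
    refine h5.trans (Real.exp_le_exp.2 ?_)
    norm_num; linarith
  rw [Real.sqrt_le_left (by norm_num)]
  refine h4.trans ?_
  have := Real.exp_one_lt_d9
  linarith

/-- **law change**, L2 form -/
theorem LG.lc2 (h : LG ψ ψ' l) (hl : 16 * l ^ 2 ≤ 1) {f : (ρ → ℝ) → ℝ} (hf : EG f) :
    |∫ z, kap ψ z * f z ∂(gI ρ) - ∫ z, f z ∂(gI ρ)| ≤
      √(2 * √(∫ z, (∑ e, ψ' e z ^ 2) ^ 2 ∂(gI ρ))) * √(∫ z, f z ^ 2 ∂(gI ρ)) := by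
  have e1 : ∫ z, kap ψ z * f z ∂(gI ρ) - ∫ z, f z ∂(gI ρ) =
      ∫ z, (kap ψ z - 1) * f z ∂(gI ρ) := by
    rw [← integral_sub (h.eg_kap.mul hf).integrable hf.integrable]
    refine integral_congr_ae (ae_of_all _ fun z => ?_)
    show kap ψ z * f z - f z = (kap ψ z - 1) * f z
    ring
  rw [e1]
  have hk : EG fun z => kap ψ z - 1 := h.eg_kap.sub (EG.const 1)
  obtain ⟨-, h3⟩ := int_mul_le (P := gI ρ) hk.meas hf.meas (hk.pow 2).integrable
    (hf.pow 2).integrable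
  exact h3.trans (mul_le_mul_of_nonneg_right (Real.sqrt_le_sqrt (h.chi hl)) (Real.sqrt_nonneg _))

/-- **law change**, upper bound with an exponentially small error -/
theorem LG.lc_up (h : LG ψ ψ' l) (p : ℕ) (hp : ((p : ℝ) + 1) ^ 2 * l ^ 2 ≤ 1)
    {f : (ρ → ℝ) → ℝ} (hf : EG f) {K : ℝ} (h0 : ∀ z, 0 ≤ f z) (hK : ∀ z, f z ≤ K) :
    ∫ z, kap ψ z * f z ∂(gI ρ) ≤ 2 * ∫ z, f z ∂(gI ρ) + 3 * K / 2 ^ p := by
  have hK0 : 0 ≤ K := (h0 0).trans (hK 0)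
  have h1 : ∀ z, kap ψ z * f z ≤ 2 * f z + K / 2 ^ p * kap ψ z ^ (p + 1) := by
    intro z
    have hk := h.kap_pos z
    rcases le_total (kap ψ z) 2 with h2 | h2
    · have := mul_le_mul_of_nonneg_right h2 (h0 z)
      have : 0 ≤ K / 2 ^ p * kap ψ z ^ (p + 1) := by positivity
      linarith
    · have h3 : (1 : ℝ) ≤ (kap ψ z / 2) ^ p := one_le_pow₀ (by linarith)
      have h4 : kap ψ z * f z ≤ kap ψ z * K := mul_le_mul_of_nonneg_left (hK z) hk.le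
      have h5 : kap ψ z * K ≤ kap ψ z * K * (kap ψ z / 2) ^ p :=
        le_mul_of_one_le_right (by positivity) h3
      have h6 : kap ψ z * K * (kap ψ z / 2) ^ p = K / 2 ^ p * kap ψ z ^ (p + 1) := by
        rw [div_pow, pow_succ]; ring
      have := h0 z
      linarith
  have hpow : EG fun z => kap ψ z ^ (p + 1) := h.eg_kap.pow _
  have i2 : Integrable (fun z => K / 2 ^ p * kap ψ z ^ (p + 1)) (gI ρ) :=
    hpow.integrable.const_mul _
  refine (integral_mono (h.eg_kap.mul hf).integrable ((hf.integrable.const_mul 2).add i2) h1).trans ?_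
  simp only [Pi.add_apply]
  rw [integral_add (hf.integrable.const_mul 2) i2, integral_const_mul, integral_const_mul]
  have h7 := h.kap_pow (p + 1) (by push_cast; exact hp)
  have h8 : Real.exp (((p + 1 : ℕ) : ℝ) ^ 2 * l ^ 2) ≤ 3 := by
    refine (Real.exp_le_exp.2 (show ((p + 1 : ℕ) : ℝ) ^ 2 * l ^ 2 ≤ 1 by push_cast; exact hp)).trans ?_
    have := Real.exp_one_lt_d9
    linarith
  have h9 : K / 2 ^ p * ∫ z, kap ψ z ^ (p + 1) ∂(gI ρ) ≤ K / 2 ^ p * 3 :=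
    mul_le_mul_of_nonneg_left (h7.trans h8) (by positivity)
  have h10 : K / 2 ^ p * 3 = 3 * K / 2 ^ p := by ring
  linarith

/-- **law change**, lower bound with an exponentially small error -/
theorem LG.lc_low (h : LG ψ ψ' l) (p : ℕ) (hp : ((p : ℝ) + 1) ^ 2 * l ^ 2 ≤ 1)
    {f : (ρ → ℝ) → ℝ} (hf : EG f) {K : ℝ} (h0 : ∀ z, 0 ≤ f z) (hK : ∀ z, f z ≤ K) :
    ∫ z, f z ∂(gI ρ) ≤ 2 * ∫ z, kap ψ z * f z ∂(gI ρ) + 3 * K / 2 ^ p := by
  have hK0 : 0 ≤ K := (h0 0).trans (hK 0)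
  have hl1 : l ^ 2 ≤ 1 := by
    have h1 : (1 : ℝ) ≤ ((p : ℝ) + 1) ^ 2 := by nlinarith [(Nat.cast_nonneg p : (0 : ℝ) ≤ p)]
    have h2 := mul_le_mul_of_nonneg_right h1 (sq_nonneg l)
    linarith
  have hp' : (p : ℝ) ^ 2 * l ^ 2 ≤ 1 := by
    nlinarith [sq_nonneg l, (Nat.cast_nonneg p : (0 : ℝ) ≤ p),
      mul_nonneg (Nat.cast_nonneg p : (0 : ℝ) ≤ p) (sq_nonneg l)]
  obtain ⟨i1, h7⟩ := h.kap_inv p hp' hl1
  have h1 : ∀ z, f z ≤ 2 * (kap ψ z * f z) + K / 2 ^ p * (kap ψ z)⁻¹ ^ p := by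
    intro z
    have hk := h.kap_pos z
    rcases le_total (1 / 2) (kap ψ z) with h2 | h2
    · have := mul_le_mul_of_nonneg_right h2 (h0 z)
      have : 0 ≤ K / 2 ^ p * (kap ψ z)⁻¹ ^ p := by positivity
      linarith
    · have h2' : 2 ≤ (kap ψ z)⁻¹ := by
        rw [le_inv_comm₀ (by norm_num) hk]; simpa using h2
      have h3 : (1 : ℝ) ≤ ((kap ψ z)⁻¹ / 2) ^ p := one_le_pow₀ (by linarith)
      have h5 : K ≤ K * ((kap ψ z)⁻¹ / 2) ^ p := le_mul_of_one_le_right hK0 h3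
      have h6 : K * ((kap ψ z)⁻¹ / 2) ^ p = K / 2 ^ p * (kap ψ z)⁻¹ ^ p := by
        rw [div_pow]; ring
      have := mul_nonneg hk.le (h0 z)
      linarith [hK z]
  have i2 : Integrable (fun z => K / 2 ^ p * (kap ψ z)⁻¹ ^ p) (gI ρ) := i1.const_mul _
  have i3 : Integrable (fun z => 2 * (kap ψ z * f z)) (gI ρ) :=
    (h.eg_kap.mul hf).integrable.const_mul _
  refine (integral_mono hf.integrable (i3.add i2) h1).trans ?_
  simp only [Pi.add_apply]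
  rw [integral_add i3 i2, integral_const_mul, integral_const_mul]
  have h8 : Real.exp ((p + (p : ℝ) ^ 2) * l ^ 2) ≤ 3 := by
    have h9 : (p + (p : ℝ) ^ 2) * l ^ 2 ≤ 1 := by
      nlinarith [sq_nonneg l, mul_nonneg (Nat.cast_nonneg p : (0 : ℝ) ≤ p) (sq_nonneg l)]
    refine (Real.exp_le_exp.2 h9).trans ?_
    have := Real.exp_one_lt_d9
    linarith
  have h9 : K / 2 ^ p * ∫ z, (kap ψ z)⁻¹ ^ p ∂(gI ρ) ≤ K / 2 ^ p * 3 :=
    mul_le_mul_of_nonneg_left (h7.trans h8) (by positivity)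
  have h10 : K / 2 ^ p * 3 = 3 * K / 2 ^ p := by ring
  linarith

end conc

end Vale.Agent.P146.H706
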