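import Vale.Agent.P146.H706.Law
import Vale.Agent.P146.H712.RowP

/-! P146, R1 (8c): change of the law of the Gaussian rows, fibered version: density `exp Ψ` on
`gI ι`, the rows are the coordinates of `R`. -/

set_option linter.all false

open MeasureTheory ProbabilityTheory Finset Filter Topology

namespace Vale.Agent.P146.H706

open Vale.Agent.P157.Lv Vale.Agent.P146.H712

section fib

variable {ι : Type} [Fintype ι] [DecidableEq ι]

lemma norm_sw_sub_le (R : Finset ι) (z w w' : ι → ℝ) : ‖sw R z w - sw R z w'‖ ≤ ‖w - w'‖ := by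
  rw [pi_norm_le_iff_of_nonneg (norm_nonneg _)]
  intro e
  simp only [Pi.sub_apply, sw]
  by_cases h : e ∈ R
  · rw [if_pos h, if_pos h]; exact norm_le_pi_norm (w - w') e
  · rw [if_neg h, if_neg h, sub_self, norm_zero]; exact norm_nonneg _

lemma lip_sw {F : (ι → ℝ) → ℝ} (h : Lip F) (R : Finset ι) (z : ι → ℝ) :
    Lip fun w => F (sw R z w) := by
  obtain ⟨L, h0, h1⟩ := h
  exact ⟨L, h0, fun y y' => (h1 _ _).trans (mul_le_mul_of_nonneg_left (norm_sw_sub_le R z y y') h0)⟩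

lemma norm_sw_le (R : Finset ι) (z w : ι → ℝ) : ‖sw R z w‖ ≤ ‖z‖ + ‖w‖ := by
  rw [← mix_lvR]; exact norm_mix_le z w

lemma eg_sw {F : (ι → ℝ) → ℝ} (h : EG F) (R : Finset ι) (z : ι → ℝ) :
    EG fun w => F (sw R z w) := by
  have hm : Measurable fun w => sw R z w := by
    have := measurable_mix_right (lvR R) 0 z
    simpa only [mix_lvR] using this
  obtain ⟨C, a, hC, ha, hb⟩ := h.bdd
  refine ⟨h.meas.comp hm, C * Real.exp (a * ‖z‖), a, by positivity, ha, fun w => ?_⟩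
  refine (hb _).trans ?_
  rw [mul_assoc, ← Real.exp_add]
  refine mul_le_mul_of_nonneg_left (Real.exp_le_exp.2 ?_) hC
  have := mul_le_mul_of_nonneg_left (norm_sw_le R z w) ha
  linarith

lemma sw_update {R : Finset ι} {e : ι} (he : e ∈ R) (z w : ι → ℝ) (t : ℝ) :
    sw R z (Function.update w e t) = Function.update (sw R z w) e t := by
  funext i
  unfold H712.sw
  by_cases h : i = e
  · subst h; simp [he]
  · simp [Function.update_of_ne h]

lemma sw_update' {R : Finset ι} {e : ι} (he : e ∉ R) (z w : ι → ℝ) (t : ℝ) :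
    sw R z (Function.update w e t) = sw R z w := by
  funext i
  unfold H712.sw
  by_cases h : i = e
  · subst h; simp [he]
  · simp [Function.update_of_ne h]

lemma pd_sw {R : Finset ι} {e : ι} {F F' : (ι → ℝ) → ℝ} (hd : PD e F F') (he : e ∈ R)
    (z : ι → ℝ) : PD e (fun w => F (sw R z w)) fun w => F' (sw R z w) := by
  intro y t
  have := hd (H712.sw R z y) t
  simpa only [sw_update he] using this

lemma pd_sw' {R : Finset ι} {e : ι} {F : (ι → ℝ) → ℝ} (he : e ∉ R)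
    (z : ι → ℝ) : PD e (fun w => F (sw R z w)) fun _ => 0 := by
  intro y t
  simp only [sw_update' he]
  exact hasDerivAt_const t _

/-- A log density, with the gradient in the rows bounded by `l`. -/
structure LF (R : Finset ι) (Ψ : (ι → ℝ) → ℝ) (Ψ' : ι → (ι → ℝ) → ℝ) (l : ℝ) : Prop where
  lip : Lip Ψ
  pd : ∀ e ∈ R, PD e Ψ (Ψ' e)
  eg : ∀ e ∈ R, EG (Ψ' e)
  nn : 0 ≤ l
  le : ∀ z, ∑ e ∈ R, Ψ' e z ^ 2 ≤ l ^ 2

variable {R : Finset ι} {Ψ : (ι → ℝ) → ℝ} {Ψ' : ι → (ι → ℝ) → ℝ} {l : ℝ}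

lemma LF.sum_ite (z w : ι → ℝ) : ∑ e, (if e ∈ R then Ψ' e (sw R z w) else 0) ^ 2 =
    ∑ e ∈ R, Ψ' e (sw R z w) ^ 2 := by
  rw [← Finset.sum_filter_add_sum_filter_not univ (fun e => e ∈ R)]
  rw [Finset.sum_congr rfl (g := fun e => Ψ' e (H712.sw R z w) ^ 2) (by
    intro e he; rw [if_pos (mem_filter.1 he).2])]
  rw [Finset.sum_congr (s₁ := filter (fun e => ¬ e ∈ R) univ) rfl (g := fun _ => (0 : ℝ)) (by
    intro e he; rw [if_neg (mem_filter.1 he).2]; ring)]
  simp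

lemma LF.lg (h : LF R Ψ Ψ' l) (z : ι → ℝ) :
    LG (fun w => Ψ (sw R z w)) (fun e w => if e ∈ R then Ψ' e (sw R z w) else 0) l where
  lip := lip_sw h.lip R z
  pd e := by
    by_cases he : e ∈ R
    · simp only [he, if_true]; exact pd_sw (h.pd e he) he z
    · simp only [he, if_false]; exact pd_sw' he z
  eg e := by
    by_cases he : e ∈ R
    · simp only [he, if_true]; exact eg_sw (h.eg e he) R z
    · simp only [he, if_false]; exact EG.const 0
  nn := h.nn
  le w := by rw [LF.sum_ite]; exact h.le _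

lemma LF.en (h : LF R Ψ Ψ' l) : EG fun z => Real.exp (Ψ z) := by
  have := h.lip.exp_eg 1
  simpa using this

lemma LF.av_pos (h : LF R Ψ Ψ' l) (z : ι → ℝ) : 0 < Av R (fun z => Real.exp (Ψ z)) z :=
  (h.lg z).Zr_pos

lemma LF.Zr_eq (z : ι → ℝ) : Zr (fun w => Ψ (sw R z w)) = Av R (fun z => Real.exp (Ψ z)) z := rfl

lemma LF.av_mul (h : LF R Ψ Ψ' l) (f : (ι → ℝ) → ℝ) (z : ι → ℝ) :
    Av R (fun z => Real.exp (Ψ z) * f z) z = Av R (fun z => Real.exp (Ψ z)) z *
      ∫ w, kap (fun w => Ψ (sw R z w)) w * f (sw R z w) ∂(gI ι) := by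
  rw [← integral_const_mul]
  refine integral_congr_ae (ae_of_all _ fun w => ?_)
  show Real.exp (Ψ (H712.sw R z w)) * f (H712.sw R z w) = Av R (fun z => Real.exp (Ψ z)) z *
    (kap (fun w => Ψ (H712.sw R z w)) w * f (H712.sw R z w))
  rw [kap, LF.Zr_eq]
  have := (h.av_pos z).ne'
  field_simp

/-- integrals against the density, with the rows averaged out -/
lemma int_av_mul (hN : EG fun z => Real.exp (Ψ z)) {f : (ι → ℝ) → ℝ} (hf : EG f) :
    ∫ z, Av R (fun z => Real.exp (Ψ z)) z * f z ∂(gI ι) =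
      ∫ z, Av R (fun z => Real.exp (Ψ z)) z * Av R f z ∂(gI ι) := by
  rw [← integral_Av R ((eg_Av R hN).mul hf)]
  refine integral_congr_ae (ae_of_all _ fun z => ?_)
  exact Av_mul (ind_Av R _) f z

/-- **law change, L2 form, fibered** -/
theorem LF.lc2 (h : LF R Ψ Ψ' l) (hl : 16 * l ^ 2 ≤ 1) {f : (ι → ℝ) → ℝ} (hf : EG f) :
    |∫ z, Real.exp (Ψ z) * f z ∂(gI ι) - ∫ z, Av R (fun z => Real.exp (Ψ z)) z * f z ∂(gI ι)| ≤
      √(2 * √((∫ z, Real.exp (Ψ z) ∂(gI ι)) *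
        ∫ z, Av R (fun z => Real.exp (Ψ z)) z * (∑ e ∈ R, Ψ' e z ^ 2) ^ 2 ∂(gI ι))) *
      √(∫ z, Av R (fun z => Real.exp (Ψ z)) z * f z ^ 2 ∂(gI ι)) := by
  set N : (ι → ℝ) → ℝ := fun z => Real.exp (Ψ z) with hN
  have eN : EG N := h.en
  have eNb : EG (Av R N) := eg_Av R eN
  have pNb : ∀ z, 0 < Av R N z := h.av_pos
  set Q : (ι → ℝ) → ℝ := fun z => ∑ e ∈ R, Ψ' e z ^ 2 with hQ
  have eQ : EG Q := EG.sum _ fun e he => (h.eg e he).pow 2
  have eA : EG (Av R fun z => Q z ^ 2) := eg_Av R (eQ.pow 2)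
  have eB : EG (Av R fun z => f z ^ 2) := eg_Av R (hf.pow 2)
  have nA : ∀ z, 0 ≤ Av R (fun z => Q z ^ 2) z := fun z => integral_nonneg fun w => sq_nonneg _
  have nB : ∀ z, 0 ≤ Av R (fun z => f z ^ 2) z := fun z => integral_nonneg fun w => sq_nonneg _
  -- fiberwise
  have hfib : ∀ z, |Av R (fun z => N z * f z) z - Av R N z * Av R f z| ≤
      Av R N z * (√(2 * √(Av R (fun z => Q z ^ 2) z)) * √(Av R (fun z => f z ^ 2) z)) := by
    intro z
    have h1 := (h.lg z).lc2 hl (eg_sw hf R z)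
    have h2 := h.av_mul f z
    rw [h2, ← mul_sub, abs_mul, abs_of_pos (pNb z)]
    refine mul_le_mul_of_nonneg_left ?_ (pNb z).le
    refine h1.trans (le_of_eq ?_)
    simp only [LF.sum_ite]
    rfl
  -- the difference as one integral
  have e1 : ∫ z, N z * f z ∂(gI ι) - ∫ z, Av R N z * f z ∂(gI ι) =
      ∫ z, (Av R (fun z => N z * f z) z - Av R N z * Av R f z) ∂(gI ι) := by
    rw [integral_sub (eg_Av R (eN.mul hf)).integrable (eNb.mul (eg_Av R hf)).integrable,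
      integral_Av R (eN.mul hf), int_av_mul eN hf]
  rw [e1]
  -- Cauchy-Schwarz
  set g1 : (ι → ℝ) → ℝ := fun z => √(Av R N z * (2 * √(Av R (fun z => Q z ^ 2) z))) with hg1
  set g2 : (ι → ℝ) → ℝ := fun z => √(Av R N z * Av R (fun z => f z ^ 2) z) with hg2
  have m1 : Measurable g1 :=
    (eNb.meas.mul (eA.meas.sqrt.const_mul 2)).sqrt
  have m2 : Measurable g2 := (eNb.meas.mul eB.meas).sqrt
  have q1 : ∀ z, g1 z ^ 2 = 2 * (√(Av R N z) * √(Av R N z * Av R (fun z => Q z ^ 2) z)) := by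
    intro z
    rw [hg1]
    simp only
    rw [Real.sq_sqrt (mul_nonneg (pNb z).le (by positivity)),
      Real.sqrt_mul (pNb z).le (Av R (fun z => Q z ^ 2) z), ← mul_assoc (√(Av R N z)),
      Real.mul_self_sqrt (pNb z).le]
    ring
  have q2 : ∀ z, g2 z ^ 2 = Av R N z * Av R (fun z => f z ^ 2) z := fun z =>
    Real.sq_sqrt (mul_nonneg (pNb z).le (nB z))
  -- integrability of g1^2, and its integral
  have s1 : ∀ z, √(Av R N z) ^ 2 = Av R N z := fun z => Real.sq_sqrt (pNb z).le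
  have s2 : ∀ z, √(Av R N z * Av R (fun z => Q z ^ 2) z) ^ 2 =
      Av R N z * Av R (fun z => Q z ^ 2) z := fun z =>
    Real.sq_sqrt (mul_nonneg (pNb z).le (nA z))
  obtain ⟨k1, k2⟩ := int_mul_le (P := gI ι) (f := fun z => √(Av R N z))
    (g := fun z => √(Av R N z * Av R (fun z => Q z ^ 2) z)) eNb.meas.sqrt
    (eNb.meas.mul eA.meas).sqrt (by simp only [s1]; exact eNb.integrable)
    (by simp only [s2]; exact (eNb.mul eA).integrable)
  simp only [s1, s2] at k2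
  have k3 : ∫ z, g1 z ^ 2 ∂(gI ι) ≤ 2 * √((∫ z, N z ∂(gI ι)) *
      ∫ z, Av R N z * Q z ^ 2 ∂(gI ι)) := by
    simp only [q1]
    rw [integral_const_mul]
    refine mul_le_mul_of_nonneg_left (((le_abs_self _).trans k2).trans (le_of_eq ?_)) (by norm_num)
    rw [integral_Av R eN, ← int_av_mul eN (eQ.pow 2), Real.sqrt_mul]
    exact integral_nonneg fun z => (Real.exp_pos _).le
  have k4 : ∫ z, g2 z ^ 2 ∂(gI ι) = ∫ z, Av R N z * f z ^ 2 ∂(gI ι) := by
    simp only [q2]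
    rw [int_av_mul eN (hf.pow 2)]
  have i1 : Integrable (fun z => g1 z ^ 2) (gI ι) := by
    simp only [q1]; exact k1.const_mul 2
  have i2 : Integrable (fun z => g2 z ^ 2) (gI ι) := by
    simp only [q2]; exact (eNb.mul eB).integrable
  obtain ⟨k5, k6⟩ := int_mul_le (P := gI ι) m1 m2 i1 i2
  have e2 : ∀ z, Av R N z * (√(2 * √(Av R (fun z => Q z ^ 2) z)) * √(Av R (fun z => f z ^ 2) z)) =
      g1 z * g2 z := by
    intro z
    rw [hg1, hg2]
    simp only
    rw [Real.sqrt_mul (pNb z).le, Real.sqrt_mul (pNb z).le]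
    have := Real.mul_self_sqrt (pNb z).le
    calc _ = (√(Av R N z) * √(Av R N z)) * (√(2 * √(Av R (fun z => Q z ^ 2) z)) *
          √(Av R (fun z => f z ^ 2) z)) := by rw [this]
      _ = _ := by ring
  calc |∫ z, (Av R (fun z => N z * f z) z - Av R N z * Av R f z) ∂(gI ι)|
      ≤ ∫ z, |Av R (fun z => N z * f z) z - Av R N z * Av R f z| ∂(gI ι) :=
        abs_integral_le_integral_abs
    _ ≤ ∫ z, g1 z * g2 z ∂(gI ι) := by
        refine integral_mono ((eg_Av R (eN.mul hf)).sub (eNb.mul (eg_Av R hf))).abs.integrable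
          k5 fun z => ?_
        rw [← e2 z]; exact hfib z
    _ ≤ √(∫ z, g1 z ^ 2 ∂(gI ι)) * √(∫ z, g2 z ^ 2 ∂(gI ι)) := (le_abs_self _).trans k6
    _ ≤ _ := by
        rw [k4]
        exact mul_le_mul_of_nonneg_right (Real.sqrt_le_sqrt k3) (Real.sqrt_nonneg _)

/-- **law change, upper bound, fibered** -/
theorem LF.lc_up (h : LF R Ψ Ψ' l) (p : ℕ) (hp : ((p : ℝ) + 1) ^ 2 * l ^ 2 ≤ 1)
    {f : (ι → ℝ) → ℝ} (hf : EG f) {K : ℝ} (h0 : ∀ z, 0 ≤ f z) (hK : ∀ z, f z ≤ K) :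
    ∫ z, Real.exp (Ψ z) * f z ∂(gI ι) ≤
      2 * ∫ z, Av R (fun z => Real.exp (Ψ z)) z * f z ∂(gI ι) +
        3 * K / 2 ^ p * ∫ z, Real.exp (Ψ z) ∂(gI ι) := by
  have eN := h.en
  have h1 : ∀ z, Av R (fun z => Real.exp (Ψ z) * f z) z ≤
      2 * (Av R (fun z => Real.exp (Ψ z)) z * Av R f z) +
        3 * K / 2 ^ p * Av R (fun z => Real.exp (Ψ z)) z := by
    intro z
    have h2 := (h.lg z).lc_up p hp (eg_sw hf R z) (fun w => h0 _) (fun w => hK _)
    have h3 := mul_le_mul_of_nonneg_left h2 (h.av_pos z).le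
    rw [h.av_mul f z]
    have h4 : Av R f z = ∫ w, f (H712.sw R z w) ∂(gI ι) := rfl
    rw [h4]
    linarith
  have i1 : Integrable (fun z => 2 * (Av R (fun z => Real.exp (Ψ z)) z * Av R f z)) (gI ι) :=
    ((eg_Av R eN).mul (eg_Av R hf)).integrable.const_mul _
  have i2 : Integrable (fun z => 3 * K / 2 ^ p * Av R (fun z => Real.exp (Ψ z)) z) (gI ι) :=
    (eg_Av R eN).integrable.const_mul _
  have h2 := integral_mono (eg_Av R (eN.mul hf)).integrable (i1.add i2) h1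
  simp only [Pi.add_apply] at h2
  rw [integral_add i1 i2, integral_const_mul, integral_const_mul, integral_Av R eN,
    integral_Av R (eN.mul hf), ← int_av_mul eN hf] at h2
  exact h2

/-- **law change, lower bound, fibered** -/
theorem LF.lc_low (h : LF R Ψ Ψ' l) (p : ℕ) (hp : ((p : ℝ) + 1) ^ 2 * l ^ 2 ≤ 1)
    {f : (ι → ℝ) → ℝ} (hf : EG f) {K : ℝ} (h0 : ∀ z, 0 ≤ f z) (hK : ∀ z, f z ≤ K) :
    ∫ z, Av R (fun z => Real.exp (Ψ z)) z * f z ∂(gI ι) ≤
      2 * ∫ z, Real.exp (Ψ z) * f z ∂(gI ι) +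
        3 * K / 2 ^ p * ∫ z, Real.exp (Ψ z) ∂(gI ι) := by
  have eN := h.en
  have h1 : ∀ z, Av R (fun z => Real.exp (Ψ z)) z * Av R f z ≤
      2 * Av R (fun z => Real.exp (Ψ z) * f z) z +
        3 * K / 2 ^ p * Av R (fun z => Real.exp (Ψ z)) z := by
    intro z
    have h2 := (h.lg z).lc_low p hp (eg_sw hf R z) (fun w => h0 _) (fun w => hK _)
    have h3 := mul_le_mul_of_nonneg_left h2 (h.av_pos z).le
    rw [h.av_mul f z]
    have h4 : Av R f z = ∫ w, f (H712.sw R z w) ∂(gI ι) := rfl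
    rw [h4]
    linarith
  have i1 : Integrable (fun z => 2 * Av R (fun z => Real.exp (Ψ z) * f z) z) (gI ι) :=
    (eg_Av R (eN.mul hf)).integrable.const_mul _
  have i2 : Integrable (fun z => 3 * K / 2 ^ p * Av R (fun z => Real.exp (Ψ z)) z) (gI ι) :=
    (eg_Av R eN).integrable.const_mul _
  have h2 := integral_mono ((eg_Av R eN).mul (eg_Av R hf)).integrable (i1.add i2) h1
  simp only [Pi.add_apply] at h2
  rw [integral_add i1 i2, integral_const_mul, integral_const_mul, integral_Av R eN,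
    integral_Av R (eN.mul hf), ← int_av_mul eN hf] at h2
  exact h2

end fib

end Vale.Agent.P146.H706
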